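-- KEEP
import Claimed.Agent.R255.Ent.Basic

/-!
# Row 255 (BR paper), Sec. 10, EN layer, file 1: the abstract packet score, score splits, selection rules      (architect helper242)

PAPER-FREE finite probability on `R255/Ent/Basic.lean`.   Prefix `pc_`.
* `pscore l P O D lm w` = (9.8):  `[H(O) + H(O|D)/2]/l + (3/2) E lm + (1/2) E w`,  `l = log(1/ε)`, `lm ω = log_{1/ε} m_{O ω}` (already normalised), `w ω = w(D ω)`.
* `pc_split_eq` : EXACT split identity for an arbitrary label `B`:  `P(π) = E_b P(π | B = b) + [I(O;B) + I(O;B|D)/2]/l`.     ([BR] Sec. 10.2 "Further splitting has an equally finite justification".)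
* `pc_split_fn` : if `B` is a function of `O`:  `P(π) = [H(B) + H(B|D)/2]/l + E_b P(π | B = b)`      (first step of (10.7)).
* `pc_restrict` : restriction to an event `E` of probability `p`:  `p (𝒦 - P(π|E)) ≤ (𝒦 - P(π)) + (3/2) log 2 / l + (1-p) ω₀`   if `P(π|¬E) ≤ 𝒦 + ω₀`   (`𝒦 = K₀ + β t`).
   Read it in two ways: (a) the deficit of the restricted law is `≤ (Δ + e + ω₀)/p`;  (b) if the restricted law has deficit `≥ c` then `p c ≤ Δ + e + ω₀`.
* `pc_tag_rule` : the weighted tag rule ("discard tags of probability below p/(4S) ... conditional deficit greater than 4R/p").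
-/

set_option autoImplicit false

namespace Claimed.Agent.R255

open scoped BigOperators
open Classical
open FLaw

variable {Ω : Type} [Fintype Ω] {α β γ δ : Type}

/-- the abstract packet score (9.8) -/
noncomputable def pscore (l : ℝ) (P : FLaw Ω) (O : Ω → α) (D : Ω → β) (lm w : Ω → ℝ) : ℝ :=
  (P.ent O + P.entC O D / 2) / l + 3 / 2 * P.ev lm + 1 / 2 * P.ev w

theorem pc_ev_lin (P : FLaw Ω) (a b c d : Ω → ℝ) (l : ℝ) :
    P.ev (fun ω => (a ω + b ω / 2) / l + 3 / 2 * c ω + 1 / 2 * d ω)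
      = (P.ev a + P.ev b / 2) / l + 3 / 2 * P.ev c + 1 / 2 * P.ev d := by
  unfold FLaw.ev
  have h : ∀ ω, P.p ω * ((a ω + b ω / 2) / l + 3 / 2 * c ω + 1 / 2 * d ω)
      = (P.p ω * a ω + P.p ω * b ω / 2) / l + 3 / 2 * (P.p ω * c ω) + 1 / 2 * (P.p ω * d ω) :=
    fun ω => by ring
  simp only [h, Finset.sum_add_distrib, ← Finset.mul_sum, ← Finset.sum_div]

/-- the average of the scores of the conditional laws -/
theorem pc_ev_cfib (l : ℝ) (P : FLaw Ω) (O : Ω → α) (D : Ω → β) (lm w : Ω → ℝ) (B : Ω → γ) :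
    P.ev (fun ω => pscore l (P.cfib B ω) O D lm w)
      = (P.entC O B + P.entC O (pair D B) / 2) / l + 3 / 2 * P.ev lm + 1 / 2 * P.ev w := by
  unfold pscore
  rw [pc_ev_lin, ← ent_entC_eq_avg, ← ent_entC_pair_eq_avg, ← ent_ev_tower, ← ent_ev_tower]

/-- **exact split identity** -/
theorem pc_split_eq (l : ℝ) (P : FLaw Ω) (O : Ω → α) (D : Ω → β) (lm w : Ω → ℝ) (B : Ω → γ) :
    pscore l P O D lm w
      = P.ev (fun ω => pscore l (P.cfib B ω) O D lm w) + (P.mi O B + P.miC O B D / 2) / l := by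
  rw [pc_ev_cfib, ent_mi_eq, ent_miC_eq]
  have h : P.entC O (pair B D) = P.entC O (pair D B) := by
    refine ent_entC_congr P O O _ _ (fun ω ω' _ _ => ?_) (fun _ _ _ _ _ => Iff.rfl)
    simp only [pair, Prod.mk.injEq]
    exact and_comm
  rw [h]
  unfold pscore
  ring

theorem pc_split_ge {l : ℝ} (hl : 0 < l) (P : FLaw Ω) (O : Ω → α) (D : Ω → β) (lm w : Ω → ℝ)
    (B : Ω → γ) :
    P.ev (fun ω => pscore l (P.cfib B ω) O D lm w) ≤ pscore l P O D lm w := by
  rw [pc_split_eq l P O D lm w B]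
  have h1 := ent_mi_nonneg P O B
  have h2 := ent_miC_nonneg P O B D
  have : 0 ≤ (P.mi O B + P.miC O B D / 2) / l := by positivity
  linarith

theorem pc_split_le {l : ℝ} (hl : 0 < l) (P : FLaw Ω) (O : Ω → α) (D : Ω → β) (lm w : Ω → ℝ)
    (B : Ω → γ) :
    pscore l P O D lm w
      ≤ P.ev (fun ω => pscore l (P.cfib B ω) O D lm w) + 3 / 2 * P.ent B / l := by
  rw [pc_split_eq l P O D lm w B]
  have h1 := ent_mi_le_right P O B
  have h2 := (ent_miC_le_right P O B D).trans (ent_entC_le P B D)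
  have : (P.mi O B + P.miC O B D / 2) / l ≤ 3 / 2 * P.ent B / l := by
    apply div_le_div_of_nonneg_right _ hl.le
    linarith
  linarith

/-- split along a function of the observation -/
theorem pc_split_fn (l : ℝ) (P : FLaw Ω) (O : Ω → α) (D : Ω → β) (lm w : Ω → ℝ) (B : Ω → γ)
    (hB : ∀ ω ω', P.p ω ≠ 0 → P.p ω' ≠ 0 → O ω = O ω' → B ω = B ω') :
    pscore l P O D lm w
      = (P.ent B + P.entC B D / 2) / l + P.ev (fun ω => pscore l (P.cfib B ω) O D lm w) := by
  rw [pc_split_eq l P O D lm w B]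
  have h1 : P.mi O B = P.ent B := by
    unfold FLaw.mi
    rw [ent_pair_of_ker P O B hB]; ring
  have h2 : P.miC O B D = P.entC B D := by
    unfold FLaw.miC FLaw.entC
    have : P.ent (pair (pair O B) D) = P.ent (pair O D) := by
      refine ent_congr_ker P _ _ (fun ω ω' h h' => ?_)
      simp only [pair, Prod.mk.injEq]
      exact ⟨fun ⟨⟨a, _⟩, c⟩ => ⟨a, c⟩, fun ⟨a, c⟩ => ⟨⟨a, hB ω ω' h h' a⟩, c⟩⟩
    rw [this]; ring
  rw [h1, h2]; ring

/-- monotonicity in the masses and the weights -/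
theorem pc_score_mono (l : ℝ) (P : FLaw Ω) (O : Ω → α) (D : Ω → β) {lm lm' w w' : Ω → ℝ}
    (h1 : ∀ ω, P.p ω ≠ 0 → lm ω ≤ lm' ω) (h2 : ∀ ω, P.p ω ≠ 0 → w ω ≤ w' ω) :
    pscore l P O D lm w ≤ pscore l P O D lm' w' := by
  unfold pscore
  have a1 := ent_ev_mono P h1
  have a2 := ent_ev_mono P h2
  linarith

/-- shifting the masses and the weights by constants -/
theorem pc_score_shift (l : ℝ) (P : FLaw Ω) (O : Ω → α) (D : Ω → β) (lm w : Ω → ℝ) (c d : ℝ) :
    pscore l P O D (fun ω => lm ω + c) (fun ω => w ω + d)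
      = pscore l P O D lm w + 3 / 2 * c + 1 / 2 * d := by
  unfold pscore
  rw [ent_ev_add, ent_ev_add, ent_ev_const, ent_ev_const]; ring

theorem pc_ev_ite (P : FLaw Ω) (E : Ω → Prop) (c₁ c₂ : ℝ) :
    P.ev (fun ω => if E ω then c₁ else c₂) = P.pr E * c₁ + (1 - P.pr E) * c₂ := by
  unfold FLaw.ev FLaw.pr
  have h : ∀ ω, P.p ω * (if E ω then c₁ else c₂)
      = (if E ω then P.p ω else 0) * c₁ + (P.p ω - (if E ω then P.p ω else 0)) * c₂ := by
    intro ω
    by_cases hω : E ω <;> simp [hω]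
  simp only [h, Finset.sum_add_distrib, ← Finset.sum_mul, Finset.sum_sub_distrib, P.sum_one]

/-- averages over the two cells of an event -/
theorem pc_ev_cfib_prop (P : FLaw Ω) (E : Ω → Prop) (F : FLaw Ω → ℝ) :
    P.ev (fun ω => F (P.cfib E ω))
      = P.pr E * F (P.cnd E) + (1 - P.pr E) * F (P.cnd (fun ω => ¬ E ω)) := by
  have h : ∀ ω, F (P.cfib E ω) = if E ω then F (P.cnd E) else F (P.cnd (fun ω => ¬ E ω)) := by
    intro ω
    unfold FLaw.cfib
    by_cases hω : E ω
    · have : P.cnd (fun ω' => E ω' = E ω) = P.cnd E :=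
        ent_cnd_congr P (fun ω' _ => by simp [hω])
      rw [this, if_pos hω]
    · have : P.cnd (fun ω' => E ω' = E ω) = P.cnd (fun ω => ¬ E ω) :=
        ent_cnd_congr P (fun ω' _ => by simp [hω])
      rw [this, if_neg hω]
  simp only [h]
  exact pc_ev_ite P E _ _

/-- **restriction rule** -/
theorem pc_restrict {l : ℝ} (hl : 0 < l) (P : FLaw Ω) (O : Ω → α) (D : Ω → β) (lm w : Ω → ℝ)
    (E : Ω → Prop) {𝒦 ω₀ : ℝ}
    (h2 : P.pr E < 1 → pscore l (P.cnd (fun ω => ¬ E ω)) O D lm w ≤ 𝒦 + ω₀) :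
    P.pr E * (𝒦 - pscore l (P.cnd E) O D lm w)
      ≤ (𝒦 - pscore l P O D lm w) + 3 / 2 * Real.log 2 / l + (1 - P.pr E) * ω₀ := by
  have h := pc_split_le hl P O D lm w E
  rw [pc_ev_cfib_prop P E (fun Q => pscore l Q O D lm w)] at h
  have he : 3 / 2 * P.ent E / l ≤ 3 / 2 * Real.log 2 / l := by
    apply div_le_div_of_nonneg_right _ hl.le
    linarith [ent_prop_le P E]
  have hp1 := ent_pr_le_one P E
  have h3 : (1 - P.pr E) * pscore l (P.cnd (fun ω => ¬ E ω)) O D lm w ≤ (1 - P.pr E) * (𝒦 + ω₀) := by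
    rcases hp1.lt_or_eq with h' | h'
    · exact mul_le_mul_of_nonneg_left (h2 h') (by linarith)
    · rw [h']; simp
  nlinarith

/-- the shifted deficits of the branches of a label have small mean -/
theorem pc_split_deficit {l : ℝ} (hl : 0 < l) (P : FLaw Ω) (O : Ω → α) (D : Ω → β) (lm w : Ω → ℝ)
    (B : Ω → γ) (𝒦 : ℝ) :
    P.ev (fun ω => 𝒦 - pscore l (P.cfib B ω) O D lm w)
      ≤ (𝒦 - pscore l P O D lm w) + 3 / 2 * P.ent B / l := by
  rw [ent_ev_sub, ent_ev_const]
  linarith [pc_split_le hl P O D lm w B]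

/-- **weighted tag rule** -/
theorem pc_tag_rule (P : FLaw Ω) (B : Ω → γ) (U : Ω → Prop) (d : Ω → ℝ)
    (hd : ∀ ω, P.p ω ≠ 0 → 0 ≤ d ω) {R p : ℝ} (hR : P.ev d ≤ R) (hp : 0 < p) (hpU : p ≤ P.pr U)
    (F : Finset γ) (hF : ∀ ω, P.p ω ≠ 0 → U ω → B ω ∈ F) :
    ∃ ω, P.p ω ≠ 0 ∧ U ω ∧ p / (4 * F.card) ≤ P.pr (fun ω' => B ω' = B ω ∧ U ω') ∧
      d ω ≤ 4 * R / p := by
  by_contra hcon
  push Not at hcon
  have hev0 : 0 ≤ P.ev d := ent_ev_nonneg P hd
  have hR0 : 0 ≤ R := hev0.trans hR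
  -- the two bad events
  have hcover : P.pr U ≤ P.pr (fun ω => U ω ∧
      P.pr (fun ω' => B ω' = B ω ∧ U ω') < p / (4 * F.card)) + P.pr (fun ω => 4 * R / p < d ω) := by
    refine le_trans (ent_pr_mono P fun ω hω hU => ?_) (ent_pr_or_le P _ _)
    by_cases h1 : p / (4 * F.card) ≤ P.pr (fun ω' => B ω' = B ω ∧ U ω')
    · exact Or.inr (hcon ω hω hU h1)
    · exact Or.inl ⟨hU, not_le.1 h1⟩
  have hsmall : P.pr (fun ω => U ω ∧
      P.pr (fun ω' => B ω' = B ω ∧ U ω') < p / (4 * F.card)) ≤ p / 4 := by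
    rw [ent_pr_sum_values P _ B F (fun ω hω h => hF ω hω h.1)]
    have hterm : ∀ b ∈ F, P.pr (fun ω => (U ω ∧
        P.pr (fun ω' => B ω' = B ω ∧ U ω') < p / (4 * F.card)) ∧ B ω = b) ≤ p / (4 * F.card) := by
      intro b _
      by_cases hb : P.pr (fun ω' => B ω' = b ∧ U ω') < p / (4 * F.card)
      · refine le_trans (ent_pr_mono P fun ω _ h => ?_) hb.le
        exact ⟨h.2, h.1.1⟩
      · have hz : P.pr (fun ω => (U ω ∧
            P.pr (fun ω' => B ω' = B ω ∧ U ω') < p / (4 * F.card)) ∧ B ω = b) = 0 := by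
          refine ent_pr_eq_zero P (fun ω _ h => hb ?_)
          have h2 := h.1.2
          rw [h.2] at h2
          exact h2
        rw [hz]
        positivity
    refine (Finset.sum_le_sum hterm).trans ?_
    rw [Finset.sum_const, nsmul_eq_mul]
    rcases Nat.eq_zero_or_pos F.card with h0 | h0
    · rw [h0]; simp; positivity
    · have : (0 : ℝ) < F.card := by exact_mod_cast h0
      apply le_of_eq; field_simp
  have hbig : P.pr (fun ω => 4 * R / p < d ω) ≤ p / 4 := by
    rcases hR0.lt_or_eq with h0 | h0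
    · have ht : 0 < 4 * R / p := by positivity
      refine le_trans (ent_pr_mono P fun ω _ h => le_of_lt h) ((ent_markov P hd ht).trans ?_)
      rw [div_le_iff₀ ht]
      have : p / 4 * (4 * R / p) = R := by field_simp
      rw [this]; exact hR
    · have hz : P.ev d = 0 := le_antisymm (h0 ▸ hR) hev0
      rw [ent_pr_eq_zero P (fun ω hω h => ?_)]
      · positivity
      · rw [← h0] at h
        simp only [mul_zero, zero_div] at h
        unfold FLaw.ev at hz
        have hnn : ∀ ω ∈ Finset.univ, 0 ≤ P.p ω * d ω := by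
          intro ω _
          by_cases hp0 : P.p ω = 0
          · rw [hp0]; simp
          · exact mul_nonneg (P.nonneg ω) (hd ω hp0)
        have := (Finset.sum_eq_zero_iff_of_nonneg hnn).1 hz ω (Finset.mem_univ ω)
        rcases mul_eq_zero.1 this with h1 | h1
        · exact hω h1
        · linarith
  linarith

theorem pc_score_eqns_cite : True := by
  have := @pscore.eq_1
  trivial

end Claimed.Agent.R255
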