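-- KEEP
import Claimed.Agent.R255.Comp.Score

/-!
# Row 255 (BR paper), Sec. 10, EN layer, file 2: FINITE PACKET COMPOSITION (Proposition 10.1), numeric form      (architect helper242)

PAPER-FREE.  Everything is stated for an ARBITRARY current endpoint law `P` on the sample space `Ω` with FROZEN data:
`O` site, `D` aperture label, `J : Ω → 𝒥` tagged localizer (= winner map ∘ `O`), `lm` = `log_{1/ε} m_O(f)`, `lmW` = `log_{1/ε} m_O(h_J)` (winning superposition), `w` = `w(D)`,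
`bs = b_*`, and functions of the localizer (all NORMALISED logarithms): `LA j = log N_all`, `LN j = log N`, `Lm j = log m`, `g j`, `K j = K_J` (canonical local root score).
* `pcA`, `pcKstar`, `pcPJ` = (10.5), (10.6), `P_J`;   `pcd0 .. pcd3` = the four deficits (10.7).
* `pc_split_J`  = (10.9):  `P_t ≤ H(J) + b_* + E P_J + R`.
* `CompHyp`     = the four inputs of P10.1 (from P9.5, the winner estimate and `PRate`).
* `pc_comp`     = (10.8);   `pc_comp_markov` = (10.11);   `pc_comp_Kstar_ge`, `pc_comp_bench` = the forms used in Sec. 11 ((11.20), (11.21)).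
-/

set_option autoImplicit false

namespace Claimed.Agent.R255

open scoped BigOperators
open Classical
open FLaw

variable {Ω : Type} [Fintype Ω] {α β 𝒥 : Type}

/-- `A_J`   (10.5) -/
noncomputable def pcA (LN Lm g : 𝒥 → ℝ) (j : 𝒥) : ℝ := LN j + 3 / 2 * Lm j + 1 / 2 * g j

/-- `K_r^*`   (10.6) -/
noncomputable def pcKstar (l : ℝ) (P : FLaw Ω) (J : Ω → 𝒥) (bs : ℝ) (LA Lm g : 𝒥 → ℝ) : ℝ :=
  P.ent J / l + bs + P.ev (fun o => pcA LA Lm g (J o))

/-- `P_J` : the score of the conditional law with the winning masses and the local weights -/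
noncomputable def pcPJ (l : ℝ) (P : FLaw Ω) (O : Ω → α) (D : Ω → β) (J : Ω → 𝒥) (lmW w : Ω → ℝ) (bs : ℝ)
    (o : Ω) : ℝ :=
  pscore l (P.cfib J o) O D lmW (fun o' => w o' - 2 * bs)

/-- **(10.9)**.  `J` is a function of the site; over each aperture label at most `S₁` values of `J`; `m_O(f) ≤ ε^{-dm} m_O(h_J)`. -/
theorem pc_split_J {l : ℝ} (hl : 0 < l) (P : FLaw Ω) (O : Ω → α) (D : Ω → β) (J : Ω → 𝒥) (lm lmW w : Ω → ℝ)
    (bs dm S₁ : ℝ)
    (hJO : ∀ o o', P.p o ≠ 0 → P.p o' ≠ 0 → O o = O o' → J o = J o')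
    (hJD : P.NVal (fun _ => True) J D S₁)
    (hm : ∀ o, P.p o ≠ 0 → lm o ≤ lmW o + dm) :
    pscore l P O D lm w
      ≤ P.ent J / l + bs + P.ev (pcPJ l P O D J lmW w bs) + (Real.log S₁ / (2 * l) + 3 / 2 * dm) := by
  rw [pc_split_fn l P O D lm w J hJO]
  have h1 : P.entC J D ≤ Real.log S₁ := ent_entC_le_log_nval P J D hJD
  have h2 : P.ev (fun o => pscore l (P.cfib J o) O D lm w)
      ≤ P.ev (fun o => pcPJ l P O D J lmW w bs o + (3 / 2 * dm + bs)) := by
    refine ent_ev_mono P fun o ho => ?_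
    have hpos : 0 < P.pr (fun o' => J o' = J o) := ent_fib_pos P J ho
    have hs : ∀ o', (P.cfib J o).p o' ≠ 0 → P.p o' ≠ 0 := fun o' h =>
      ((ent_cnd_supp P _ hpos).1 h).2
    have h3 := pc_score_mono l (P.cfib J o) O D (lm := lm) (lm' := fun o' => lmW o' + dm) (w := w)
      (w' := fun o' => (w o' - 2 * bs) + 2 * bs) (fun o' h => hm o' (hs o' h))
      (fun o' _ => by linarith)
    rw [pc_score_shift] at h3
    unfold pcPJ
    linarith
  rw [ent_ev_add, ent_ev_const] at h2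
  have h4 : (P.ent J + P.entC J D / 2) / l ≤ P.ent J / l + Real.log S₁ / (2 * l) := by
    rw [add_div]
    have : P.entC J D / 2 / l ≤ Real.log S₁ / (2 * l) := by
      rw [div_div]
      exact div_le_div_of_nonneg_right h1 (by positivity)
    linarith
  linarith

/-- the inputs of Proposition 10.1 for the current law `P` -/
structure CompHyp (l : ℝ) (P : FLaw Ω) (O : Ω → α) (D : Ω → β) (J : Ω → 𝒥) (lm lmW w : Ω → ℝ) (bs : ℝ)
    (LA LN Lm g K : 𝒥 → ℝ) (K0 b r t R : ℝ) : Prop where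
  /-- (10.9) -/
  split : pscore l P O D lm w ≤ P.ent J / l + bs + P.ev (pcPJ l P O D J lmW w bs) + R
  /-- retained classes are subclasses -/
  sub : ∀ o, P.p o ≠ 0 → LN (J o) ≤ LA (J o)
  /-- P9.5, upper half -/
  root : ∀ o, P.p o ≠ 0 → K (J o) ≤ pcA LN Lm g (J o) + R
  /-- P9.5, lower half + growth before the cut -/
  whole : pcKstar l P J bs LA Lm g ≤ K0 + b * r + 2 * R
  /-- growth after the cut, uniformly in the localizer -/
  loc : ∀ o, P.p o ≠ 0 → pcPJ l P O D J lmW w bs o ≤ K (J o) + b * (t - r) + R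

/-- `d_0` -/
noncomputable def pcd0 (l : ℝ) (P : FLaw Ω) (J : Ω → 𝒥) (bs : ℝ) (LA Lm g : 𝒥 → ℝ) (K0 b r R : ℝ) : ℝ :=
  K0 + b * r - pcKstar l P J bs LA Lm g + 2 * R
/-- `d_1(J)` -/
def pcd1 (LA LN : 𝒥 → ℝ) (j : 𝒥) : ℝ := LA j - LN j
/-- `d_2(J)` -/
noncomputable def pcd2 (LN Lm g K : 𝒥 → ℝ) (R : ℝ) (j : 𝒥) : ℝ := pcA LN Lm g j - K j + R
/-- `d_3(J)` (as a function of the sample) -/
noncomputable def pcd3 (l : ℝ) (P : FLaw Ω) (O : Ω → α) (D : Ω → β) (J : Ω → 𝒥) (lmW w : Ω → ℝ) (bs : ℝ)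
    (K : 𝒥 → ℝ) (b r t R : ℝ) (o : Ω) : ℝ :=
  K (J o) + b * (t - r) - pcPJ l P O D J lmW w bs o + R

section
variable {l : ℝ} {P : FLaw Ω} {O : Ω → α} {D : Ω → β} {J : Ω → 𝒥} {lm lmW w : Ω → ℝ} {bs : ℝ}
  {LA LN Lm g K : 𝒥 → ℝ} {K0 b r t R : ℝ}

theorem CompHyp.d0_nonneg (H : CompHyp l P O D J lm lmW w bs LA LN Lm g K K0 b r t R) :
    0 ≤ pcd0 l P J bs LA Lm g K0 b r R := by
  unfold pcd0; linarith [H.whole]

theorem CompHyp.d1_nonneg (H : CompHyp l P O D J lm lmW w bs LA LN Lm g K K0 b r t R) (o : Ω)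
    (ho : P.p o ≠ 0) : 0 ≤ pcd1 LA LN (J o) := by
  unfold pcd1; linarith [H.sub o ho]

theorem CompHyp.d2_nonneg (H : CompHyp l P O D J lm lmW w bs LA LN Lm g K K0 b r t R) (o : Ω)
    (ho : P.p o ≠ 0) : 0 ≤ pcd2 LN Lm g K R (J o) := by
  unfold pcd2; linarith [H.root o ho]

theorem CompHyp.d3_nonneg (H : CompHyp l P O D J lm lmW w bs LA LN Lm g K K0 b r t R) (o : Ω)
    (ho : P.p o ≠ 0) : 0 ≤ pcd3 l P O D J lmW w bs K b r t R o := by
  unfold pcd3; linarith [H.loc o ho]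

/-- **Proposition 10.1, (10.8)** : `d_0 + E (d_1 + d_2 + d_3) ≤ Δ_t + 5 R` -/
theorem pc_comp (H : CompHyp l P O D J lm lmW w bs LA LN Lm g K K0 b r t R) :
    pcd0 l P J bs LA Lm g K0 b r R
      + P.ev (fun o => pcd1 LA LN (J o) + pcd2 LN Lm g K R (J o) + pcd3 l P O D J lmW w bs K b r t R o)
      ≤ (K0 + b * t - pscore l P O D lm w) + 5 * R := by
  have e : P.ev (fun o => pcd1 LA LN (J o) + pcd2 LN Lm g K R (J o)
        + pcd3 l P O D J lmW w bs K b r t R o)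
      = P.ev (fun o => pcA LA Lm g (J o)) - P.ev (pcPJ l P O D J lmW w bs) + (b * (t - r) + 2 * R) := by
    rw [← ent_ev_sub, ← ent_ev_const P (b * (t - r) + 2 * R), ← ent_ev_add]
    refine ent_ev_congr P fun o _ => ?_
    unfold pcd1 pcd2 pcd3 pcA
    ring
  rw [e]
  unfold pcd0 pcKstar
  linarith [H.split]

/-- **(10.11)** Markov selection -/
theorem pc_comp_markov (H : CompHyp l P O D J lm lmW w bs LA LN Lm g K K0 b r t R) {θ : ℝ} (hθ : 0 < θ) :
    P.pr (fun o => θ ≤ pcd1 LA LN (J o) + pcd2 LN Lm g K R (J o) + pcd3 l P O D J lmW w bs K b r t R o)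
      ≤ ((K0 + b * t - pscore l P O D lm w) + 5 * R) / θ := by
  refine (ent_markov P (fun o ho => ?_) hθ).trans ?_
  · linarith [H.d1_nonneg o ho, H.d2_nonneg o ho, H.d3_nonneg o ho]
  · apply div_le_div_of_nonneg_right _ hθ.le
    linarith [pc_comp H, H.d0_nonneg]

/-- the mean retention loss is controlled by the deficit -/
theorem pc_comp_d1 (H : CompHyp l P O D J lm lmW w bs LA LN Lm g K K0 b r t R) :
    pcd0 l P J bs LA Lm g K0 b r R + P.ev (fun o => pcd1 LA LN (J o))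
      ≤ (K0 + b * t - pscore l P O D lm w) + 5 * R := by
  have h1 : P.ev (fun o => pcd1 LA LN (J o)) ≤ P.ev (fun o => pcd1 LA LN (J o)
      + pcd2 LN Lm g K R (J o) + pcd3 l P O D J lmW w bs K b r t R o) :=
    ent_ev_mono P fun o ho => by linarith [H.d2_nonneg o ho, H.d3_nonneg o ho]
  linarith [pc_comp H]

/-- the benchmark `B_r = H(J) + b_* + E A_J = K_r^* - E d_1`   (11.19) -/
theorem pc_bench_eq (l : ℝ) (P : FLaw Ω) (J : Ω → 𝒥) (bs : ℝ) (LA LN Lm g : 𝒥 → ℝ) :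
    pcKstar l P J bs LN Lm g = pcKstar l P J bs LA Lm g - P.ev (fun o => pcd1 LA LN (J o)) := by
  unfold pcKstar
  have : P.ev (fun o => pcA LN Lm g (J o))
      = P.ev (fun o => pcA LA Lm g (J o)) - P.ev (fun o => pcd1 LA LN (J o)) := by
    rw [← ent_ev_sub]
    refine ent_ev_congr P fun o _ => ?_
    unfold pcA pcd1; ring
  rw [this]; ring

/-- **(11.20)** : `B_r + b (t - r) - P_t = Δ_t + 2R - d_0 - E d_1 ≤ Δ_t + 2R` -/
theorem pc_bench_bridge (H : CompHyp l P O D J lm lmW w bs LA LN Lm g K K0 b r t R) :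
    pcKstar l P J bs LN Lm g + b * (t - r) - pscore l P O D lm w
      ≤ (K0 + b * t - pscore l P O D lm w) + 2 * R := by
  rw [pc_bench_eq l P J bs LA LN Lm g]
  have h0 := H.d0_nonneg
  have h1 : 0 ≤ P.ev (fun o => pcd1 LA LN (J o)) := ent_ev_nonneg P fun o ho => H.d1_nonneg o ho
  unfold pcd0 at h0
  linarith

/-- lower bound of the benchmark: `B_r ≥ K_0 + b r - Δ_t - 3R` -/
theorem pc_bench_ge (H : CompHyp l P O D J lm lmW w bs LA LN Lm g K K0 b r t R) :
    K0 + b * r - ((K0 + b * t - pscore l P O D lm w) + 3 * R) ≤ pcKstar l P J bs LN Lm g := by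
  rw [pc_bench_eq l P J bs LA LN Lm g]
  have h := pc_comp_d1 H
  unfold pcd0 at h
  linarith

end

theorem pc_main_eqns_cite : True := by
  have := @pcA.eq_1
  have := @pcKstar.eq_1
  have := @pcPJ.eq_1
  have := @pcd0.eq_1
  have := @pcd1.eq_1
  have := @pcd2.eq_1
  have := @pcd3.eq_1
  trivial

end Claimed.Agent.R255
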