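-- KEEP
import Claimed.Agent.R255.Comp.Main
import Claimed.Agent.R255.Pk9.Score

/-!
# Row 255 (BR paper), Sec. 10, EN layer, file 3: THE EARLIER TESTS (P9.5 lower half, (10.10), the isotropic test of P10.4)      (architect helper242)

PAPER-FREE.  `P` = current endpoint law on `Ω`, `J : Ω → 𝒥` tagged localizer, `cls j ⊆ clsA j` retained / whole class (finite sets of atoms `τ`).
`pcMu P J cls` = the EARLIER LAW on `Ω × τ` : keep the current marginal of `J`, then choose the atom `T` uniformly in `cls J`.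
Observations of the earlier test: `site (J, T)` (the map `(j, T) ↦ site` is at most `M₁`-to-one), label `D_r = (J, cap J T)`, normalised log-mass `lmr`, weight `2 b_* + wc J (cap J T)`.
* `pc_earlier_ret` = (10.10)  `P_r^ret ≥ K_r^* - (3/2) E d_1 - err`;  with `cls = clsA` it is (9.earlier-whole-score).
* `pc_earlier_iso` = the display before the end of the proof of P10.4:  `P_r^iso ≥ H(J) + E[log N + (3/2) log m + v] - err`.
The paper's KL identity (10.12) is replaced by `log x ≤ x - 1` (`pc_fibre_jensen`).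
-/

set_option autoImplicit false

namespace Claimed.Agent.R255

open scoped BigOperators
open Classical
open FLaw

variable {Ω : Type} [Fintype Ω] {𝒥 τ σ κ δ : Type} [Fintype τ] [Nonempty τ]

/-- the earlier law -/
noncomputable def pcMu (P : FLaw Ω) (J : Ω → 𝒥) (cls : 𝒥 → Finset τ) : FLaw (Ω × τ) :=
  P.ext (p9_unif fun o => cls (J o))

/-- normalised logarithm of the size of a class -/
noncomputable def pcLN (l : ℝ) (cls : 𝒥 → Finset τ) (j : 𝒥) : ℝ := Real.log ((cls j).card : ℝ) / l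

/-- the size of the fibre of `f` through `T` inside `A` -/
noncomputable def pcFib (A : Finset τ) (f : τ → κ) (T : τ) : ℝ := ((A.filter fun T' => f T' = f T).card : ℝ)

theorem pc_mu_supp (P : FLaw Ω) (J : Ω → 𝒥) (cls : 𝒥 → Finset τ)
    (hne : ∀ o, P.p o ≠ 0 → (cls (J o)).Nonempty) (x : Ω × τ) (hx : (pcMu P J cls).p x ≠ 0) :
    P.p x.1 ≠ 0 ∧ x.2 ∈ cls (J x.1) :=
  p9_unif_supp P (fun o => cls (J o)) hne x hx

/-- expectation under the earlier law -/
theorem pc_mu_ev (P : FLaw Ω) (J : Ω → 𝒥) (cls : 𝒥 → Finset τ)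
    (hne : ∀ o, P.p o ≠ 0 → (cls (J o)).Nonempty) (F : Ω × τ → ℝ) :
    (pcMu P J cls).ev F = P.ev (fun o => (∑ T ∈ cls (J o), F (o, T)) / ((cls (J o)).card : ℝ)) := by
  unfold pcMu FLaw.ev
  rw [Fintype.sum_prod_type]
  refine Finset.sum_congr rfl fun o _ => ?_
  by_cases hp : P.p o = 0
  · simp [p9_ext_p, hp]
  · have hk := p9_unif_k (fun o => cls (J o)) o (hne o hp)
    simp only [p9_ext_p, hk]
    rw [Finset.sum_div, Finset.mul_sum]
    have e : ∀ T : τ, P.p o * (if T ∈ cls (J o) then 1 / ((cls (J o)).card : ℝ) else 0) * F (o, T)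
        = if T ∈ cls (J o) then P.p o * (F (o, T) / ((cls (J o)).card : ℝ)) else 0 := by
      intro T
      split_ifs
      · ring
      · ring
    simp only [e]
    rw [← Finset.sum_filter]
    refine Finset.sum_congr ?_ fun _ _ => rfl
    ext T
    simp

/-- `E_Q log (n_E / r_E) ≤ log (N_all / N)`   (10.12) -/
theorem pc_fibre_jensen (A B : Finset τ) (hA : A.Nonempty) (hAB : A ⊆ B) (f : τ → κ) :
    (∑ T ∈ A, (Real.log (pcFib B f T) - Real.log (pcFib A f T))) / (A.card : ℝ)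
      ≤ Real.log (B.card : ℝ) - Real.log (A.card : ℝ) := by
  have ha : (0 : ℝ) < A.card := by exact_mod_cast Finset.card_pos.2 hA
  have hab : (A.card : ℝ) ≤ B.card := by exact_mod_cast Finset.card_le_card hAB
  have hb : (0 : ℝ) < B.card := lt_of_lt_of_le ha hab
  have hr : ∀ T ∈ A, 0 < pcFib A f T := by
    intro T hT
    unfold pcFib
    have : 0 < (A.filter fun T' => f T' = f T).card := Finset.card_pos.2 ⟨T, Finset.mem_filter.2 ⟨hT, rfl⟩⟩
    exact_mod_cast this
  have hn : ∀ T ∈ A, 0 < pcFib B f T := by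
    intro T hT
    unfold pcFib
    have : 0 < (B.filter fun T' => f T' = f T).card := Finset.card_pos.2 ⟨T, Finset.mem_filter.2 ⟨hAB hT, rfl⟩⟩
    exact_mod_cast this
  -- the sum of the ratios
  have hS : ∑ T ∈ A, pcFib B f T / pcFib A f T ≤ B.card := by
    rw [← Finset.sum_fiberwise_of_maps_to (s := A) (t := A.image f) (g := f)
      (fun T hT => Finset.mem_image_of_mem f hT)]
    have h1 : ∀ e ∈ A.image f, ∑ T ∈ A with f T = e, pcFib B f T / pcFib A f T
        = ((B.filter fun T' => f T' = e).card : ℝ) := by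
      intro e he
      obtain ⟨T0, hT0, rfl⟩ := Finset.mem_image.1 he
      have h2 : ∀ T ∈ A.filter fun T => f T = f T0, pcFib B f T / pcFib A f T
          = pcFib B f T0 / pcFib A f T0 := by
        intro T hT
        unfold pcFib
        rw [(Finset.mem_filter.1 hT).2]
      rw [Finset.sum_congr rfl h2, Finset.sum_const, nsmul_eq_mul]
      have h3 : (((A.filter fun T => f T = f T0).card : ℕ) : ℝ) = pcFib A f T0 := rfl
      rw [h3, mul_div_cancel₀ _ (hr T0 hT0).ne']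
      rfl
    rw [Finset.sum_congr rfl h1]
    have h4 : ∑ e ∈ A.image f, (B.filter fun T' => f T' = e).card ≤ B.card := by
      rw [Finset.card_eq_sum_card_image f B]
      exact Finset.sum_le_sum_of_subset (Finset.image_subset_image hAB)
    exact_mod_cast h4
  have hterm : ∀ T ∈ A, Real.log (pcFib B f T) - Real.log (pcFib A f T)
      ≤ (Real.log (B.card : ℝ) - Real.log (A.card : ℝ))
        + ((A.card : ℝ) / B.card * (pcFib B f T / pcFib A f T) - 1) := by
    intro T hT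
    have hpos : 0 < (A.card : ℝ) / B.card * (pcFib B f T / pcFib A f T) :=
      mul_pos (div_pos ha hb) (div_pos (hn T hT) (hr T hT))
    have h1 := Real.log_le_sub_one_of_pos hpos
    rw [Real.log_mul (div_pos ha hb).ne' (div_pos (hn T hT) (hr T hT)).ne', Real.log_div ha.ne' hb.ne',
      Real.log_div (hn T hT).ne' (hr T hT).ne'] at h1
    linarith
  rw [div_le_iff₀ ha]
  refine (Finset.sum_le_sum hterm).trans ?_
  have e : ∑ T ∈ A, ((Real.log (B.card : ℝ) - Real.log (A.card : ℝ))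
        + ((A.card : ℝ) / B.card * (pcFib B f T / pcFib A f T) - 1))
      = (A.card : ℝ) * (Real.log (B.card : ℝ) - Real.log (A.card : ℝ))
        + ((A.card : ℝ) / B.card * ∑ T ∈ A, pcFib B f T / pcFib A f T - A.card) := by
    rw [Finset.sum_add_distrib, Finset.sum_const, nsmul_eq_mul]
    congr 1
    rw [Finset.sum_sub_distrib, ← Finset.mul_sum, Finset.sum_const, nsmul_eq_mul, mul_one]
  rw [e]
  have h5 : (A.card : ℝ) / B.card * ∑ T ∈ A, pcFib B f T / pcFib A f T ≤ (A.card : ℝ) / B.card * B.card :=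
    mul_le_mul_of_nonneg_left hS (div_pos ha hb).le
  rw [div_mul_cancel₀ _ hb.ne'] at h5
  linarith

/-- `H(J, T) = H(J) + E log N(J)` -/
theorem pc_mu_ent (P : FLaw Ω) (J : Ω → 𝒥) (cls : 𝒥 → Finset τ)
    (hne : ∀ o, P.p o ≠ 0 → (cls (J o)).Nonempty) :
    (pcMu P J cls).ent (fun x => (J x.1, x.2)) = P.ent J + P.ev (fun o => Real.log ((cls (J o)).card : ℝ)) := by
  unfold pcMu
  have h1 : (P.ext (p9_unif fun o => cls (J o))).ent (fun x => (J x.1, x.2))
      = (P.ext (p9_unif fun o => cls (J o))).ent (pair (fun x : Ω × τ => x.2) (fun x : Ω × τ => J x.1)) :=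
    ent_pair_comm _ (fun x : Ω × τ => J x.1) (fun x : Ω × τ => x.2)
  rw [h1, ent_pair_eq, p9_ext_ent P _ J]
  congr 1
  have h2 := p9_unif_entC P (fun o => cls (J o)) hne J (fun ω ω' _ _ h => by simp only [h])
    (fun _ _ => ()) (fun _ _ _ _ _ => rfl)
  have h3 : (P.ext (p9_unif fun o => cls (J o))).entC (fun x : Ω × τ => x.2) (fun x : Ω × τ => J x.1)
      = (P.ext (p9_unif fun o => cls (J o))).entC (fun x : Ω × τ => x.2)
        (pair (fun x : Ω × τ => J x.1) (fun _ : Ω × τ => ())) := by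
    refine ent_entC_congr _ _ _ _ _ (fun ω ω' _ _ => ?_) (fun ω ω' _ _ _ => Iff.rfl)
    simp [pair]
  rw [h3, h2]
  simp only [Finset.filter_true]
  exact p9_ext_ev P _ (fun o => Real.log ((cls (J o)).card : ℝ))

/-- `H(J, T | J, cap) = E log r_cap` -/
theorem pc_mu_entC (P : FLaw Ω) (J : Ω → 𝒥) (cls : 𝒥 → Finset τ)
    (hne : ∀ o, P.p o ≠ 0 → (cls (J o)).Nonempty) (cap : 𝒥 → τ → κ) :
    (pcMu P J cls).entC (fun x => (J x.1, x.2)) (fun x => (J x.1, cap (J x.1) x.2))
      = (pcMu P J cls).ev (fun x => Real.log (pcFib (cls (J x.1)) (cap (J x.1)) x.2)) := by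
  unfold pcMu
  have h2 := p9_unif_entC P (fun o => cls (J o)) hne J (fun ω ω' _ _ h => by simp only [h])
    (fun o t => cap (J o) t) (fun ω ω' _ _ h => by simp only [h])
  have h3 : (P.ext (p9_unif fun o => cls (J o))).entC (fun x => (J x.1, x.2)) (fun x => (J x.1, cap (J x.1) x.2))
      = (P.ext (p9_unif fun o => cls (J o))).entC (fun x : Ω × τ => x.2)
        (pair (fun x : Ω × τ => J x.1) (fun x : Ω × τ => cap (J x.1) x.2)) := by
    refine ent_entC_congr _ _ _ _ _ (fun ω ω' _ _ => Iff.rfl) (fun ω ω' _ _ h => ?_)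
    have hJ : J ω.1 = J ω'.1 := (Prod.mk.inj h).1
    constructor
    · intro h'
      exact (Prod.mk.inj h').2
    · intro h'
      exact Prod.ext hJ h'
  rw [h3, h2]
  rfl

/-- bounded multiplicity: `H(X) ≤ H(S) + log M₁`, `H(X | D) ≤ H(S | D) + log M₁` -/
theorem pc_mult_ent {Ω' α' : Type} [Fintype Ω'] (Q : FLaw Ω') (X : Ω' → α') (S : Ω' → σ) (D : Ω' → δ) {M₁ : ℝ}
    (hM : Q.NVal (fun _ => True) X S M₁) :
    Q.ent X ≤ Q.ent S + Real.log M₁ ∧ Q.entC X D ≤ Q.entC S D + Real.log M₁ := by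
  have h0 := ent_entC_le_log_nval Q X S hM
  constructor
  · have h1 := ent_le_pair_left Q X S
    have h2 := ent_pair_eq Q X S
    linarith
  · have h1 : Q.entC X D ≤ Q.entC (pair S X) D :=
      ent_entC_mono Q (pair S X) X D fun ω ω' _ _ h _ => (Prod.mk.inj h).2
    have h2 := ent_entC_chain Q S X D
    have h3 := ent_entC_pair_le Q X S D
    linarith

theorem pc_ev_div (P : FLaw Ω) (f : Ω → ℝ) (l : ℝ) : P.ev (fun o => f o / l) = P.ev f / l := by
  have : (fun o => f o / l) = fun o => l⁻¹ * f o := by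
    funext o; rw [div_eq_inv_mul]
  rw [this, ent_ev_mul_left, div_eq_inv_mul]

/-- **(10.10)** the earlier test on the retained uniform classes.  `cls = clsA` gives (9.earlier-whole-score). -/
theorem pc_earlier_ret {l : ℝ} (hl : 0 < l) (P : FLaw Ω) (J : Ω → 𝒥) (cls clsA : 𝒥 → Finset τ)
    (hne : ∀ o, P.p o ≠ 0 → (cls (J o)).Nonempty) (hsub : ∀ o, P.p o ≠ 0 → cls (J o) ⊆ clsA (J o))
    (site : 𝒥 × τ → σ) (cap : 𝒥 → τ → κ) (lmr : 𝒥 × τ → ℝ) (wc : 𝒥 → κ → ℝ) (bs : ℝ) (Lm g : 𝒥 → ℝ)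
    (M₁ R em : ℝ)
    (hM : (pcMu P J cls).NVal (fun _ => True) (fun x => (J x.1, x.2)) (fun x => site (J x.1, x.2)) M₁)
    (hmass : ∀ o, P.p o ≠ 0 → ∀ T ∈ cls (J o), Lm (J o) - em ≤ lmr (J o, T))
    (hfib : ∀ o, P.p o ≠ 0 → ∀ T ∈ cls (J o),
      (g (J o) - wc (J o) (cap (J o) T) - R) * l ≤ Real.log (pcFib (clsA (J o)) (cap (J o)) T)) :
    pcKstar l P J bs (pcLN l clsA) Lm g - 3 / 2 * P.ev (fun o => pcd1 (pcLN l clsA) (pcLN l cls) (J o))
        - (R / 2 + 3 / 2 * em + 3 / 2 * (Real.log M₁ / l))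
      ≤ pscore l (pcMu P J cls) (fun x => site (J x.1, x.2)) (fun x => (J x.1, cap (J x.1) x.2))
          (fun x => lmr (J x.1, x.2)) (fun x => 2 * bs + wc (J x.1) (cap (J x.1) x.2)) := by
  set μ := pcMu P J cls with hμ
  obtain ⟨h1, h2⟩ := pc_mult_ent μ (fun x => (J x.1, x.2)) (fun x => site (J x.1, x.2))
    (fun x => (J x.1, cap (J x.1) x.2)) hM
  have h3 := pc_mu_ent P J cls hne
  have h4 := pc_mu_entC P J cls hne cap
  rw [← hμ] at h3 h4
  have hs := pc_mu_supp P J cls hne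
  rw [← hμ] at hs
  -- Jensen
  have h5 : μ.ev (fun x => Real.log (pcFib (clsA (J x.1)) (cap (J x.1)) x.2)
        - Real.log (pcFib (cls (J x.1)) (cap (J x.1)) x.2))
      ≤ P.ev (fun o => Real.log ((clsA (J o)).card : ℝ) - Real.log ((cls (J o)).card : ℝ)) := by
    rw [hμ, pc_mu_ev P J cls hne]
    refine ent_ev_mono P fun o ho => ?_
    exact pc_fibre_jensen (cls (J o)) (clsA (J o)) (hne o ho) (hsub o ho) (cap (J o))
  rw [ent_ev_sub, ent_ev_sub] at h5
  have h6 : μ.ev (fun x => (g (J x.1) - wc (J x.1) (cap (J x.1) x.2) - R) * l)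
      ≤ μ.ev (fun x => Real.log (pcFib (clsA (J x.1)) (cap (J x.1)) x.2)) :=
    ent_ev_mono μ fun x hx => hfib x.1 (hs x hx).1 x.2 (hs x hx).2
  have h7 : μ.ev (fun x => Lm (J x.1) - em) ≤ μ.ev (fun x => lmr (J x.1, x.2)) :=
    ent_ev_mono μ fun x hx => hmass x.1 (hs x hx).1 x.2 (hs x hx).2
  have e1 : μ.ev (fun x => Lm (J x.1) - em) = P.ev (fun o => Lm (J o)) - em := by
    rw [hμ]; unfold pcMu
    rw [p9_ext_ev P _ (fun o => Lm (J o) - em), ent_ev_sub, ent_ev_const]
  have e2 : μ.ev (fun x => (g (J x.1) - wc (J x.1) (cap (J x.1) x.2) - R) * l)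
      = (P.ev (fun o => g (J o)) - μ.ev (fun x => wc (J x.1) (cap (J x.1) x.2)) - R) * l := by
    have : (fun x : Ω × τ => (g (J x.1) - wc (J x.1) (cap (J x.1) x.2) - R) * l)
        = fun x => l * ((g (J x.1) - wc (J x.1) (cap (J x.1) x.2)) - R) := by
      funext x; ring
    rw [this, ent_ev_mul_left, ent_ev_sub, ent_ev_sub, ent_ev_const]
    have : μ.ev (fun x => g (J x.1)) = P.ev (fun o => g (J o)) := by
      rw [hμ]; unfold pcMu; exact p9_ext_ev P _ (fun o => g (J o))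
    rw [this]; ring
  have e3 : μ.ev (fun x => 2 * bs + wc (J x.1) (cap (J x.1) x.2))
      = 2 * bs + μ.ev (fun x => wc (J x.1) (cap (J x.1) x.2)) := by
    rw [ent_ev_add, ent_ev_const]
  have e4 : P.ev (fun o => pcA (pcLN l clsA) Lm g (J o))
      = P.ev (fun o => Real.log ((clsA (J o)).card : ℝ)) / l + 3 / 2 * P.ev (fun o => Lm (J o))
        + 1 / 2 * P.ev (fun o => g (J o)) := by
    unfold pcA pcLN
    rw [ent_ev_add, ent_ev_add, ent_ev_mul_left, ent_ev_mul_left, pc_ev_div]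
  have e5 : P.ev (fun o => pcd1 (pcLN l clsA) (pcLN l cls) (J o))
      = P.ev (fun o => Real.log ((clsA (J o)).card : ℝ)) / l
        - P.ev (fun o => Real.log ((cls (J o)).card : ℝ)) / l := by
    unfold pcd1 pcLN
    rw [ent_ev_sub, pc_ev_div, pc_ev_div]
  unfold pscore pcKstar
  rw [e3, e4, e5]
  rw [e1] at h7
  rw [e2] at h6
  set a := P.ent J
  set EN := P.ev (fun o => Real.log ((cls (J o)).card : ℝ))
  set EA := P.ev (fun o => Real.log ((clsA (J o)).card : ℝ))
  set Er := μ.ev (fun x => Real.log (pcFib (cls (J x.1)) (cap (J x.1)) x.2))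
  set En := μ.ev (fun x => Real.log (pcFib (clsA (J x.1)) (cap (J x.1)) x.2))
  set Ew := μ.ev (fun x => wc (J x.1) (cap (J x.1) x.2))
  set Eg := P.ev (fun o => g (J o))
  set EL := P.ev (fun o => Lm (J o))
  set HS := μ.ent (fun x => site (J x.1, x.2))
  set HC := μ.entC (fun x => site (J x.1, x.2)) (fun x => (J x.1, cap (J x.1) x.2))
  set lM := Real.log M₁
  have k1 : a + EN - lM ≤ HS := by linarith
  have k2 : (Eg - Ew - R) * l - (EA - EN) - lM ≤ HC := by linarith
  have k3 : ((a + EN - lM) + ((Eg - Ew - R) * l - (EA - EN) - lM) / 2) / l ≤ (HS + HC / 2) / l :=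
    div_le_div_of_nonneg_right (by linarith) hl.le
  have k4 : ((a + EN - lM) + ((Eg - Ew - R) * l - (EA - EN) - lM) / 2) / l
      = a / l + EN / l - lM / l + (Eg - Ew - R) / 2 - (EA / l - EN / l) / 2 - lM / l / 2 := by
    field_simp
    ring
  rw [k4] at k3
  linarith

/-- the **isotropic earlier test** of P10.4: any label, constant weight `2 v` -/
theorem pc_earlier_iso {l : ℝ} (hl : 0 < l) (P : FLaw Ω) (J : Ω → 𝒥) (cls : 𝒥 → Finset τ)
    (hne : ∀ o, P.p o ≠ 0 → (cls (J o)).Nonempty)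
    (site : 𝒥 × τ → σ) (D : Ω × τ → δ) (lmr : 𝒥 × τ → ℝ) (v : ℝ) (Lm : 𝒥 → ℝ) (M₁ em : ℝ)
    (hM : (pcMu P J cls).NVal (fun _ => True) (fun x => (J x.1, x.2)) (fun x => site (J x.1, x.2)) M₁)
    (hmass : ∀ o, P.p o ≠ 0 → ∀ T ∈ cls (J o), Lm (J o) - em ≤ lmr (J o, T)) :
    P.ent J / l + P.ev (fun o => pcLN l cls (J o) + 3 / 2 * Lm (J o)) + v - (3 / 2 * em + Real.log M₁ / l)
      ≤ pscore l (pcMu P J cls) (fun x => site (J x.1, x.2)) D
          (fun x => lmr (J x.1, x.2)) (fun _ => 2 * v) := by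
  set μ := pcMu P J cls with hμ
  obtain ⟨h1, -⟩ := pc_mult_ent μ (fun x => (J x.1, x.2)) (fun x => site (J x.1, x.2)) D hM
  have h3 := pc_mu_ent P J cls hne
  rw [← hμ] at h3
  have hs := pc_mu_supp P J cls hne
  rw [← hμ] at hs
  have h7 : μ.ev (fun x => Lm (J x.1) - em) ≤ μ.ev (fun x => lmr (J x.1, x.2)) :=
    ent_ev_mono μ fun x hx => hmass x.1 (hs x hx).1 x.2 (hs x hx).2
  have e1 : μ.ev (fun x => Lm (J x.1) - em) = P.ev (fun o => Lm (J o)) - em := by
    rw [hμ]; unfold pcMu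
    rw [p9_ext_ev P _ (fun o => Lm (J o) - em), ent_ev_sub, ent_ev_const]
  have e4 : P.ev (fun o => pcLN l cls (J o) + 3 / 2 * Lm (J o))
      = P.ev (fun o => Real.log ((cls (J o)).card : ℝ)) / l + 3 / 2 * P.ev (fun o => Lm (J o)) := by
    unfold pcLN
    rw [ent_ev_add, ent_ev_mul_left, pc_ev_div]
  have h8 := ent_entC_nonneg μ (fun x => site (J x.1, x.2)) D
  unfold pscore
  rw [e4, ent_ev_const]
  rw [e1] at h7
  have k3 : (P.ent J + P.ev (fun o => Real.log ((cls (J o)).card : ℝ)) - Real.log M₁) / l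
      ≤ (μ.ent (fun x => site (J x.1, x.2)) + μ.entC (fun x => site (J x.1, x.2)) D / 2) / l :=
    div_le_div_of_nonneg_right (by linarith) hl.le
  rw [sub_div, add_div] at k3
  linarith

omit [Fintype τ] [Nonempty τ] in
/-- the isotropic score in terms of `K_r^*` (here `b_* = 0`):  `K_r^* - E d_1 - (1/2) E (g - 2 v) - err` -/
theorem pc_iso_eq (l : ℝ) (P : FLaw Ω) (J : Ω → 𝒥) (cls clsA : 𝒥 → Finset τ) (Lm g : 𝒥 → ℝ) (v : ℝ) :
    P.ent J / l + P.ev (fun o => pcLN l cls (J o) + 3 / 2 * Lm (J o)) + v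
      = pcKstar l P J 0 (pcLN l clsA) Lm g - P.ev (fun o => pcd1 (pcLN l clsA) (pcLN l cls) (J o))
        - 1 / 2 * P.ev (fun o => g (J o) - 2 * v) := by
  unfold pcKstar pcA pcd1
  rw [ent_ev_add, ent_ev_add, ent_ev_add, ent_ev_sub, ent_ev_sub, ent_ev_mul_left, ent_ev_mul_left,
    ent_ev_const]
  ring

theorem pc_earlier_eqns_cite : True := by
  have := @pcMu.eq_1
  have := @pcLN.eq_1
  have := @pcFib.eq_1
  trivial

end Claimed.Agent.R255
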