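-- KEEP
import Claimed.Agent.R255.Pkt.Cut
import Claimed.Agent.R255.Pkt.Top
import Claimed.Agent.R255.Pk.Resc
import Claimed.Agent.R255.Comp.Earlier

/-!
# Row 255 (BR paper), Sec. 10: THE CUT, derived objects on the frozen data of `Pkt/Cut.lean`      (architect helper242)

FROZEN DEFINITIONS (consumers: `Comp/*`, `Rep/*`).   Data: `E`, endpoint test `T` (time `t = T.t`), cut time `r`, velocity depth `bs`, atoms `At`, whole classes `Cl`, tag map `tag`, winner map `win`.
* `ctJ E r bs T win o`        the tagged localizer `J` of a sample (a function of the site `T.O o`)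
* `Cl.clsOf tag j`, `Cl.clsAll j`   retained / whole class of a label as finite sets (`N`, `Nall` are their cardinalities)
* `ctTestJ E r bs T win j`    the LOCAL TEST of `j` : conditional law given `J = j`, rescaled sites and read-outs, duration `t - r`;  its environment is `Cl.envJ E r bs tag j`
* `ctLm`, `ctLmW`, `ctW`      the three functions of the sample entering the abstract score `pscore` : `log_{1/ε} m_O(f)`, `log_{1/ε} m_O(h_J)`, `w(D)`
* `Cl.LN`, `Cl.LA`, `Cl.Lm`, `Cl.gJ`   normalised logarithms of `N`, `N_all`, `m`;  the cap maximum `g`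
* `At.earlierX r T J cl ap`   the EARLIER TEST on `T.Ω × atoms` : current marginal of `J`, then `T` uniform in `cl J`;  observation = the atom, site = coefficient test, label `(J, ap T)`
* `CutOK`                     the standing hypotheses of a cut (stable under `T.withLaw Q`, `Q ≪ T.P` : `CutOK.withLaw`)
-/

set_option autoImplicit false

namespace Claimed.Agent.R255.Pkt

open MeasureTheory Claimed.Agent.R255.Osc Claimed.Agent.R255.FLaw
open scoped BigOperators
open Classical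

variable {τ : Type}

/-- the tagged localizer of a sample -/
noncomputable def ctJ (E : PEnv) (r bs : ℝ) (T : PTest) (win : T.ι → ℕ × τ) (o : T.Ω) : Classes.Lab τ :=
  Classes.Jof E r bs T.site win (T.O o)

/-- the local test of the label `j` -/
noncomputable def ctTestJ (E : PEnv) (r bs : ℝ) (T : PTest) (win : T.ι → ℕ × τ) (j : Classes.Lab τ) : PTest :=
  (T.withLaw (T.P.cnd (fun o => ctJ E r bs T win o = j))).resc E.ε r bs (j.1.Cr E.ε r) (j.1.VJ E.ε bs)
    (j.1.XJ E.ε r bs)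

/-- `log_{1/ε} m_O(f)` -/
noncomputable def ctLm (E : PEnv) (T : PTest) (o : T.Ω) : ℝ := Real.log (E.m T.t (T.site (T.O o))) / lg E.ε

/-- `w(D)` -/
noncomputable def ctW (γ : ℝ) (T : PTest) (o : T.Ω) : ℝ := wt γ (T.geo (T.D o))

namespace Classes

variable {At : Atoms} (Cl : Classes At)

/-- the retained class of a label -/
noncomputable def clsOf (tag : At.𝔸 → τ) (j : Lab τ) : Finset At.𝔸 := Finset.univ.filter (fun T => Cl.lab tag T = j)

/-- the whole class of a label -/
noncomputable def clsAll (j : Lab τ) : Finset At.𝔸 := Finset.univ.filter (fun T => At.loc T = j.1 ∧ Cl.cls T = j.2.1)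

/-- `log_{1/ε} N(J)` -/
noncomputable def LN (E : PEnv) (tag : At.𝔸 → τ) (j : Lab τ) : ℝ := pcLN (lg E.ε) (Cl.clsOf tag) j
/-- `log_{1/ε} N_all(J)` -/
noncomputable def LA (E : PEnv) (j : Lab τ) : ℝ := pcLN (lg E.ε) (Cl.clsAll (τ := τ)) j
/-- `log_{1/ε} m(J)` -/
noncomputable def Lm (E : PEnv) (j : Lab τ) : ℝ := Real.log (Cl.mB j.1 j.2.1) / lg E.ε
/-- `g(J)` -/
def gJ (j : Lab τ) : ℝ := Cl.gB j.1 j.2.1

/-- `log_{1/ε} m_O(h_J)` : the mass of the winning superposition -/
noncomputable def LmW (E : PEnv) (r bs : ℝ) (tag : At.𝔸 → τ) (T : PTest) (win : T.ι → ℕ × τ) (o : T.Ω) : ℝ :=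
  Real.log ((E.withInput (Cl.hJ E r tag (ctJ E r bs T win o))).m T.t (T.site (T.O o))) / lg E.ε

end Classes

/-- the earlier test on `T.Ω × atoms` -/
noncomputable def Atoms.earlierX (At : Atoms) [Nonempty At.𝔸] (r : ℝ) (T : PTest) (J : T.Ω → Classes.Lab τ)
    (cl : Classes.Lab τ → Finset At.𝔸) (ap : At.𝔸 → Geo) : PTest where
  t := r
  Ω := T.Ω × At.𝔸
  finΩ := inferInstance
  P := pcMu T.P J cl
  ι := At.𝔸
  finι := At.fin
  site := fun A => (At.asite A).conj
  O := Prod.snd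
  Γ := Classes.Lab τ × Geo
  D := fun x => (J x.1, ap x.2)
  geo := Prod.snd

/-- the exact isotropic boundary aperture of an atom at depth `r` : `b = a = u_r`, centred at the atom -/
noncomputable def Atoms.isoAp (At : Atoms) (E : PEnv) (r : ℝ) (A : At.𝔸) : Geo where
  b := E.u r
  a := E.u r
  tc := (At.asite A).C
  th := 0
  vc := toP (At.asite A).V
  xc := toP (At.asite A).X

/-- the standing hypotheses of a cut -/
structure CutOK (γ : ℝ) (E : PEnv) (B : PBd) (T : PTest) (r bs : ℝ) (p : Atoms.Par) (ξ : ℝ) (S0 : ℕ) (A0 : ℝ)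
    (At : Atoms) (Cl : Classes At) (tag : At.𝔸 → τ) (win : T.ι → ℕ × τ) : Prop where
  obE : E.Obeys B
  obT : T.Obeys B E
  nrm : 0 < E.nrm2
  r0 : 0 ≤ r
  rt : r ≤ T.t
  bs0 : 0 ≤ bs
  goodA : At.Good E B T.t r bs p
  goodC : Cl.Good γ E r bs ξ S0
  win : Cl.IsWin E T.t r bs tag T.site win
  /-- the output mass floor (10.3) -/
  floor : ∀ o, 0 < T.P.p o → E.ε ^ A0 * E.nrm2 ≤ E.m T.t (T.site (T.O o))
  /-- `b_* ≤ b` -/
  bsb : ∀ o, 0 < T.P.p o → bs ≤ (T.geo (T.D o)).b

theorem ct_obeys_withLaw {B : PBd} {E : PEnv} {T : PTest} (hT : T.Obeys B E) (Q : FLaw T.Ω)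
    (hQ : ∀ o, 0 < Q.p o → 0 < T.P.p o) : (T.withLaw Q).Obeys B E := by
  have hact : ∀ i, (T.withLaw Q).act i → T.act i := by
    rintro i ⟨o, ho, rfl⟩
    exact ⟨o, hQ o ho, rfl⟩
  refine ⟨hT.t0, fun i hi => hT.amp i (hact i hi), fun i hi => hT.time i (hact i hi),
    fun i hi => hT.vel i (hact i hi), fun i hi => hT.pos i (hact i hi), ?_, ?_,
    fun o ho => hT.mpos o (hQ o ho), fun o ho => hT.geo o (hQ o ho)⟩
  · intro i hi
    refine le_trans (Finset.card_le_card ?_) (hT.multT i (hact i hi))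
    intro c hc
    rw [Finset.mem_filter, Finset.mem_image] at hc ⊢
    obtain ⟨⟨j, hj, rfl⟩, hlt⟩ := hc
    exact ⟨⟨j, Finset.mem_filter.2 ⟨Finset.mem_univ _, hact j (Finset.mem_filter.1 hj).2⟩, rfl⟩, hlt⟩
  · intro i hi
    refine le_trans (pk_card_filter_le _ _ ?_) (hT.multS i (hact i hi))
    intro j hj
    exact ⟨hact j hj.1, hj.2⟩

/-- the frozen data serve every current law -/
theorem CutOK.withLaw {γ : ℝ} {E : PEnv} {B : PBd} {T : PTest} {r bs : ℝ} {p : Atoms.Par} {ξ : ℝ} {S0 : ℕ}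
    {A0 : ℝ} {At : Atoms} {Cl : Classes At} {tag : At.𝔸 → τ} {win : T.ι → ℕ × τ}
    (H : CutOK γ E B T r bs p ξ S0 A0 At Cl tag win) (Q : FLaw T.Ω) (hQ : ∀ o, 0 < Q.p o → 0 < T.P.p o) :
    CutOK γ E B (T.withLaw Q) r bs p ξ S0 A0 At Cl tag win :=
  ⟨H.obE, ct_obeys_withLaw H.obT Q hQ, H.nrm, H.r0, H.rt, H.bs0, H.goodA, H.goodC, H.win,
    fun o ho => H.floor o (hQ o ho), fun o ho => H.bsb o (hQ o ho)⟩

theorem ct_score_eq (γ : ℝ) (E : PEnv) (T : PTest) :
    score γ E T = pscore (lg E.ε) T.P T.O T.D (ctLm E T) (ctW γ T) := rfl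

theorem ct_defs_eqns_cite : True := by
  have := @ctJ.eq_1
  have := @ctTestJ.eq_1
  have := @ctLm.eq_1
  have := @ctW.eq_1
  have := @Classes.clsOf.eq_1
  have := @Classes.clsAll.eq_1
  have := @Classes.LN.eq_1
  have := @Classes.LA.eq_1
  have := @Classes.Lm.eq_1
  have := @Classes.gJ.eq_1
  have := @Classes.LmW.eq_1
  have := @Atoms.earlierX.eq_1
  have := @Atoms.isoAp.eq_1
  trivial

end Claimed.Agent.R255.Pkt
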