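-- KEEP
import Claimed.Agent.R255.Comp.CutDefs
import Claimed.Agent.R255.Pk9.RootNorm
import Claimed.Agent.R255.Pk.Loc
import Claimed.Agent.R255.Pk.AtomsExist
import Claimed.Agent.R255.Pk9.LocalRoot

/-!
# Row 255 (BR paper), Sec. 10: PROPOSITION 10.1 ON THE FROZEN DATA OF A CUT      (architect helper242)

Everything is stated under the standing hypotheses `CutOK` (`Comp/CutDefs.lean`), hence for EVERY current endpoint law (`CutOK.withLaw`).
LEAVES (statements with `sorry`; recipes in the docstrings):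
* `ct_winner`        (9.32)   `m_O(f) ≤ 4 S² m_O(h_J)`                                   [linearity of the pairing + `trunc` + `IsWin` + floor]
* `ct_hJ_zero`                an empty class has zero superposition
* `ct_list`                   the aperture label determines the geometric localizer up to `C(Ke)` values     [geometry of cells]
* `ct_loc_env`, `ct_loc_test` T-LOCOBEYS                                                  [`pk_resc_env_obeys`, `pk_resc_test_obeys` + geometry of cells]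
* `ct_root`          (9.29)   T-ROOT = `plr_root` (Pk9/LocalRoot.lean, helper150), PROVED
* `ct_K0_bdd`                 `K_0` is a supremum of a bounded set                         [Bessel + log-sum]
* `ct_earlier_obeys`, `ct_earlier_rootG`     the earlier tests are admissible
* `ct_mass_log`, `ct_fibre_log`, `ct_mB_pos` logarithmic forms of `Classes.Good`
GLUE (proved here): `ct_N_pos`, `ct_PJ_eq`, `ct_split` = (10.9), `ct_ret_score` = (10.10), `ct_whole_score` = (9.30), `ct_iso_score`.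
-/

set_option autoImplicit false

namespace Claimed.Agent.R255.Pkt

open MeasureTheory Claimed.Agent.R255.Osc Claimed.Agent.R255.FLaw
open scoped BigOperators
open Classical

variable {τ : Type}

theorem ct_pos_of_ne {Ω : Type} [Fintype Ω] (P : FLaw Ω) {o : Ω} (h : P.p o ≠ 0) : 0 < P.p o :=
  lt_of_le_of_ne (P.nonneg o) (Ne.symm h)

/-! ## the winner -/

/-- an empty class has zero superposition -/
theorem ct_hJ_eq_zero (E : PEnv) (r : ℝ) {At : Atoms} (Cl : Classes At) (tag : At.𝔸 → τ) (j : Classes.Lab τ)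
    (h : Cl.N tag j = 0) : Cl.hJ E r tag j = fun _ => 0 := by
  funext v
  unfold Classes.hJ Atoms.sup
  refine Finset.sum_eq_zero fun T _ => ?_
  rw [if_neg]
  intro hT
  have hc : (Finset.univ.filter (fun T => Cl.lab tag T = j)).card = 0 := h
  rw [Finset.card_eq_zero] at hc
  have : T ∈ Finset.univ.filter (fun T => Cl.lab tag T = j) := Finset.mem_filter.2 ⟨Finset.mem_univ _, hT⟩
  rw [hc] at this
  exact absurd this (Finset.notMem_empty _)

/-- the pairing of the zero input -/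
theorem ct_pairing_zero (lam ρ : ℝ) (Φ : ℝ → E2 → E2 → ℝ) (s : Site) : pairing lam ρ Φ (fun _ => 0) s = 0 := by
  unfold pairing
  simp

/-- the labels partition the atoms of a localizer -/
theorem ct_sup_split [Fintype τ] (E : PEnv) (r : ℝ) {At : Atoms} (Cl : Classes At) (tag : At.𝔸 → τ) (S0 : ℕ)
    (hn : ∀ T, Cl.cls T < S0) (j0 : Loc0) (v : E2) :
    At.sup E r (fun T => At.loc T = j0) v
      = ∑ x ∈ Finset.range S0 ×ˢ (Finset.univ : Finset τ), Cl.hJ E r tag (j0, x.1, x.2) v := by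
  unfold Classes.hJ Atoms.sup
  rw [Finset.sum_comm]
  refine Finset.sum_congr rfl fun T _ => ?_
  by_cases hT : At.loc T = j0
  · rw [if_pos hT, Finset.sum_eq_single (Cl.cls T, tag T)]
    · rw [if_pos]
      show (At.loc T, Cl.cls T, tag T) = (j0, Cl.cls T, tag T)
      rw [hT]
    · intro y _ hy
      rw [if_neg]
      intro h
      exact hy (congrArg Prod.snd h).symm
    · intro h
      exact absurd (Finset.mem_product.2 ⟨Finset.mem_range.2 (hn T), Finset.mem_univ _⟩) h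
  · rw [if_neg hT]
    symm
    refine Finset.sum_eq_zero fun y _ => ?_
    rw [if_neg]
    intro h
    exact hT (congrArg Prod.fst h)

/-- linearity of the pairing over the partition -/
theorem ct_pairing_split [Fintype τ] {E : PEnv} {B : PBd} {t r bs : ℝ} {p : Atoms.Par} {At : Atoms} (hE : E.Obeys B)
    (hG : At.Good E B t r bs p) (Cl : Classes At) (tag : At.𝔸 → τ) (S0 : ℕ) (hn : ∀ T, Cl.cls T < S0) (j0 : Loc0)
    (hj : 0 ≤ j0.1) (s : Site) (hs : AmpC B.Ra B.K.Bb s.ψ) (hC : 0 ≤ s.C) :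
    pairing E.lam (E.rho t) E.Φ (At.sup E r (fun T => At.loc T = j0)) s
      = ∑ x ∈ Finset.range S0 ×ˢ (Finset.univ : Finset τ),
          pairing E.lam (E.rho t) E.Φ (Cl.hJ E r tag (j0, x.1, x.2)) s := by
  have hρ : 0 < E.rho t := Real.rpow_pos_of_pos hE.ε0 _
  have hp : MemLp (pkt E.lam E.Φ s.C (E.rho t) s.V s.X s.ψ) 2 volume :=
    pk_pkt_memLp hE.phase ((pk_ampC_iff _ _ _).1 hs 0) E.lam hρ hC s.V s.X
  have hi : ∀ x ∈ Finset.range S0 ×ˢ (Finset.univ : Finset τ),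
      Integrable (fun v => Cl.hJ E r tag (j0, x.1, x.2) v * pkt E.lam E.Φ s.C (E.rho t) s.V s.X s.ψ v) := by
    intro x _
    have h1 : MemLp (Cl.hJ E r tag (j0, x.1, x.2)) 2 volume := by
      refine pk_sup_memLp hE hG _ fun T hT => ?_
      have h2 : At.loc T = j0 := congrArg Prod.fst hT
      rw [hG.time T, h2]
      unfold Loc0.Cr
      have h3 : (0 : ℝ) ≤ (j0.1 : ℝ) := by exact_mod_cast hj
      exact mul_nonneg (Real.rpow_pos_of_pos hE.ε0 _).le h3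
    exact h1.integrable_mul hp
  rw [pk_pairing_eq]
  simp only [pk_pairing_eq]
  rw [← integral_finsetSum _ hi]
  refine integral_congr_ae (Filter.Eventually.of_forall fun v => ?_)
  show At.sup E r (fun T => At.loc T = j0) v * _ = _
  rw [ct_sup_split E r Cl tag S0 hn j0 v, Finset.sum_mul]

/-- **(9.32)**.  `a = pairing f s`, `a' = pairing (sup of the localizer) s`: `|a - a'| ≤ ε^A √nrm2` (`trunc`), floor: `ε^(A0/2) √nrm2 ≤ |a|`, so `|a| ≤ 2 |a'|` as soon as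
`ε^(A - A0/2) ≤ 1/2`;  `a' = Σ_{k < S0} Σ_{a : τ} pairing (hJ (j0,k,a)) s` (the labels partition the atoms of the localizer, `ncls`; linearity of the integral: every summand is
continuous with compact support times a bounded measurable function) and each term is `≤ |pairing (hJ (winner)) s|` by `IsWin`. -/
theorem ct_winner (B : PBd) (p : Atoms.Par) (A0 : ℝ) (hA : A0 / 2 < p.A) :
    ∃ ε₀ : ℝ, 0 < ε₀ ∧ ∀ (γ : ℝ) (E : PEnv) (T : PTest) (r bs ξ : ℝ) (S0 : ℕ) (At : Atoms) (Cl : Classes At)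
      (τ : Type) [Fintype τ] (tag : At.𝔸 → τ) (win : T.ι → ℕ × τ), E.ε < ε₀ →
      CutOK γ E B T r bs p ξ S0 A0 At Cl tag win → ∀ o, 0 < T.P.p o →
        E.m T.t (T.site (T.O o)) ≤ 4 * ((S0 : ℝ) * (Fintype.card τ : ℝ)) ^ 2 *
          (E.withInput (Cl.hJ E r tag (ctJ E r bs T win o))).m T.t (T.site (T.O o)) := by
  obtain ⟨c, hc⟩ : ∃ c, c = p.A - A0 / 2 := ⟨_, rfl⟩
  have hc0 : 0 < c := by rw [hc]; linarith
  refine ⟨(1 / 2 : ℝ) ^ (1 / c), by positivity, ?_⟩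
  intro γ E T r bs ξ S0 At Cl τ _ tag win hε H o ho
  have hε0 := H.obE.ε0
  have hhalf : E.ε ^ c ≤ 1 / 2 := by
    have h1 : E.ε ^ c < ((1 / 2 : ℝ) ^ (1 / c)) ^ c := Real.rpow_lt_rpow hε0.le hε hc0
    rw [← Real.rpow_mul (by norm_num), one_div_mul_cancel hc0.ne', Real.rpow_one] at h1
    exact h1.le
  obtain ⟨s, hs⟩ : ∃ s, s = T.site (T.O o) := ⟨_, rfl⟩
  have hact : T.act (T.O o) := ⟨o, ho, rfl⟩
  have hamp := H.obT.amp _ hact
  have htime := H.obT.time _ hact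
  have hvel := H.obT.vel _ hact
  have hpos := H.obT.pos _ hact
  have hfl := H.floor o ho
  rw [← hs] at hamp htime hvel hpos hfl ⊢
  obtain ⟨a, ha⟩ : ∃ a, a = pairing E.lam (E.rho T.t) E.Φ E.f s := ⟨_, rfl⟩
  obtain ⟨a', ha'⟩ : ∃ a', a' = pairing E.lam (E.rho T.t) E.Φ
      (At.sup E r (fun A => At.loc A = loc0 E.ε r bs s)) s := ⟨_, rfl⟩
  obtain ⟨W, hW⟩ : ∃ W, W = ‖pairing E.lam (E.rho T.t) E.Φ (Cl.hJ E r tag (ctJ E r bs T win o)) s‖ := ⟨_, rfl⟩
  have htr := H.goodA.trunc s hamp htime.1 htime.2 hvel hpos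
  rw [← ha, ← ha'] at htr
  have em : E.m T.t s = ‖a‖ ^ 2 := by rw [ha]; rfl
  have emW : (E.withInput (Cl.hJ E r tag (ctJ E r bs T win o))).m T.t s = W ^ 2 := by rw [hW]; rfl
  rw [em] at hfl
  rw [em, emW]
  obtain ⟨q, hq⟩ : ∃ q, q = Real.sqrt E.nrm2 := ⟨_, rfl⟩
  have hq0 : 0 ≤ q := by rw [hq]; exact Real.sqrt_nonneg _
  rw [← hq] at htr
  -- the floor
  have hfl2 : E.ε ^ (A0 / 2) * q ≤ ‖a‖ := by
    have h1 := Real.sqrt_le_sqrt hfl
    rw [Real.sqrt_sq (norm_nonneg _), Real.sqrt_mul (Real.rpow_pos_of_pos hε0 _).le, ← hq, Real.sqrt_eq_rpow,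
      ← Real.rpow_mul hε0.le] at h1
    have e : A0 * (1 / 2) = A0 / 2 := by ring
    rwa [e] at h1
  have h2 : E.ε ^ p.A * q ≤ ‖a‖ / 2 := by
    have e : p.A = c + A0 / 2 := by rw [hc]; ring
    rw [e, Real.rpow_add hε0, mul_assoc]
    have h3 : 0 ≤ E.ε ^ (A0 / 2) * q := mul_nonneg (Real.rpow_pos_of_pos hε0 _).le hq0
    calc E.ε ^ c * (E.ε ^ (A0 / 2) * q) ≤ 1 / 2 * ‖a‖ := mul_le_mul hhalf hfl2 h3 (by norm_num)
      _ = ‖a‖ / 2 := by ring
  have h4 : ‖a‖ ≤ 2 * ‖a'‖ := by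
    have h5 : ‖a‖ ≤ ‖a - a'‖ + ‖a'‖ := by
      have := norm_add_le (a - a') a'
      rwa [sub_add_cancel] at this
    linarith
  -- the partition
  have hj0 : 0 ≤ (loc0 E.ε r bs s).1 :=
    Int.floor_nonneg.2 (div_nonneg htime.1 (Real.rpow_pos_of_pos hε0 _).le)
  have hsplit := ct_pairing_split H.obE H.goodA Cl tag S0 H.goodC.ncls (loc0 E.ε r bs s) hj0 s hamp htime.1
  rw [← ha'] at hsplit
  have h6 : ‖a'‖ ≤ ((S0 : ℝ) * (Fintype.card τ : ℝ)) * W := by
    rw [hsplit]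
    refine (norm_sum_le _ _).trans ?_
    have h7 : ∀ x ∈ Finset.range S0 ×ˢ (Finset.univ : Finset τ),
        ‖pairing E.lam (E.rho T.t) E.Φ (Cl.hJ E r tag (loc0 E.ε r bs s, x.1, x.2)) s‖ ≤ W := by
      intro x _
      rw [hW, hs]
      exact H.win (T.O o) x.1 x.2
    refine (Finset.sum_le_sum h7).trans ?_
    rw [Finset.sum_const, Finset.card_product, Finset.card_range, Finset.card_univ, nsmul_eq_mul]
    push_cast
    exact le_rfl
  have hW0 : 0 ≤ W := by rw [hW]; exact norm_nonneg _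
  calc ‖a‖ ^ 2 ≤ (2 * (((S0 : ℝ) * (Fintype.card τ : ℝ)) * W)) ^ 2 :=
        pow_le_pow_left₀ (norm_nonneg _) (h4.trans (by linarith)) 2
    _ = 4 * ((S0 : ℝ) * (Fintype.card τ : ℝ)) ^ 2 * W ^ 2 := by ring

/-- an empty class has zero superposition, hence zero masses -/
theorem ct_hJ_zero (E : PEnv) (r t : ℝ) {At : Atoms} (Cl : Classes At) (tag : At.𝔸 → τ) (j : Classes.Lab τ)
    (h : Cl.N tag j = 0) (s : Site) : (E.withInput (Cl.hJ E r tag j)).m t s = 0 := by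
  show ‖pairing _ _ _ (Cl.hJ E r tag j) s‖ ^ 2 = 0
  rw [ct_hJ_eq_zero E r Cl tag j h, ct_pairing_zero]
  simp

/-- the conclusion of the winner estimate, as a hypothesis for the glue below -/
def WinOK (E : PEnv) (r bs : ℝ) (T : PTest) {At : Atoms} (Cl : Classes At) (tag : At.𝔸 → τ) (win : T.ι → ℕ × τ)
    (S : ℝ) : Prop :=
  ∀ o, 0 < T.P.p o → E.m T.t (T.site (T.O o)) ≤ 4 * S ^ 2 *
    (E.withInput (Cl.hJ E r tag (ctJ E r bs T win o))).m T.t (T.site (T.O o))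

section
variable {γ : ℝ} {E : PEnv} {B : PBd} {T : PTest} {r bs : ℝ} {p : Atoms.Par} {ξ : ℝ} {S0 : ℕ} {A0 : ℝ}
  {At : Atoms} {Cl : Classes At} {tag : At.𝔸 → τ} {win : T.ι → ℕ × τ} {S : ℝ}

/-- the winning masses are positive -/
theorem ct_mW_pos (H : CutOK γ E B T r bs p ξ S0 A0 At Cl tag win) (hW : WinOK E r bs T Cl tag win S) (o : T.Ω)
    (ho : 0 < T.P.p o) :
    0 < (E.withInput (Cl.hJ E r tag (ctJ E r bs T win o))).m T.t (T.site (T.O o)) := by
  have h1 := H.obT.mpos o ho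
  have h2 := hW o ho
  by_contra hcon
  have h3 : (E.withInput (Cl.hJ E r tag (ctJ E r bs T win o))).m T.t (T.site (T.O o)) ≤ 0 := not_lt.1 hcon
  have h4 : 0 ≤ 4 * S ^ 2 := by positivity
  nlinarith

/-- the winning classes are nonempty -/
theorem ct_N_pos (H : CutOK γ E B T r bs p ξ S0 A0 At Cl tag win) (hW : WinOK E r bs T Cl tag win S) (o : T.Ω)
    (ho : 0 < T.P.p o) : 0 < Cl.N tag (ctJ E r bs T win o) := by
  by_contra hcon
  have h0 : Cl.N tag (ctJ E r bs T win o) = 0 := by omega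
  have := ct_mW_pos H hW o ho
  rw [ct_hJ_zero E r T.t Cl tag _ h0] at this
  exact lt_irrefl _ this

theorem ct_cls_nonempty (H : CutOK γ E B T r bs p ξ S0 A0 At Cl tag win) (hW : WinOK E r bs T Cl tag win S)
    (o : T.Ω) (ho : T.P.p o ≠ 0) : (Cl.clsOf tag (ctJ E r bs T win o)).Nonempty :=
  Finset.card_pos.1 (ct_N_pos H hW o (ct_pos_of_ne _ ho))

theorem ct_cls_sub (Cl : Classes At) (tag : At.𝔸 → τ) (j : Classes.Lab τ) : Cl.clsOf tag j ⊆ Cl.clsAll j := by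
  intro A hA
  have h := (Finset.mem_filter.1 hA).2
  refine Finset.mem_filter.2 ⟨Finset.mem_univ _, ?_, ?_⟩
  · rw [← h]; rfl
  · rw [← h]; rfl

/-- the class index of a winner is `< S0` -/
theorem ct_win_lt (H : CutOK γ E B T r bs p ξ S0 A0 At Cl tag win) (hW : WinOK E r bs T Cl tag win S) (o : T.Ω)
    (ho : 0 < T.P.p o) : (win (T.O o)).1 < S0 := by
  obtain ⟨A, hA⟩ := ct_cls_nonempty H hW o ho.ne'
  have h := (Finset.mem_filter.1 hA).2
  have h2 : Cl.cls A = (win (T.O o)).1 := congrArg (fun x => x.2.1) h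
  rw [← h2]
  exact H.goodC.ncls A

end

/-! ## the localizer is determined by the aperture -/

/-- coordinates of a point of a rotated rectangle -/
theorem ct_rect_coord {K ε b a th w : ℝ} {z : ℝ × ℝ} (h : InRect K ε b a th z) (h1 : K * ε ^ b ≤ w)
    (h2 : K * ε ^ a ≤ w) : |z.1| ≤ 2 * w ∧ |z.2| ≤ 2 * w := by
  obtain ⟨ha, hb⟩ := h
  have hc := Real.abs_cos_le_one th
  have hs := Real.abs_sin_le_one th
  have hcs := Real.cos_sq_add_sin_sq th
  have e1 : z.1 = ip z (tang th) * Real.cos th - ip z (nrm th) * Real.sin th := by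
    unfold ip tang nrm
    simp only
    linear_combination (-z.1) * hcs
  have e2 : z.2 = ip z (tang th) * Real.sin th + ip z (nrm th) * Real.cos th := by
    unfold ip tang nrm
    simp only
    linear_combination (-z.2) * hcs
  have m1 : ∀ x y : ℝ, |y| ≤ 1 → |x * y| ≤ |x| := fun x y hy => by
    rw [abs_mul]
    exact mul_le_of_le_one_right (abs_nonneg _) hy
  constructor
  · rw [e1]
    have := norm_sub_le (ip z (tang th) * Real.cos th) (ip z (nrm th) * Real.sin th)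
    simp only [Real.norm_eq_abs] at this
    linarith [m1 (ip z (tang th)) _ hc, m1 (ip z (nrm th)) _ hs]
  · rw [e2]
    have := abs_add_le (ip z (tang th) * Real.sin th) (ip z (nrm th) * Real.cos th)
    linarith [m1 (ip z (tang th)) _ hs, m1 (ip z (nrm th)) _ hc]

/-- the integers which are floors of the points of `[x - r, x + r]` -/
noncomputable def ctI (x r : ℝ) : Finset ℤ := Finset.Icc ⌈x - r - 1⌉ ⌊x + r⌋

theorem ct_I_card (x r : ℝ) (hr : 0 ≤ r) : ((ctI x r).card : ℝ) ≤ 2 * r + 2 := by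
  unfold ctI
  rw [Int.card_Icc]
  have h1 : (⌊x + r⌋ : ℝ) ≤ x + r := Int.floor_le _
  have h2 : x - r - 1 ≤ (⌈x - r - 1⌉ : ℝ) := Int.le_ceil _
  rcases le_or_gt 0 (⌊x + r⌋ + 1 - ⌈x - r - 1⌉) with h | h
  · have e : (((⌊x + r⌋ + 1 - ⌈x - r - 1⌉).toNat : ℕ) : ℝ) = ((⌊x + r⌋ + 1 - ⌈x - r - 1⌉ : ℤ) : ℝ) := by
      have := Int.toNat_of_nonneg h
      exact_mod_cast this
    rw [e]
    push_cast
    linarith
  · rw [Int.toNat_of_nonpos h.le]
    simp only [Nat.cast_zero]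
    linarith

theorem ct_I_mem {x r y w : ℝ} (hw : 0 < w) (h : |y - x| ≤ r * w) : ⌊y / w⌋ ∈ ctI (x / w) r := by
  have h' : |y / w - x / w| ≤ r := by
    rw [← sub_div, abs_div, abs_of_pos hw, div_le_iff₀ hw]
    exact h
  obtain ⟨a, b⟩ := abs_le.1 h'
  unfold ctI
  rw [Finset.mem_Icc]
  refine ⟨Int.ceil_le.2 ?_, Int.floor_le_floor (by linarith)⟩
  have := Int.lt_floor_add_one (y / w)
  linarith

/-- the aperture label determines the geometric localizer up to `C(Ke)` values.   `g = geo d`: `C = g.tc`; `‖V - vc‖ ≤ √2 Ke ε^b ≤ √2 Ke ε^bs`;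
`‖X - (C - C_r) V - (xc - (C - C_r) vc)‖ ≤ √2 Ke ε^(b+t) + ε^r √2 Ke ε^b ≤ 2 √2 Ke ε^(r+bs)`; a ball of radius `R w` meets at most `(2R+2)²` cells of side `w`. -/
theorem ct_list (Ke : ℝ) : ∃ C : ℝ, 1 ≤ C ∧ ∀ (E : PEnv) (B : PBd) (T : PTest) (r bs : ℝ), B.Ke = Ke → E.Obeys B →
    T.Obeys B E → 0 ≤ r → r ≤ T.t → 0 ≤ bs → (∀ o, 0 < T.P.p o → bs ≤ (T.geo (T.D o)).b) →
    T.P.NVal (fun _ => True) (fun o => loc0 E.ε r bs (T.site (T.O o))) T.D C := by
  have hk := abs_nonneg Ke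
  refine ⟨((2 * (2 * |Ke|) + 2) * (2 * (2 * |Ke|) + 2)) * ((2 * (4 * |Ke|) + 2) * (2 * (4 * |Ke|) + 2)), ?_, ?_⟩
  · have a1 : (1 : ℝ) ≤ 2 * (2 * |Ke|) + 2 := by linarith
    have a2 : (1 : ℝ) ≤ 2 * (4 * |Ke|) + 2 := by linarith
    exact one_le_mul_of_one_le_of_one_le (one_le_mul_of_one_le_of_one_le a1 a1)
      (one_le_mul_of_one_le_of_one_le a2 a2)
  intro E B T r bs hKe hE hT hr hrt hbs hb ω₀
  obtain ⟨g, hg⟩ : ∃ g, g = T.geo (T.D ω₀) := ⟨_, rfl⟩
  obtain ⟨w, hw⟩ : ∃ w, w = E.ε ^ bs := ⟨_, rfl⟩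
  obtain ⟨w', hw'⟩ : ∃ w', w' = E.ε ^ r * E.ε ^ bs := ⟨_, rfl⟩
  obtain ⟨δ, hδ⟩ : ∃ δ, δ = g.tc - tanchor E.ε r g.tc := ⟨_, rfl⟩
  have hε := hE.ε0
  have hε1 := hE.ε1
  have hr0 : 0 < E.ε ^ r := Real.rpow_pos_of_pos hε r
  have hw0 : 0 < w := by rw [hw]; exact Real.rpow_pos_of_pos hε bs
  have hw'0 : 0 < w' := by rw [hw', ← hw]; exact mul_pos hr0 hw0
  have hδ0 : 0 ≤ δ ∧ δ ≤ E.ε ^ r := by
    have h1 : (⌊g.tc / E.ε ^ r⌋ : ℝ) ≤ g.tc / E.ε ^ r := Int.floor_le _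
    have h2 : g.tc / E.ε ^ r < (⌊g.tc / E.ε ^ r⌋ : ℝ) + 1 := Int.lt_floor_add_one _
    rw [le_div_iff₀ hr0] at h1
    rw [div_lt_iff₀ hr0] at h2
    rw [hδ]
    unfold tanchor
    constructor <;> linarith
  refine ⟨({⌊g.tc / E.ε ^ r⌋} : Finset ℤ) ×ˢ ((ctI (g.vc.1 / w) (2 * |Ke|) ×ˢ ctI (g.vc.2 / w) (2 * |Ke|)) ×ˢ
    (ctI ((g.xc.1 - δ * g.vc.1) / w') (4 * |Ke|) ×ˢ ctI ((g.xc.2 - δ * g.vc.2) / w') (4 * |Ke|))), ?_, ?_⟩
  · rw [Finset.card_product, Finset.card_product, Finset.card_product, Finset.card_product, Finset.card_singleton]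
    push_cast
    rw [one_mul]
    have c1 := ct_I_card (g.vc.1 / w) (2 * |Ke|) (by positivity)
    have c2 := ct_I_card (g.vc.2 / w) (2 * |Ke|) (by positivity)
    have c3 := ct_I_card ((g.xc.1 - δ * g.vc.1) / w') (4 * |Ke|) (by positivity)
    have c4 := ct_I_card ((g.xc.2 - δ * g.vc.2) / w') (4 * |Ke|) (by positivity)
    exact mul_le_mul (mul_le_mul c1 c2 (by positivity) (by positivity))
      (mul_le_mul c3 c4 (by positivity) (by positivity)) (by positivity) (by positivity)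
  · intro ω hω _ hD
    have hpos := ct_pos_of_ne _ hω
    have hG := hT.geo ω hpos
    have hbb := hb ω hpos
    rw [hD, ← hg] at hG hbb
    rw [hKe] at hG
    obtain ⟨s, hs⟩ : ∃ s, s = T.site (T.O ω) := ⟨_, rfl⟩
    rw [← hs] at hG
    obtain ⟨-, gba, -, -, gtc, gV, gX⟩ := hG
    have hK0 : 0 ≤ Ke := by
      have := (abs_nonneg _).trans gV.1
      exact (mul_nonneg_iff_of_pos_right (Real.rpow_pos_of_pos hε _)).1 this
    rw [abs_of_nonneg hK0]
    have p1 : Ke * E.ε ^ g.b ≤ Ke * w := by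
      rw [hw]
      exact mul_le_mul_of_nonneg_left (Real.rpow_le_rpow_of_exponent_ge hε hε1.le hbb) hK0
    have p2 : Ke * E.ε ^ g.a ≤ Ke * w := by
      rw [hw]
      exact mul_le_mul_of_nonneg_left (Real.rpow_le_rpow_of_exponent_ge hε hε1.le (hbb.trans gba)) hK0
    have p3 : Ke * E.ε ^ (g.b + T.t) ≤ Ke * w' := by
      rw [hw', ← Real.rpow_add hε]
      exact mul_le_mul_of_nonneg_left (Real.rpow_le_rpow_of_exponent_ge hε hε1.le (by linarith)) hK0
    have p4 : Ke * E.ε ^ (g.a + T.t) ≤ Ke * w' := by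
      rw [hw', ← Real.rpow_add hε]
      exact mul_le_mul_of_nonneg_left (Real.rpow_le_rpow_of_exponent_ge hε hε1.le (by linarith)) hK0
    obtain ⟨v1, v2⟩ := ct_rect_coord gV p1 p2
    obtain ⟨x1, x2⟩ := ct_rect_coord gX p3 p4
    have v1' : |s.V 0 - g.vc.1| ≤ 2 * (Ke * w) := v1
    have v2' : |s.V 1 - g.vc.2| ≤ 2 * (Ke * w) := v2
    have x1' : |s.X 0 - g.xc.1| ≤ 2 * (Ke * w') := x1
    have x2' : |s.X 1 - g.xc.2| ≤ 2 * (Ke * w') := x2
    have hww : E.ε ^ r * w = w' := by rw [hw', hw]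
    have comb : ∀ X V xc vc : ℝ, |V - vc| ≤ 2 * (Ke * w) → |X - xc| ≤ 2 * (Ke * w') →
        |X - δ * V - (xc - δ * vc)| ≤ 4 * Ke * w' := by
      intro X V xc vc hV hX
      have e : X - δ * V - (xc - δ * vc) = (X - xc) - δ * (V - vc) := by ring
      have h1 : |δ * (V - vc)| ≤ E.ε ^ r * (2 * (Ke * w)) := by
        rw [abs_mul, abs_of_nonneg hδ0.1]
        exact mul_le_mul hδ0.2 hV (abs_nonneg _) hr0.le
      have h2 := norm_sub_le (X - xc) (δ * (V - vc))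
      simp only [Real.norm_eq_abs] at h2
      rw [e]
      have h3 : E.ε ^ r * (2 * (Ke * w)) = 2 * (Ke * w') := by rw [← hww]; ring
      linarith
    have eloc : loc0 E.ε r bs s = (⌊g.tc / E.ε ^ r⌋, (⌊s.V 0 / w⌋, ⌊s.V 1 / w⌋),
        (⌊(s.X 0 - δ * s.V 0) / w'⌋, ⌊(s.X 1 - δ * s.V 1) / w'⌋)) := by
      unfold loc0 cell
      rw [← gtc, ← hδ, ← hw, hww]
      simp
    show loc0 E.ε r bs (T.site (T.O ω)) ∈ _
    rw [← hs, eloc]
    simp only [Finset.mem_product, Finset.mem_singleton, true_and]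
    refine ⟨⟨ct_I_mem hw0 ?_, ct_I_mem hw0 ?_⟩, ⟨ct_I_mem hw'0 ?_, ct_I_mem hw'0 ?_⟩⟩
    · linarith
    · linarith
    · exact comb _ _ _ _ v1' x1'
    · exact comb _ _ _ _ v2' x2'

/-- adjoining the winner tags -/
theorem ct_list_J [Fintype τ] (E : PEnv) (T : PTest) (r bs C : ℝ) (S0 : ℕ) (win : T.ι → ℕ × τ)
    (h : T.P.NVal (fun _ => True) (fun o => loc0 E.ε r bs (T.site (T.O o))) T.D C)
    (hw : ∀ o, 0 < T.P.p o → (win (T.O o)).1 < S0) :
    T.P.NVal (fun _ => True) (ctJ E r bs T win) T.D (C * ((S0 : ℝ) * (Fintype.card τ : ℝ))) := by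
  intro o₀
  obtain ⟨F, hF, hmem⟩ := h o₀
  refine ⟨F ×ˢ (Finset.range S0 ×ˢ (Finset.univ : Finset τ)), ?_, ?_⟩
  · rw [Finset.card_product, Finset.card_product, Finset.card_range, Finset.card_univ]
    push_cast
    exact mul_le_mul_of_nonneg_right hF (by positivity)
  · intro o ho _ hD
    simp only [ctJ, Classes.Jof, Finset.mem_product, Finset.mem_range, Finset.mem_univ, and_true]
    exact ⟨hmem o ho trivial hD, hw o (ct_pos_of_ne _ ho)⟩

/-! ## the local scores -/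

theorem ct_score_congr {Ω α β : Type} [Fintype Ω] (l : ℝ) (P : FLaw Ω) (O : Ω → α) (D : Ω → β) {lm lm' w w' : Ω → ℝ}
    (h1 : ∀ o, P.p o ≠ 0 → lm o = lm' o) (h2 : ∀ o, P.p o ≠ 0 → w o = w' o) :
    pscore l P O D lm w = pscore l P O D lm' w' := by
  unfold pscore
  rw [ent_ev_congr P h1, ent_ev_congr P h2]

/-- the score of the local test in the local environment is `P_J` -/
theorem ct_PJ_eq (γ : ℝ) (E : PEnv) (hε : 0 < E.ε) (r bs : ℝ) (T : PTest) {At : Atoms} (Cl : Classes At)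
    (tag : At.𝔸 → τ) (win : T.ι → ℕ × τ) (o : T.Ω) (ho : T.P.p o ≠ 0) :
    score γ (Cl.envJ E r bs tag (ctJ E r bs T win o)) (ctTestJ E r bs T win (ctJ E r bs T win o))
      = pcPJ (lg E.ε) T.P T.O T.D (ctJ E r bs T win) (Cl.LmW E r bs tag T win) (ctW γ T) bs o := by
  unfold Classes.envJ ctTestJ
  rw [pk_resc_score _ _ _ _ _ _ _ hε]
  unfold pcPJ
  have hpos : 0 < T.P.pr (fun o' => ctJ E r bs T win o' = ctJ E r bs T win o) :=
    ent_fib_pos T.P (ctJ E r bs T win) ho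
  have e1 : score γ (E.withInput (Cl.hJ E r tag (ctJ E r bs T win o)))
      (T.withLaw (T.P.cnd fun o' => ctJ E r bs T win o' = ctJ E r bs T win o))
      = pscore (lg E.ε) (T.P.cfib (ctJ E r bs T win) o) T.O T.D
        (fun o' => Real.log ((E.withInput (Cl.hJ E r tag (ctJ E r bs T win o))).m T.t (T.site (T.O o'))) / lg E.ε)
        (ctW γ T) := rfl
  rw [e1]
  have e2 := pc_score_shift (lg E.ε) (T.P.cfib (ctJ E r bs T win) o) T.O T.D (Cl.LmW E r bs tag T win)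
    (fun o' => ctW γ T o' - 2 * bs) 0 (2 * bs)
  have e3 : pscore (lg E.ε) (T.P.cfib (ctJ E r bs T win) o) T.O T.D
      (fun o' => Real.log ((E.withInput (Cl.hJ E r tag (ctJ E r bs T win o))).m T.t (T.site (T.O o'))) / lg E.ε)
      (ctW γ T)
      = pscore (lg E.ε) (T.P.cfib (ctJ E r bs T win) o) T.O T.D (fun o' => Cl.LmW E r bs tag T win o' + 0)
        (fun o' => ctW γ T o' - 2 * bs + 2 * bs) := by
    apply ct_score_congr
    · intro o' ho'
      have := ((ent_cnd_supp T.P _ hpos).1 ho').1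
      unfold Classes.LmW
      rw [this, add_zero]
    · intro o' _
      ring
  rw [e3, e2]
  ring

/-- **(10.9)** on the frozen data -/
theorem ct_split {γ : ℝ} {E : PEnv} {B : PBd} {T : PTest} {r bs : ℝ} {p : Atoms.Par} {ξ : ℝ} {S0 : ℕ} {A0 : ℝ}
    {At : Atoms} {Cl : Classes At} {tag : At.𝔸 → τ} {win : T.ι → ℕ × τ} {S S₁ : ℝ}
    (H : CutOK γ E B T r bs p ξ S0 A0 At Cl tag win) (hW : WinOK E r bs T Cl tag win S) (hS : 0 < S)
    (hL : T.P.NVal (fun _ => True) (ctJ E r bs T win) T.D S₁) :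
    score γ E T ≤ T.P.ent (ctJ E r bs T win) / lg E.ε + bs
      + T.P.ev (pcPJ (lg E.ε) T.P T.O T.D (ctJ E r bs T win) (Cl.LmW E r bs tag T win) (ctW γ T) bs)
      + (Real.log S₁ / (2 * lg E.ε) + 3 / 2 * (Real.log (4 * S ^ 2) / lg E.ε)) := by
  have hl := p9_lg_pos H.obE.ε0 H.obE.ε1
  rw [ct_score_eq]
  refine pc_split_J hl T.P T.O T.D (ctJ E r bs T win) (ctLm E T) (Cl.LmW E r bs tag T win) (ctW γ T) bs
    (Real.log (4 * S ^ 2) / lg E.ε) S₁ ?_ hL ?_
  · intro o o' _ _ h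
    unfold ctJ
    rw [h]
  · intro o ho
    have ho' := ct_pos_of_ne _ ho
    have h1 := H.obT.mpos o ho'
    have h2 := ct_mW_pos H hW o ho'
    have h3 := hW o ho'
    unfold ctLm Classes.LmW
    rw [← add_div]
    apply div_le_div_of_nonneg_right _ hl.le
    rw [add_comm, ← Real.log_mul (by positivity) h2.ne']
    exact Real.log_le_log h1 h3

/-! ## the local systems are admissible -/

/-- the package of the local systems -/
noncomputable def ctBloc (B : PBd) (p : Atoms.Par) (dmin : ℝ) (Mloc : ℕ) : PBd where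
  K := { a0 := B.K.a0, a1 := B.K.a1, A := fun j => 3 ^ j * B.K.A j, Bb := B.K.Bb, Rv := |p.Ca| + |p.Ra| + 1, Rx := 3 }
  Ra := B.Ra
  Mu := B.Mu
  Ke := B.Ke
  Hmax := B.Hmax
  Lmax := B.Lmax
  tmin := dmin
  M := Mloc

theorem ct_bloc_good (B : PBd) (hB : B.Good) (p : Atoms.Par) (dmin : ℝ) (hd : 0 < dmin) (Mloc : ℕ) (hM : 10 ≤ Mloc) :
    (ctBloc B p dmin Mloc).Good := ⟨hB.a0, hd, hM⟩

/-- T-LOCOBEYS, environment.   `pk_resc_env_obeys` with `h = hJ` : `MemLp` (finite sum of bounded compactly supported measurable functions), support: `‖v - V_T‖ ≤ Ra ρ_r`, `ρ_r ≤ ε^bs`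
(as `bs ≤ b ≤ a ≤ u_t ≤ u_r`), `‖V_T - V_J‖ ≤ Ca ε^bs`;  `H - r - 2 bs ≥ t - r > 0`;  `0 ≤ C_r ≤ C < 1`. -/
theorem ct_loc_env {γ : ℝ} {E : PEnv} {B : PBd} {T : PTest} {r bs : ℝ} {p : Atoms.Par} {ξ : ℝ} {S0 : ℕ} {A0 : ℝ}
    {At : Atoms} {Cl : Classes At} {tag : At.𝔸 → τ} {win : T.ι → ℕ × τ}
    (H : CutOK γ E B T r bs p ξ S0 A0 At Cl tag win) (dmin : ℝ) (hd : 0 < dmin) (hrt : r + dmin ≤ T.t) (Mloc : ℕ)
    (o : T.Ω) (ho : 0 < T.P.p o) :
    (Cl.envJ E r bs tag (ctJ E r bs T win o)).Obeys (ctBloc B p dmin Mloc) := by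
  obtain ⟨g0, g1, _, g3, _⟩ := H.obT.geo o ho
  have hbt : bs ≤ E.u T.t := (H.bsb o ho).trans (g1.trans g3)
  obtain ⟨c0, c1⟩ := H.obT.time (T.O o) ⟨o, ho, rfl⟩
  obtain ⟨_, _, n3, _, n5⟩ := pk_loc0_near H.obE.ε0 r bs (T.site (T.O o))
  exact pk_env_loc_obeys (B' := ctBloc B p dmin Mloc) H.obE H.goodA H.r0 (by linarith) H.bs0 hbt
    (loc0 E.ε r bs (T.site (T.O o))) (n5 c0) (by linarith) (fun A => Cl.lab tag A = ctJ E r bs T win o)
    (fun A hA => congrArg Prod.fst hA) ⟨rfl, rfl, rfl⟩ le_rfl le_rfl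
    (by
      show p.Ra + p.Ca ≤ |p.Ca| + |p.Ra| + 1
      linarith [le_abs_self p.Ra, le_abs_self p.Ca])

/-- T-LOCOBEYS, test.   `pk_resc_test_obeys` for `T.withLaw (T.P.cnd (J = j))` (`ct_obeys_withLaw`; `mpos` from `ct_mW_pos`): on the support of the conditional law the site lies in the
cells of `j`: `C_r ≤ C < C_r + ε^r`, `‖V - V_J‖ ≤ ε^bs`, `‖X - X_J - (C - C_r) V_J‖ ≤ ‖X - (C - C_r) V - X_J‖ + ε^r ‖V - V_J‖ ≤ 2 ε^r ε^bs`. -/
theorem ct_loc_test {γ : ℝ} {E : PEnv} {B : PBd} {T : PTest} {r bs : ℝ} {p : Atoms.Par} {ξ : ℝ} {S0 : ℕ} {A0 : ℝ}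
    {At : Atoms} {Cl : Classes At} {tag : At.𝔸 → τ} {win : T.ι → ℕ × τ} {S : ℝ}
    (H : CutOK γ E B T r bs p ξ S0 A0 At Cl tag win) (hW : WinOK E r bs T Cl tag win S) (dmin : ℝ)
    (hrt : r + dmin ≤ T.t) (Mloc : ℕ) (o : T.Ω) (ho : 0 < T.P.p o) :
    (ctTestJ E r bs T win (ctJ E r bs T win o)).Obeys (ctBloc B p dmin Mloc)
      (Cl.envJ E r bs tag (ctJ E r bs T win o)) := by
  have hε := H.obE.ε0
  have h1 : 0 < E.ε ^ r := Real.rpow_pos_of_pos hε r
  have h2 : 0 < E.ε ^ bs := Real.rpow_pos_of_pos hε bs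
  have hpos : 0 < T.P.pr (fun o' => ctJ E r bs T win o' = ctJ E r bs T win o) :=
    ent_fib_pos T.P (ctJ E r bs T win) ho.ne'
  -- the support of the conditional law
  have hQ : ∀ o', 0 < (T.P.cnd fun o' => ctJ E r bs T win o' = ctJ E r bs T win o).p o' →
      ctJ E r bs T win o' = ctJ E r bs T win o ∧ 0 < T.P.p o' := fun o' ho' => by
    have := (ent_cnd_supp T.P _ hpos).1 ho'.ne'
    exact ⟨this.1, ct_pos_of_ne _ this.2⟩
  have hob := ct_obeys_withLaw H.obT (T.P.cnd fun o' => ctJ E r bs T win o' = ctJ E r bs T win o)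
    fun o' ho' => (hQ o' ho').2
  have hob' : (T.withLaw (T.P.cnd fun o' => ctJ E r bs T win o' = ctJ E r bs T win o)).Obeys B
      (E.withInput (Cl.hJ E r tag (ctJ E r bs T win o))) :=
    ⟨hob.t0, hob.amp, hob.time, hob.vel, hob.pos, hob.multT, hob.multS, fun o' ho' => by
      have h3 := ct_mW_pos H hW o' (hQ o' ho').2
      rw [(hQ o' ho').1] at h3
      exact h3, hob.geo⟩
  have hloc : ∀ i, (T.withLaw (T.P.cnd fun o' => ctJ E r bs T win o' = ctJ E r bs T win o)).act i →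
      loc0 E.ε r bs (T.site i) = (ctJ E r bs T win o).1 := by
    rintro i ⟨o', ho', rfl⟩
    exact congrArg Prod.fst (hQ o' ho').1
  refine pk_resc_test_obeys (B' := ctBloc B p dmin Mloc) E r bs _ _ _ _ hε H.bs0 _ hob' (by
    show dmin ≤ T.t - r
    linarith) rfl rfl rfl rfl ?_ ?_ ?_ fun o' ho' => H.bsb o' (hQ o' ho').2
  · intro i hi
    obtain ⟨_, _, n3, n4, _⟩ := pk_loc0_near hε r bs (T.site i)
    rw [hloc i hi] at n3 n4
    exact ⟨n3, n4⟩
  · intro i hi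
    obtain ⟨n1, _⟩ := pk_loc0_near hε r bs (T.site i)
    rw [hloc i hi] at n1
    refine n1.trans ?_
    show E.ε ^ bs ≤ (|p.Ca| + |p.Ra| + 1) * E.ε ^ bs
    have := mul_nonneg (add_nonneg (abs_nonneg p.Ca) (abs_nonneg p.Ra)) h2.le
    linarith
  · intro i hi
    obtain ⟨n1, n2, n3, n4, _⟩ := pk_loc0_near hε r bs (T.site i)
    rw [hloc i hi] at n1 n2 n3 n4
    show ‖(T.site i).X - (ctJ E r bs T win o).1.XJ E.ε r bs
      - ((T.site i).C - (ctJ E r bs T win o).1.Cr E.ε r) • (ctJ E r bs T win o).1.VJ E.ε bs‖ ≤ 3 * (E.ε ^ r * E.ε ^ bs)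
    have e : (T.site i).X - (ctJ E r bs T win o).1.XJ E.ε r bs
        - ((T.site i).C - (ctJ E r bs T win o).1.Cr E.ε r) • (ctJ E r bs T win o).1.VJ E.ε bs
        = ((T.site i).X - (ctJ E r bs T win o).1.XJ E.ε r bs
            - ((T.site i).C - (ctJ E r bs T win o).1.Cr E.ε r) • (T.site i).V)
          + ((T.site i).C - (ctJ E r bs T win o).1.Cr E.ε r) • ((T.site i).V - (ctJ E r bs T win o).1.VJ E.ε bs) := by
      rw [smul_sub]
      abel
    rw [e]
    refine (norm_add_le _ _).trans ?_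
    rw [norm_smul, Real.norm_of_nonneg (by linarith)]
    have h5 : ((T.site i).C - (ctJ E r bs T win o).1.Cr E.ε r) * ‖(T.site i).V - (ctJ E r bs T win o).1.VJ E.ε bs‖
        ≤ E.ε ^ r * E.ε ^ bs := mul_le_mul (by linarith) n1 (norm_nonneg _) h1.le
    have h6 := mul_pos h1 h2
    linarith

theorem ct_testJ_t (E : PEnv) (r bs : ℝ) (T : PTest) (win : T.ι → ℕ × τ) (j : Classes.Lab τ) :
    (ctTestJ E r bs T win j).t = T.t - r := rfl

theorem ct_envJ_eps (E : PEnv) (r bs : ℝ) {At : Atoms} (Cl : Classes At) (tag : At.𝔸 → τ) (j : Classes.Lab τ) :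
    (Cl.envJ E r bs tag j).ε = E.ε := rfl

/-! ## the local root comparison (P9.5, upper half) -/

/-- **T-ROOT = (9.29)**.   PROVED in Pk9/LocalRoot.lean (helper150).   The order `Mloc` of the LOCAL canonical root class depends on the accuracy `e` (the far term of cap-Bessel needs `η (2 Mloc - 4) ≥` the bounded exponents). -/
theorem ct_root (γ : ℝ) (h0 : 0 < γ) (h1 : γ < 1) (B : PBd) (hB : B.Good) (p : Atoms.Par) (e : ℝ) (he : 0 < e) :
    ∃ (Mloc : ℕ) (ε₀ : ℝ), 10 ≤ Mloc ∧ 0 < ε₀ ∧ ∀ (E : PEnv) (t r bs ξ : ℝ) (S0 : ℕ) (At : Atoms) (Cl : Classes At)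
      (τ : Type) (tag : At.𝔸 → τ), E.Obeys B → E.ε < ε₀ → 0 < E.nrm2 → 0 ≤ r → r ≤ t → 0 ≤ bs → bs ≤ E.u t →
      bs ≤ E.L - t → 0 < ξ → ξ ≤ e / 4 → At.Good E B t r bs p → Cl.Good γ E r bs ξ S0 →
      ∀ j : Classes.Lab τ, 0 < Cl.N tag j → 0 ≤ j.1.1 → j.1.Cr E.ε r < 1 →
        K0 γ Mloc (Cl.envJ E r bs tag j) ≤ Cl.AJ E tag j + e :=
  plr_root γ h0 h1 B hB p e he

theorem ct_AJ_eq (E : PEnv) {At : Atoms} (Cl : Classes At) (tag : At.𝔸 → τ) (j : Classes.Lab τ) :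
    Cl.AJ E tag j = pcA (Cl.LN E tag) (Cl.Lm E) Cl.gJ j := by
  unfold Classes.AJ pcA Classes.LN Classes.Lm Classes.gJ pcLN Classes.N Classes.clsOf
  ring

/-- `K_0` is the supremum of a bounded set.   Root test: log-sum (`p9_logsum`, `p9_logsum_cond`) + analysis Bessel (`pk_site_bessel`, separated sites, `CanC M ⊆ PkAmp 3 100 1`):
`score ≤ (3/2) log (C nrm2) / ℓ + u_0`. -/
theorem ct_K0_bdd (γ : ℝ) (h0 : 0 < γ) (h1 : γ < 1) (B : PBd) (hB : B.Good) (M : ℕ) (hM : 3 ≤ M) (E : PEnv)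
    (hE : E.Obeys B) : BddAbove (K0set γ M E) := by
  exact pk_K0set_bdd hB.a0 (by linarith) hM hE.ε0 hE.ε1 hE.H0.le hE.phase hE.mem

end Claimed.Agent.R255.Pkt
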