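-- KEEP
import Claimed.Agent.R255.Comp.CutThm

/-!
# Row 255 (BR paper), Sec. 10: THE EARLIER TESTS ON THE FROZEN DATA OF A CUT (T-EARLIER)      (architect helper242)

`At.earlierX r T J cl ap` (`Comp/CutDefs.lean`): current marginal of `J`, atom uniform in `cl J`, label `(J, ap T)`.
* `ct_ret_score`   = (10.10)   `cl = clsOf tag` (retained classes), `ap = acap` :  `score ≥ K_r^* - (3/2) E d_1 - ξ`
* `ct_whole_score` = (9.30)    `cl = clsAll` (whole classes) :                    `score ≥ K_r^* - ξ - (3/2) log #τ / ℓ`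
* `ct_iso_score`               `cl = clsOf tag`, `ap = isoAp` :                   `score ≥ H(J) + E[log N + (3/2) log m] + u_r`
* `ct_earlier_obeys`, `ct_earlier_rootG` : admissibility (LEAVES).
-/

set_option autoImplicit false

namespace Claimed.Agent.R255.Pkt

open MeasureTheory Claimed.Agent.R255.Osc Claimed.Agent.R255.FLaw
open scoped BigOperators
open Classical

variable {τ : Type}

/-! ## logarithmic forms of `Classes.Good` (small leaves) -/

/-- the mass of the coefficient test IS `|c_T|²` -/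
theorem ct_m_coef (E : PEnv) (r : ℝ) (At : Atoms) (A : At.𝔸) : E.m r (At.asite A).conj = ‖At.coef E r A‖ ^ 2 := rfl

/-- `massHi` + `floor` -/
theorem ct_mB_pos {γ : ℝ} {E : PEnv} {B : PBd} {t r bs ξ : ℝ} {p : Atoms.Par} {S0 : ℕ} {At : Atoms} {Cl : Classes At}
    (hε : 0 < E.ε) (hn : 0 < E.nrm2) (hA : At.Good E B t r bs p) (hC : Cl.Good γ E r bs ξ S0) (A : At.𝔸) :
    0 < Cl.mB (At.loc A) (Cl.cls A) := by
  have h1 : 0 < E.ε ^ p.Bx * E.nrm2 := mul_pos (Real.rpow_pos_of_pos hε _) hn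
  have h2 := h1.trans_le ((hA.floor A).trans (hC.massHi A))
  exact (pos_iff_pos_of_mul_pos h2).2 (Real.rpow_pos_of_pos hε _)

/-- `massLo` in logarithmic form -/
theorem ct_mass_log {γ : ℝ} {E : PEnv} {B : PBd} {t r bs ξ : ℝ} {p : Atoms.Par} {S0 : ℕ} {At : Atoms} {Cl : Classes At}
    (hε : 0 < E.ε) (hε1 : E.ε < 1) (hn : 0 < E.nrm2) (hA : At.Good E B t r bs p) (hC : Cl.Good γ E r bs ξ S0)
    (j : Classes.Lab τ) (A : At.𝔸) (hj : A ∈ Cl.clsAll j) :
    Cl.Lm E j ≤ Real.log (E.m r (At.asite A).conj) / lg E.ε := by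
  have hl := p9_lg_pos hε hε1
  have h := (Finset.mem_filter.1 hj).2
  have hp := ct_mB_pos hε hn hA hC A
  rw [ct_m_coef]
  unfold Classes.Lm
  rw [← h.1, ← h.2]
  exact div_le_div_of_nonneg_right (Real.log_le_log hp (hC.massLo A)) hl.le

/-- `fibre` in logarithmic form -/
theorem ct_fibre_log {γ : ℝ} {E : PEnv} {r bs ξ : ℝ} {S0 : ℕ} {At : Atoms} {Cl : Classes At}
    (hε : 0 < E.ε) (hε1 : E.ε < 1) (hC : Cl.Good γ E r bs ξ S0) (j : Classes.Lab τ) (A : At.𝔸) (hj : A ∈ Cl.clsAll j) :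
    (Cl.gJ j - (wt γ (Cl.acap A) - 2 * bs) - 2 * ξ) * lg E.ε ≤ Real.log (pcFib (Cl.clsAll j) Cl.acap A) := by
  have h := (Finset.mem_filter.1 hj).2
  have hf := hC.fibre A
  have e : ((Finset.univ.filter (fun T' => At.loc T' = At.loc A ∧ Cl.cls T' = Cl.cls A ∧ Cl.acap T' = Cl.acap A)).card : ℝ)
      = pcFib (Cl.clsAll j) Cl.acap A := by
    unfold pcFib
    congr 2
    ext T'
    simp only [Classes.clsAll, Finset.mem_filter, Finset.mem_univ, true_and]
    rw [h.1, h.2]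
    tauto
  rw [e] at hf
  have h2 := Real.log_le_log (Real.rpow_pos_of_pos hε _) hf
  rw [Real.log_rpow hε] at h2
  have e2 : lg E.ε = -Real.log E.ε := by
    unfold lg
    rw [one_div, Real.log_inv]
  unfold Classes.gJ
  rw [e2, ← h.1, ← h.2]
  linarith

/-! ## the scores -/

theorem ct_earlier_score_eq (γ : ℝ) (E : PEnv) (At : Atoms) [Nonempty At.𝔸] (r : ℝ) (T : PTest)
    (J : T.Ω → Classes.Lab τ) (cl : Classes.Lab τ → Finset At.𝔸) (ap : At.𝔸 → Geo) :
    score γ E (At.earlierX r T J cl ap) = pscore (lg E.ε) (pcMu T.P J cl) (fun x => x.2) (fun x => (J x.1, ap x.2))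
      (fun x => Real.log (E.m r (At.asite x.2).conj) / lg E.ε) (fun x => wt γ (ap x.2)) := rfl

section
variable {γ : ℝ} {E : PEnv} {B : PBd} {T : PTest} {r bs : ℝ} {p : Atoms.Par} {ξ : ℝ} {S0 : ℕ} {A0 : ℝ}
  {At : Atoms} {Cl : Classes At} {tag : At.𝔸 → τ} {win : T.ι → ℕ × τ} {S : ℝ}

/-- **(10.10)** the earlier test on the retained uniform classes -/
theorem ct_ret_score [Nonempty At.𝔸] (H : CutOK γ E B T r bs p ξ S0 A0 At Cl tag win)
    (hW : WinOK E r bs T Cl tag win S) :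
    pcKstar (lg E.ε) T.P (ctJ E r bs T win) bs (Cl.LA E) (Cl.Lm E) Cl.gJ
        - 3 / 2 * T.P.ev (fun o => pcd1 (Cl.LA E) (Cl.LN E tag) (ctJ E r bs T win o)) - ξ
      ≤ score γ E (At.earlierX r T (ctJ E r bs T win) (Cl.clsOf tag) Cl.acap) := by
  have hl := p9_lg_pos H.obE.ε0 H.obE.ε1
  have hne := fun o ho => ct_cls_nonempty H hW o ho
  have h := pc_earlier_ret hl T.P (ctJ E r bs T win) (Cl.clsOf tag) Cl.clsAll hne
    (fun o _ => ct_cls_sub Cl tag _) (fun x => x.2) (fun _ A => Cl.acap A)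
    (fun x => Real.log (E.m r (At.asite x.2).conj) / lg E.ε) (fun _ e => wt γ e - 2 * bs) bs (Cl.Lm E) Cl.gJ
    1 (2 * ξ) 0 ?_ ?_ ?_
  · rw [ct_earlier_score_eq]
    have e : pscore (lg E.ε) (pcMu T.P (ctJ E r bs T win) (Cl.clsOf tag)) (fun x => x.2)
        (fun x => (ctJ E r bs T win x.1, Cl.acap x.2))
        (fun x => Real.log (E.m r (At.asite x.2).conj) / lg E.ε) (fun x => wt γ (Cl.acap x.2))
        = pscore (lg E.ε) (pcMu T.P (ctJ E r bs T win) (Cl.clsOf tag)) (fun x => x.2)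
        (fun x => (ctJ E r bs T win x.1, Cl.acap x.2))
        (fun x => Real.log (E.m r (At.asite x.2).conj) / lg E.ε)
        (fun x => 2 * bs + (wt γ (Cl.acap x.2) - 2 * bs)) :=
      ct_score_congr _ _ _ _ (fun _ _ => rfl) (fun _ _ => by ring)
    rw [e]
    simp only [Real.log_one, zero_div, mul_zero, add_zero] at h
    have e2 : 2 * ξ / 2 = ξ := by ring
    rw [e2] at h
    exact h
  · intro x₀
    refine ⟨{(Cl.lab tag x₀.2, x₀.2)}, by simp, ?_⟩
    intro x hx _ hxx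
    have h2 := (pc_mu_supp T.P (ctJ E r bs T win) (Cl.clsOf tag) hne x hx).2
    have h3 : Cl.lab tag x.2 = ctJ E r bs T win x.1 := (Finset.mem_filter.1 h2).2
    have hxx' : x.2 = x₀.2 := hxx
    rw [Finset.mem_singleton]
    show (ctJ E r bs T win x.1, x.2) = (Cl.lab tag x₀.2, x₀.2)
    rw [← h3, hxx']
  · intro o _ A hA
    rw [sub_zero]
    exact ct_mass_log H.obE.ε0 H.obE.ε1 H.nrm H.goodA H.goodC _ A (ct_cls_sub Cl tag _ hA)
  · intro o _ A hA
    exact ct_fibre_log H.obE.ε0 H.obE.ε1 H.goodC _ A (ct_cls_sub Cl tag _ hA)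

/-- **(9.30)** the earlier test on the whole classes -/
theorem ct_whole_score [Fintype τ] [Nonempty At.𝔸] (H : CutOK γ E B T r bs p ξ S0 A0 At Cl tag win)
    (hW : WinOK E r bs T Cl tag win S) :
    pcKstar (lg E.ε) T.P (ctJ E r bs T win) bs (Cl.LA E) (Cl.Lm E) Cl.gJ
        - (ξ + 3 / 2 * (Real.log (Fintype.card τ : ℝ) / lg E.ε))
      ≤ score γ E (At.earlierX r T (ctJ E r bs T win) Cl.clsAll Cl.acap) := by
  have hl := p9_lg_pos H.obE.ε0 H.obE.ε1
  have hne : ∀ o, T.P.p o ≠ 0 → (Cl.clsAll (ctJ E r bs T win o)).Nonempty := fun o ho =>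
    (ct_cls_nonempty H hW o ho).mono (ct_cls_sub Cl tag _)
  have h := pc_earlier_ret hl T.P (ctJ E r bs T win) Cl.clsAll Cl.clsAll hne
    (fun o _ => Finset.Subset.refl _) (fun x => x.2) (fun _ A => Cl.acap A)
    (fun x => Real.log (E.m r (At.asite x.2).conj) / lg E.ε) (fun _ e => wt γ e - 2 * bs) bs (Cl.Lm E) Cl.gJ
    (Fintype.card τ : ℝ) (2 * ξ) 0 ?_ ?_ ?_
  · rw [ct_earlier_score_eq]
    have e : pscore (lg E.ε) (pcMu T.P (ctJ E r bs T win) Cl.clsAll) (fun x => x.2)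
        (fun x => (ctJ E r bs T win x.1, Cl.acap x.2))
        (fun x => Real.log (E.m r (At.asite x.2).conj) / lg E.ε) (fun x => wt γ (Cl.acap x.2))
        = pscore (lg E.ε) (pcMu T.P (ctJ E r bs T win) Cl.clsAll) (fun x => x.2)
        (fun x => (ctJ E r bs T win x.1, Cl.acap x.2))
        (fun x => Real.log (E.m r (At.asite x.2).conj) / lg E.ε)
        (fun x => 2 * bs + (wt γ (Cl.acap x.2) - 2 * bs)) :=
      ct_score_congr _ _ _ _ (fun _ _ => rfl) (fun _ _ => by ring)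
    rw [e]
    have e0 : T.P.ev (fun o => pcd1 (pcLN (lg E.ε) (Cl.clsAll (τ := τ))) (pcLN (lg E.ε) Cl.clsAll)
        (ctJ E r bs T win o)) = 0 := by
      unfold pcd1
      simp only [sub_self]
      exact ent_ev_const _ 0
    rw [e0] at h
    unfold Classes.LA
    linarith
  · intro x₀
    refine ⟨Finset.univ.image (fun a : τ => ((At.loc x₀.2, Cl.cls x₀.2, a), x₀.2)), ?_, ?_⟩
    · exact_mod_cast Finset.card_image_le.trans (le_of_eq Finset.card_univ)
    · intro x hx _ hxx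
      have h2 := (pc_mu_supp T.P (ctJ E r bs T win) Cl.clsAll hne x hx).2
      have h3 := (Finset.mem_filter.1 h2).2
      have hxx' : x.2 = x₀.2 := hxx
      refine Finset.mem_image.2 ⟨(ctJ E r bs T win x.1).2.2, Finset.mem_univ _, ?_⟩
      rw [← hxx', h3.1, h3.2]
  · intro o _ A hA
    rw [sub_zero]
    exact ct_mass_log H.obE.ε0 H.obE.ε1 H.nrm H.goodA H.goodC _ A hA
  · intro o _ A hA
    exact ct_fibre_log H.obE.ε0 H.obE.ε1 H.goodC _ A hA

theorem ct_iso_wt (γ : ℝ) (At : Atoms) (E : PEnv) (r : ℝ) (A : At.𝔸) : wt γ (At.isoAp E r A) = 2 * E.u r := by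
  show (1 + γ) * E.u r + (1 - γ) * E.u r = 2 * E.u r
  ring

/-- the **isotropic earlier test** of P10.4 (2) -/
theorem ct_iso_score [Nonempty At.𝔸] (H : CutOK γ E B T r bs p ξ S0 A0 At Cl tag win)
    (hW : WinOK E r bs T Cl tag win S) :
    T.P.ent (ctJ E r bs T win) / lg E.ε
        + T.P.ev (fun o => Cl.LN E tag (ctJ E r bs T win o) + 3 / 2 * Cl.Lm E (ctJ E r bs T win o)) + E.u r
      ≤ score γ E (At.earlierX r T (ctJ E r bs T win) (Cl.clsOf tag) (At.isoAp E r)) := by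
  have hl := p9_lg_pos H.obE.ε0 H.obE.ε1
  have hne := fun o ho => ct_cls_nonempty H hW o ho
  have h := pc_earlier_iso hl T.P (ctJ E r bs T win) (Cl.clsOf tag) hne (fun x => x.2)
    (fun x => (ctJ E r bs T win x.1, At.isoAp E r x.2))
    (fun x => Real.log (E.m r (At.asite x.2).conj) / lg E.ε) (E.u r) (Cl.Lm E) 1 0 ?_ ?_
  · rw [ct_earlier_score_eq]
    have e : pscore (lg E.ε) (pcMu T.P (ctJ E r bs T win) (Cl.clsOf tag)) (fun x => x.2)
        (fun x => (ctJ E r bs T win x.1, At.isoAp E r x.2))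
        (fun x => Real.log (E.m r (At.asite x.2).conj) / lg E.ε) (fun x => wt γ (At.isoAp E r x.2))
        = pscore (lg E.ε) (pcMu T.P (ctJ E r bs T win) (Cl.clsOf tag)) (fun x => x.2)
        (fun x => (ctJ E r bs T win x.1, At.isoAp E r x.2))
        (fun x => Real.log (E.m r (At.asite x.2).conj) / lg E.ε) (fun _ => 2 * E.u r) :=
      ct_score_congr _ _ _ _ (fun _ _ => rfl) (fun x _ => ct_iso_wt γ At E r x.2)
    rw [e]
    simp only [Real.log_one, zero_div, mul_zero, add_zero, sub_zero] at h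
    exact h
  · intro x₀
    refine ⟨{(Cl.lab tag x₀.2, x₀.2)}, by simp, ?_⟩
    intro x hx _ hxx
    have h2 := (pc_mu_supp T.P (ctJ E r bs T win) (Cl.clsOf tag) hne x hx).2
    have h3 : Cl.lab tag x.2 = ctJ E r bs T win x.1 := (Finset.mem_filter.1 h2).2
    have hxx' : x.2 = x₀.2 := hxx
    rw [Finset.mem_singleton]
    show (ctJ E r bs T win x.1, x.2) = (Cl.lab tag x₀.2, x₀.2)
    rw [← h3, hxx']
  · intro o _ A hA
    rw [sub_zero]
    exact ct_mass_log H.obE.ε0 H.obE.ε1 H.nrm H.goodA H.goodC _ A (ct_cls_sub Cl tag _ hA)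

end

end Claimed.Agent.R255.Pkt
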