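-- KEEP
import Claimed.Agent.R255.Comp.CutEarlier
import Claimed.Agent.R255.Pkt.CutThm

/-!
# Row 255 (BR paper), Sec. 10: PROPOSITION 10.1, FINAL FORM `cut_main`      (architect helper242)

`cut_main` : for a package `B`, minimal gaps `dmin` (after the cut), `rmin` (before the cut, unless `r = 0`), error budget `R`, output floor exponent `A0`, bound `Smax` of the number of tags,
there are constants `c : CutPar` and `ε₀` such that
 (A) atoms and whole classes exist for every environment and every cut `(t, r, bs)`;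
 (B) for EVERY tag map, winner map and current endpoint law (`CutOK`): the winner estimate `WinOK` and the five inputs `CompHyp` of Proposition 10.1 hold with the error `R`,
     with `K_J = K0 γ c.Mloc (envJ J)`.   Hence `pc_comp` (10.8), `pc_comp_markov` (10.11), `pc_bench_bridge` (11.20) ... of `Comp/Main.lean` apply verbatim.
The local systems obey `ctBloc B c.p dmin c.Mloc` (`ct_loc_env`, `ct_loc_test`), the earlier tests obey `c.Bat` (`CutPar` field, `ct_earlier_obeys`).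
-/

set_option autoImplicit false

namespace Claimed.Agent.R255.Pkt

open MeasureTheory Claimed.Agent.R255.Osc Claimed.Agent.R255.FLaw
open scoped BigOperators
open Classical

variable {τ : Type}

/-- `c / ℓ` is small -/
theorem ct_small (c R : ℝ) (hR : 0 < R) : ∃ ε₀ : ℝ, 0 < ε₀ ∧ ∀ ε : ℝ, 0 < ε → ε < ε₀ → c / lg ε ≤ R := by
  refine ⟨Real.exp (-(|c| / R + 1)), Real.exp_pos _, fun ε h0 h1 => ?_⟩
  have h2 : Real.log ε < -(|c| / R + 1) := by
    rw [← Real.log_exp (-(|c| / R + 1))]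
    exact Real.log_lt_log h0 h1
  have h3 : lg ε = - Real.log ε := by
    unfold lg
    rw [one_div, Real.log_inv]
  have h4 : |c| / R + 1 < lg ε := by rw [h3]; linarith
  have h5 : 0 ≤ |c| / R := by positivity
  have hl : 0 < lg ε := by linarith
  rw [div_le_iff₀ hl]
  have h6 : |c| ≤ R * (|c| / R) := by
    rw [mul_div_cancel₀ _ hR.ne']
  have h7 : R * (|c| / R) ≤ R * lg ε := mul_le_mul_of_nonneg_left (by linarith) hR.le
  linarith [le_abs_self c]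

/-! ## admissibility of the earlier tests (LEAVES) -/

/-- the hypotheses on the classes and apertures of an earlier test -/
structure EarlyOK (E : PEnv) (r : ℝ) (T : PTest) (At : Atoms) (Cl : Classes At) (J : T.Ω → Classes.Lab τ)
    (cl : Classes.Lab τ → Finset At.𝔸) (ap : At.𝔸 → Geo) : Prop where
  ne : ∀ o, 0 < T.P.p o → (cl (J o)).Nonempty
  sub : ∀ o, 0 < T.P.p o → cl (J o) ⊆ Cl.clsAll (J o)
  ap : ∀ o, 0 < T.P.p o → ∀ A ∈ cl (J o), GeoOK (ap A) 1 E.ε r E.L (E.u r) (At.asite A)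

/-- integers within `c` of a real number -/
theorem ct_eo_int (x c : ℝ) : ∃ F : Finset ℤ, F.card ≤ ⌈2 * c⌉₊ + 1 ∧ ∀ k : ℤ, |(k : ℝ) - x| ≤ c → k ∈ F := by
  refine ⟨Finset.Icc ⌈x - c⌉ (⌈x - c⌉ + (⌈2 * c⌉₊ : ℤ)), ?_, fun k hk => ?_⟩
  · rw [Int.card_Icc]
    have : ⌈x - c⌉ + (⌈2 * c⌉₊ : ℤ) + 1 - ⌈x - c⌉ = ((⌈2 * c⌉₊ + 1 : ℕ) : ℤ) := by push_cast; ring
    rw [this, Int.toNat_natCast]
  · obtain ⟨a1, a2⟩ := abs_le.1 hk
    rw [Finset.mem_Icc]
    constructor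
    · exact Int.ceil_le.2 (by linarith)
    · have h1 : x - c ≤ (⌈x - c⌉ : ℝ) := Int.le_ceil _
      have h2 : 2 * c ≤ (⌈2 * c⌉₊ : ℝ) := Nat.le_ceil _
      have h3 : (k : ℝ) ≤ ((⌈x - c⌉ + (⌈2 * c⌉₊ : ℤ) : ℤ) : ℝ) := by
        push_cast
        linarith
      exact_mod_cast h3

/-- cells whose centre lies within `c w` of a point -/
theorem ct_eo_cells (w : ℝ) (hw : 0 < w) (y : E2) (c : ℝ) : ∃ F : Finset (ℤ × ℤ), F.card ≤ (⌈2 * c⌉₊ + 1) ^ 2 ∧
    ∀ k : ℤ × ℤ, ‖cellC w k - y‖ ≤ c * w → k ∈ F := by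
  obtain ⟨F0, hF0, h0⟩ := ct_eo_int (y 0 / w - 1 / 2) c
  obtain ⟨F1, hF1, h1⟩ := ct_eo_int (y 1 / w - 1 / 2) c
  refine ⟨F0 ×ˢ F1, ?_, fun k hk => ?_⟩
  · rw [Finset.card_product, sq]
    exact Nat.mul_le_mul hF0 hF1
  · have key : ∀ (a : ℤ) (b : ℝ), |w * ((a : ℝ) + 1 / 2) - b| ≤ c * w → |(a : ℝ) - (b / w - 1 / 2)| ≤ c := by
      intro a b hab
      have e : (a : ℝ) - (b / w - 1 / 2) = (w * ((a : ℝ) + 1 / 2) - b) / w := by
        field_simp
        ring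
      rw [e, abs_div, abs_of_pos hw, div_le_iff₀ hw]
      exact hab
    rw [Finset.mem_product]
    constructor
    · refine h0 _ (key _ _ ?_)
      have h2 := (pk_cnt_abs_le (cellC w k - y) 0).trans hk
      simpa [cellC] using h2
    · refine h1 _ (key _ _ ?_)
      have h2 := (pk_cnt_abs_le (cellC w k - y) 1).trans hk
      simpa [cellC] using h2

/-- the multiplicity of the atoms of ALL localizers with one time anchor -/
theorem ct_eo_count : ∃ C : ℕ, ∀ (E : PEnv) (B : PBd) (t r bs : ℝ) (p : Atoms.Par) (At : Atoms), 0 < E.ε → E.ε < 1 →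
    bs ≤ E.u r → At.Good E B t r bs p → ∀ A : At.𝔸,
    (Finset.univ.filter (fun A' => (At.loc A').1 = (At.loc A).1 ∧ ‖(At.asite A').V - (At.asite A).V‖ < E.rho r ∧
      ‖(At.asite A').X - (At.asite A).X‖ < E.sig r)).card
      ≤ C * p.Mu * ((⌈2 * (p.Ca + 1)⌉₊ + 1) ^ 2 * (⌈2 * (p.Ca + 1)⌉₊ + 1) ^ 2) := by
  obtain ⟨C, hC⟩ := pk_mult2_of_local
  refine ⟨C, fun E B t r bs p At hε hε1 hbs hG A => ?_⟩
  have hρ : 0 < E.rho r := Real.rpow_pos_of_pos hε _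
  have hσ : 0 < E.sig r := Real.rpow_pos_of_pos hε _
  have h1 : 0 < E.ε ^ r := Real.rpow_pos_of_pos hε r
  have h2 : 0 < E.ε ^ bs := Real.rpow_pos_of_pos hε bs
  have hρb : E.rho r ≤ E.ε ^ bs := Real.rpow_le_rpow_of_exponent_ge hε hε1.le hbs
  have hσb : E.sig r ≤ E.ε ^ r * E.ε ^ bs := by
    have e : E.sig r = E.ε ^ r * E.rho r := (pk_env_scales E hε r).2.2
    rw [e]
    exact mul_le_mul_of_nonneg_left hρb h1.le
  obtain ⟨FV, hFV, hV⟩ := ct_eo_cells (E.ε ^ bs) h2 (At.asite A).V (p.Ca + 1)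
  obtain ⟨FX, hFX, hX⟩ := ct_eo_cells (E.ε ^ r * E.ε ^ bs) (mul_pos h1 h2) (At.asite A).X (p.Ca + 1)
  refine (Finset.card_le_mul_card_image (f := At.loc) _ (C * p.Mu) ?_).trans (Nat.mul_le_mul_left _ ?_)
  · intro j _
    have hm := hC At.𝔸 (Finset.univ.filter fun A' => At.loc A' = j) (fun A' => (At.asite A').V)
      (fun A' => (At.asite A').X) (E.rho r) (E.sig r) p.Mu hρ hσ (fun i hi u hu hu' => by
        refine le_trans (Finset.card_le_card fun T' hT' => ?_) (hG.mult i)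
        refine Finset.mem_filter.2 ⟨Finset.mem_univ _, ?_, hu' T' hT'⟩
        rw [(Finset.mem_filter.1 (hu hT')).2, (Finset.mem_filter.1 hi).2])
    refine hm (At.asite A).V (At.asite A).X _ (fun A' hA' => ?_) (fun A' hA' => ?_)
    · exact Finset.mem_filter.2 ⟨Finset.mem_univ _, (Finset.mem_filter.1 hA').2⟩
    · have := (Finset.mem_filter.1 (Finset.mem_filter.1 hA').1).2
      exact ⟨this.2.1.le, this.2.2.le⟩
  · refine (Finset.card_le_card (t := {(At.loc A).1} ×ˢ (FV ×ˢ FX)) ?_).trans ?_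
    · intro j hj
      obtain ⟨A', hA', rfl⟩ := Finset.mem_image.1 hj
      obtain ⟨a1, a2, a3⟩ := (Finset.mem_filter.1 hA').2
      rw [Finset.mem_product, Finset.mem_product, Finset.mem_singleton]
      refine ⟨a1, hV _ ?_, hX _ ?_⟩
      · have n1 := hG.nearV A'
        calc ‖cellC (E.ε ^ bs) (At.loc A').2.1 - (At.asite A).V‖
            = ‖((At.asite A').V - (At.asite A).V) - ((At.asite A').V - (At.loc A').VJ E.ε bs)‖ := by
              rw [sub_sub_sub_cancel_left]; rfl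
          _ ≤ ‖(At.asite A').V - (At.asite A).V‖ + ‖(At.asite A').V - (At.loc A').VJ E.ε bs‖ := norm_sub_le _ _
          _ ≤ (p.Ca + 1) * E.ε ^ bs := by linarith
      · have n1 := hG.nearX A'
        calc ‖cellC (E.ε ^ r * E.ε ^ bs) (At.loc A').2.2 - (At.asite A).X‖
            = ‖((At.asite A').X - (At.asite A).X) - ((At.asite A').X - (At.loc A').XJ E.ε r bs)‖ := by
              rw [sub_sub_sub_cancel_left]; rfl
          _ ≤ ‖(At.asite A').X - (At.asite A).X‖ + ‖(At.asite A').X - (At.loc A').XJ E.ε r bs‖ := norm_sub_le _ _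
          _ ≤ (p.Ca + 1) * (E.ε ^ r * E.ε ^ bs) := by linarith
    · rw [Finset.card_product, Finset.card_product, Finset.card_singleton, one_mul]
      exact Nat.mul_le_mul hFV hFX

theorem ct_eo_amp {R : ℝ} {Bd : ℕ → ℝ} {ψ : E2 → ℂ} (h : AmpC R Bd ψ) :
    AmpC R Bd (fun z => (starRingEnd ℂ) (ψ z)) :=
  (pk_ampC_iff _ _ _).2 fun M => pk_amp_conj ((pk_ampC_iff _ _ _).1 h M)

/-- the support of the earlier law -/
theorem ct_eo_supp {E : PEnv} {T : PTest} {r bs : ℝ} {At : Atoms} {Cl : Classes At} {win : T.ι → ℕ × τ}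
    [Nonempty At.𝔸] {cl : Classes.Lab τ → Finset At.𝔸} {ap : At.𝔸 → Geo}
    (hO : EarlyOK E r T At Cl (ctJ E r bs T win) cl ap) (x : T.Ω × At.𝔸)
    (hx : 0 < (At.earlierX r T (ctJ E r bs T win) cl ap).P.p x) :
    0 < T.P.p x.1 ∧ x.2 ∈ cl (ctJ E r bs T win x.1) ∧ At.loc x.2 = loc0 E.ε r bs (T.site (T.O x.1)) := by
  have h := pc_mu_supp T.P (ctJ E r bs T win) cl (fun o ho => hO.ne o (ct_pos_of_ne _ ho)) x hx.ne'
  have h1 := ct_pos_of_ne _ h.1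
  exact ⟨h1, h.2, (Finset.mem_filter.1 (hO.sub x.1 h1 h.2)).2.1⟩

/-- geometry of the atoms of the localizer of an admissible site -/
theorem ct_eo_geom {E : PEnv} {B : PBd} {t r bs : ℝ} {p : Atoms.Par} {At : Atoms} (hε : 0 < E.ε) (hε1 : E.ε < 1)
    (hr : 0 ≤ r) (hbs : 0 ≤ bs) (hG : At.Good E B t r bs p) (s : Site) (h0 : 0 ≤ s.C) (h1 : s.C < 1) (Rv Rx : ℝ)
    (hV : ‖s.V‖ ≤ Rv) (hX : ‖s.X‖ ≤ Rx) (A : At.𝔸) (hA : At.loc A = loc0 E.ε r bs s) :
    0 ≤ (At.asite A).C ∧ (At.asite A).C < 1 ∧ ‖(At.asite A).V‖ ≤ Rv + 1 + |p.Ca| ∧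
      ‖(At.asite A).X‖ ≤ Rx + Rv + 1 + |p.Ca| := by
  obtain ⟨n1, n2, n3, n4, n5⟩ := pk_loc0_near hε r bs s
  have e1 : 0 < E.ε ^ r := Real.rpow_pos_of_pos hε r
  have e2 : 0 < E.ε ^ bs := Real.rpow_pos_of_pos hε bs
  have e3 : E.ε ^ r ≤ 1 := Real.rpow_le_one hε.le hε1.le hr
  have e4 : E.ε ^ bs ≤ 1 := Real.rpow_le_one hε.le hε1.le hbs
  have e5 : E.ε ^ r * E.ε ^ bs ≤ 1 := mul_le_one₀ e3 e2.le e4
  have hRv : 0 ≤ Rv := (norm_nonneg _).trans hV
  have hC := hG.time A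
  have hnV := hG.nearV A
  have hnX := hG.nearX A
  rw [hA] at hC hnV hnX
  have c1 : p.Ca * E.ε ^ bs ≤ |p.Ca| :=
    (mul_le_mul_of_nonneg_right (le_abs_self _) e2.le).trans (mul_le_of_le_one_right (abs_nonneg _) e4)
  have c2 : p.Ca * (E.ε ^ r * E.ε ^ bs) ≤ |p.Ca| :=
    (mul_le_mul_of_nonneg_right (le_abs_self _) (mul_pos e1 e2).le).trans (mul_le_of_le_one_right (abs_nonneg _) e5)
  refine ⟨by rw [hC]; exact n5 h0, by rw [hC]; linarith, ?_, ?_⟩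
  · calc ‖(At.asite A).V‖ = ‖((At.asite A).V - (loc0 E.ε r bs s).VJ E.ε bs) - (s.V - (loc0 E.ε r bs s).VJ E.ε bs) + s.V‖ := by
          congr 1; abel
      _ ≤ ‖(At.asite A).V - (loc0 E.ε r bs s).VJ E.ε bs‖ + ‖s.V - (loc0 E.ε r bs s).VJ E.ε bs‖ + ‖s.V‖ :=
          (norm_add_le _ _).trans (add_le_add_left (norm_sub_le _ _) _)
      _ ≤ Rv + 1 + |p.Ca| := by linarith
  · have h5 : ‖(s.C - (loc0 E.ε r bs s).Cr E.ε r) • s.V‖ ≤ Rv := by
      rw [norm_smul, Real.norm_of_nonneg (by linarith)]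
      calc (s.C - (loc0 E.ε r bs s).Cr E.ε r) * ‖s.V‖ ≤ 1 * Rv :=
            mul_le_mul (by linarith) hV (norm_nonneg _) zero_le_one
        _ = Rv := one_mul _
    calc ‖(At.asite A).X‖ = ‖((At.asite A).X - (loc0 E.ε r bs s).XJ E.ε r bs)
            - (s.X - (loc0 E.ε r bs s).XJ E.ε r bs - (s.C - (loc0 E.ε r bs s).Cr E.ε r) • s.V)
            + (s.X - (s.C - (loc0 E.ε r bs s).Cr E.ε r) • s.V)‖ := by
          congr 1; abel
      _ ≤ ‖(At.asite A).X - (loc0 E.ε r bs s).XJ E.ε r bs‖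
            + ‖s.X - (loc0 E.ε r bs s).XJ E.ε r bs - (s.C - (loc0 E.ε r bs s).Cr E.ε r) • s.V‖
            + (‖s.X‖ + ‖(s.C - (loc0 E.ε r bs s).Cr E.ε r) • s.V‖) :=
          (norm_add_le _ _).trans (add_le_add (norm_sub_le _ _) (norm_sub_le _ _))
      _ ≤ Rx + Rv + 1 + |p.Ca| := by linarith

/-- equal time anchors have equal indices -/
theorem ct_eo_idx {ε r : ℝ} (hε : 0 < ε) (j j' : Loc0) (h : |j.Cr ε r - j'.Cr ε r| < ε ^ r) : j.1 = j'.1 := by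
  have e1 : 0 < ε ^ r := Real.rpow_pos_of_pos hε r
  have e : j.Cr ε r - j'.Cr ε r = ε ^ r * (((j.1 - j'.1 : ℤ)) : ℝ) := by
    unfold Loc0.Cr
    push_cast
    ring
  rw [e, abs_mul, abs_of_pos e1] at h
  have h2 : |(((j.1 - j'.1 : ℤ)) : ℝ)| < 1 := by
    by_contra hc
    push Not at hc
    nlinarith
  have h3 : |j.1 - j'.1| < 1 := by exact_mod_cast h2
  have := Int.abs_lt_one_iff.1 h3
  omega

/-- T-EARLIER, admissibility for `r ≥ rmin > 0`.   Active atoms `A` lie in a class `cl (J o)`, `J o` = localizer of an ACTUAL endpoint site: `0 ≤ C_r < 1`, `‖V_A‖ ≤ Rv + 1 + Ca`,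
`‖X_A‖ ≤ Rx + Rv + 1 + Ca`;  `multT` : the anchors are `ε^r k`, so at most one within `< ε^r`;  `multS` : atoms within `(ρ_r, σ_r)` of `A` lie in `≤ (4 Ca + 3)^4` localizers
(`ρ_r ≤ ε^bs`, `σ_r ≤ ε^r ε^bs`), in each of them `≤ 256 Mu` (cover by 16 × 16 sets of diameter `< ρ_r`, `< σ_r`, then `Atoms.Good.mult`);  `mpos` : `floor`;  amplitudes: conjugates of `AmpC`. -/
theorem ct_earlier_obeys (B : PBd) (hB : B.Good) (p : Atoms.Par) (rmin : ℝ) (hr : 0 < rmin) :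
    ∃ Bat : PBd, Bat.Good ∧ Bat.M = B.M ∧ ∀ (γ : ℝ) (E : PEnv) (T : PTest) (r bs ξ : ℝ) (S0 : ℕ) (A0 : ℝ) (At : Atoms)
      (Cl : Classes At) (τ : Type) (tag : At.𝔸 → τ) (win : T.ι → ℕ × τ) (_ : Nonempty At.𝔸)
      (cl : Classes.Lab τ → Finset At.𝔸) (ap : At.𝔸 → Geo),
      CutOK γ E B T r bs p ξ S0 A0 At Cl tag win → rmin ≤ r → EarlyOK E r T At Cl (ctJ E r bs T win) cl ap →
        E.Obeys Bat ∧ (At.earlierX r T (ctJ E r bs T win) cl ap).Obeys Bat E := by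
  obtain ⟨C, hC⟩ := ct_eo_count
  refine ⟨{ K := { a0 := B.K.a0, a1 := B.K.a1, A := B.K.A, Bb := p.Bb, Rv := B.K.Rv + 1 + |p.Ca|,
                   Rx := B.K.Rx + B.K.Rv + 1 + |p.Ca| }
            Ra := p.Ra
            Mu := C * p.Mu * ((⌈2 * (p.Ca + 1)⌉₊ + 1) ^ 2 * (⌈2 * (p.Ca + 1)⌉₊ + 1) ^ 2) + 1
            Ke := 1
            Hmax := B.Hmax
            Lmax := B.Lmax
            tmin := rmin
            M := B.M }, ⟨hB.a0, hr, hB.M⟩, rfl, ?_⟩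
  intro γ E T r bs ξ S0 A0 At Cl τ tag win hne cl ap H hrr hO
  have hε := H.obE.ε0
  have hε1 := H.obE.ε1
  have hbr : bs ≤ E.u r := by
    obtain ⟨o, ho⟩ := ent_exists_supp T.P
    have hg := H.obT.geo o (ct_pos_of_ne _ ho)
    have hb := H.bsb o (ct_pos_of_ne _ ho)
    have h1 : bs ≤ E.u T.t := by linarith [hg.2.1, hg.2.2.2.1]
    have h2 := H.rt
    unfold PEnv.u at h1 ⊢
    linarith
  have hact : ∀ A, (At.earlierX r T (ctJ E r bs T win) cl ap).act A →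
      ∃ o, 0 < T.P.p o ∧ At.loc A = loc0 E.ε r bs (T.site (T.O o)) := by
    rintro A ⟨x, hx, rfl⟩
    have := ct_eo_supp hO x hx
    exact ⟨x.1, this.1, this.2.2⟩
  have hgeom : ∀ A, (At.earlierX r T (ctJ E r bs T win) cl ap).act A →
      0 ≤ (At.asite A).C ∧ (At.asite A).C < 1 ∧ ‖(At.asite A).V‖ ≤ B.K.Rv + 1 + |p.Ca| ∧
        ‖(At.asite A).X‖ ≤ B.K.Rx + B.K.Rv + 1 + |p.Ca| := by
    intro A hA
    obtain ⟨o, ho, hl⟩ := hact A hA
    have ha : T.act (T.O o) := ⟨o, ho, rfl⟩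
    exact ct_eo_geom hε hε1 H.r0 H.bs0 H.goodA _ (H.obT.time _ ha).1 (H.obT.time _ ha).2 _ _ (H.obT.vel _ ha)
      (H.obT.pos _ ha) A hl
  constructor
  · exact ⟨hε, hε1, H.obE.H0, H.obE.H1, H.obE.L1,
      ⟨H.obE.phase.smooth, H.obE.phase.grad, H.obE.phase.symm, H.obE.phase.definite, H.obE.phase.bound⟩, H.obE.mem,
      fun v hv => (H.obE.supp v hv).trans (by
        show B.K.Rv ≤ B.K.Rv + 1 + |p.Ca|
        linarith [abs_nonneg p.Ca])⟩
  · refine ⟨hrr, fun A _ => ct_eo_amp (H.goodA.amp A), fun A hA => ⟨(hgeom A hA).1, (hgeom A hA).2.1⟩,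
      fun A hA => (hgeom A hA).2.2.1, fun A hA => (hgeom A hA).2.2.2, ?_, ?_, ?_, ?_⟩
    · intro A _
      refine le_trans (Finset.card_le_one.2 ?_) (Nat.le_add_left 1 _)
      have key : ∀ a ∈ (((Finset.univ.filter (At.earlierX r T (ctJ E r bs T win) cl ap).act).image
          (fun j => ((At.earlierX r T (ctJ E r bs T win) cl ap).site j).C)).filter
          (fun c => |c - ((At.earlierX r T (ctJ E r bs T win) cl ap).site A).C| < E.ε ^ r)),
          a = (At.asite A).C := by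
        intro a ha
        obtain ⟨ha1, ha2⟩ := Finset.mem_filter.1 ha
        obtain ⟨j, _, rfl⟩ := Finset.mem_image.1 ha1
        have h3 : |(At.asite j).C - (At.asite A).C| < E.ε ^ r := ha2
        show (At.asite j).C = (At.asite A).C
        rw [H.goodA.time j, H.goodA.time A] at h3 ⊢
        unfold Loc0.Cr
        rw [ct_eo_idx hε _ _ h3]
      intro a ha b hb
      rw [key a ha, key b hb]
    · intro A _
      refine le_trans (Finset.card_le_card fun A' hA' => ?_) ((hC E B T.t r bs p At hε hε1 hbr H.goodA A).trans (Nat.le_add_right _ 1))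
      obtain ⟨_, a2, a3, a4⟩ := (Finset.mem_filter.1 hA').2
      refine Finset.mem_filter.2 ⟨Finset.mem_univ _, ?_, a3, a4⟩
      have h3 : (At.asite A').C = (At.asite A).C := a2
      rw [H.goodA.time A', H.goodA.time A] at h3
      exact ct_eo_idx hε _ _ (by rw [h3, sub_self, abs_zero]; exact Real.rpow_pos_of_pos hε r)
    · intro x _
      show 0 < E.m r (At.asite x.2).conj
      rw [ct_m_coef]
      exact (mul_pos (Real.rpow_pos_of_pos hε _) H.nrm).trans_le (H.goodA.floor x.2)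
    · intro x hx
      have := ct_eo_supp hO x hx
      exact hO.ap x.1 this.1 x.2 this.2.1

/-- T-EARLIER, admissibility for `r = 0` : a generalised root test (`Pk9/RootNorm.lean`) -/
theorem ct_earlier_rootG (B : PBd) (hB : B.Good) (p : Atoms.Par) (hRa : p.Ra ≤ 100) :
    ∃ Mu : ℕ, ∀ (γ : ℝ) (E : PEnv) (T : PTest) (bs ξ : ℝ) (S0 : ℕ) (A0 : ℝ) (At : Atoms)
      (Cl : Classes At) (τ : Type) (tag : At.𝔸 → τ) (win : T.ι → ℕ × τ) (_ : Nonempty At.𝔸)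
      (cl : Classes.Lab τ → Finset At.𝔸) (ap : At.𝔸 → Geo),
      CutOK γ E B T 0 bs p ξ S0 A0 At Cl tag win → EarlyOK E 0 T At Cl (ctJ E 0 bs T win) cl ap →
        (At.earlierX 0 T (ctJ E 0 bs T win) cl ap).IsRootG p.Bb Mu 1 E := by
  obtain ⟨C, hC⟩ := ct_eo_count
  refine ⟨C * p.Mu * ((⌈2 * (p.Ca + 1)⌉₊ + 1) ^ 2 * (⌈2 * (p.Ca + 1)⌉₊ + 1) ^ 2), ?_⟩
  intro γ E T bs ξ S0 A0 At Cl τ tag win hne cl ap H hO
  have hε := H.obE.ε0
  have hε1 := H.obE.ε1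
  have hbr : bs ≤ E.u 0 := by
    obtain ⟨o, ho⟩ := ent_exists_supp T.P
    have hg := H.obT.geo o (ct_pos_of_ne _ ho)
    have hb := H.bsb o (ct_pos_of_ne _ ho)
    have h1 : bs ≤ E.u T.t := by linarith [hg.2.1, hg.2.2.2.1]
    have h2 := H.rt
    unfold PEnv.u at h1 ⊢
    linarith
  have hidx : ∀ A, (At.earlierX 0 T (ctJ E 0 bs T win) cl ap).act A → (At.loc A).1 = 0 := by
    rintro A ⟨x, hx, rfl⟩
    have h := ct_eo_supp hO x hx
    have ha : T.act (T.O x.1) := ⟨x.1, h.1, rfl⟩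
    show (At.loc x.2).1 = 0
    rw [h.2.2]
    show ⌊(T.site (T.O x.1)).C / E.ε ^ (0 : ℝ)⌋ = 0
    rw [Real.rpow_zero, div_one, Int.floor_eq_zero_iff]
    exact ⟨(H.obT.time _ ha).1, (H.obT.time _ ha).2⟩
  refine ⟨rfl, fun A _ => ?_, fun A hA => ?_, ?_, ?_, ?_⟩
  · have h := ct_eo_amp (H.goodA.amp A)
    exact ⟨h.smooth, fun z hz => (h.supp z hz).trans hRa, h.bound⟩
  · show (At.asite A).C = 0
    rw [H.goodA.time A]
    unfold Loc0.Cr
    rw [hidx A hA]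
    simp
  · intro A hA
    refine le_trans (Finset.card_le_card fun A' hA' => ?_) (hC E B T.t 0 bs p At hε hε1 hbr H.goodA A)
    obtain ⟨a1, a3, a4⟩ := (Finset.mem_filter.1 hA').2
    refine Finset.mem_filter.2 ⟨Finset.mem_univ _, ?_, a3, ?_⟩
    · rw [hidx A' a1, hidx A hA]
    · have e : E.sig 0 = E.rho 0 := by
        unfold PEnv.sig PEnv.rho
        rw [add_zero]
      rw [e]
      exact a4
  · intro x _
    show 0 < E.m 0 (At.asite x.2).conj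
    rw [ct_m_coef]
    exact (mul_pos (Real.rpow_pos_of_pos hε _) H.nrm).trans_le (H.goodA.floor x.2)
  · intro x hx
    have := ct_eo_supp hO x hx
    exact hO.ap x.1 this.1 x.2 this.2.1

/-- a winner map exists (`Finset.exists_max_image` over `range S0 ×ˢ univ`; for `k ≥ S0` the class is empty, `ct_hJ_zero`-type argument: the pairing vanishes) -/
theorem ct_win_exists [Fintype τ] [Nonempty τ] {γ : ℝ} (E : PEnv) (t r bs ξ : ℝ) (S0 : ℕ) {At : Atoms} (Cl : Classes At)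
    (hC : Cl.Good γ E r bs ξ S0) (tag : At.𝔸 → τ) {ι : Type} (site : ι → Site) :
    ∃ win : ι → ℕ × τ, Cl.IsWin E t r bs tag site win := by
  have key : ∀ i : ι, ∃ x : ℕ × τ, ∀ (k : ℕ) (a : τ),
      ‖pairing E.lam (E.rho t) E.Φ (Cl.hJ E r tag (loc0 E.ε r bs (site i), k, a)) (site i)‖
        ≤ ‖pairing E.lam (E.rho t) E.Φ (Cl.hJ E r tag (loc0 E.ε r bs (site i), x.1, x.2)) (site i)‖ := by
    intro i
    have hne : (Finset.range (S0 + 1) ×ˢ (Finset.univ : Finset τ)).Nonempty :=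
      ⟨(0, Classical.arbitrary τ), Finset.mem_product.2 ⟨Finset.mem_range.2 (Nat.succ_pos _), Finset.mem_univ _⟩⟩
    obtain ⟨x, -, hx⟩ := Finset.exists_max_image (Finset.range (S0 + 1) ×ˢ (Finset.univ : Finset τ))
      (fun x => ‖pairing E.lam (E.rho t) E.Φ (Cl.hJ E r tag (loc0 E.ε r bs (site i), x.1, x.2)) (site i)‖) hne
    refine ⟨x, fun k a => ?_⟩
    by_cases hk : k < S0 + 1
    · exact hx (k, a) (Finset.mem_product.2 ⟨Finset.mem_range.2 hk, Finset.mem_univ _⟩)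
    · have hN : Cl.N tag (loc0 E.ε r bs (site i), k, a) = 0 := by
        unfold Classes.N
        rw [Finset.card_eq_zero, Finset.filter_eq_empty_iff]
        intro A _ hA
        have h1 : Cl.cls A = k := congrArg (fun y => y.2.1) hA
        have h2 := hC.ncls A
        omega
      rw [ct_hJ_eq_zero E r Cl tag _ hN, ct_pairing_zero, norm_zero]
      exact norm_nonneg _
  choose win hwin using key
  exact ⟨win, fun i k a => hwin i k a⟩

/-- the time anchor of the localizer of an admissible site -/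
theorem ct_Cr_bounds (ε r bs : ℝ) (hε : 0 < ε) (s : Site) (h0 : 0 ≤ s.C) (h1 : s.C < 1) :
    0 ≤ (loc0 ε r bs s).1 ∧ (loc0 ε r bs s).Cr ε r < 1 := by
  have hr : 0 < ε ^ r := Real.rpow_pos_of_pos hε r
  refine ⟨Int.floor_nonneg.2 (div_nonneg h0 hr.le), ?_⟩
  have h2 : (⌊s.C / ε ^ r⌋ : ℝ) ≤ s.C / ε ^ r := Int.floor_le _
  rw [le_div_iff₀ hr] at h2
  show ε ^ r * (⌊s.C / ε ^ r⌋ : ℝ) < 1
  linarith

theorem ct_exists_supp {Ω : Type} [Fintype Ω] (P : FLaw Ω) : ∃ o, 0 < P.p o := by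
  obtain ⟨o, ho⟩ := ent_exists_supp P
  exact ⟨o, ct_pos_of_ne P ho⟩

/-- `atoms_exist` of `Pkt/Cut.lean` with the additional information `Ra ≤ 100` (needed at `r = 0`).   OWNER: helper91 (to be merged into `atoms_exist`). -/
theorem ct_atoms_exist (B : PBd) (hB : B.Good) (dmin : ℝ) (hd : 0 < dmin) :
    ∃ (Ra : ℝ) (Bb : ℕ → ℝ) (Mu : ℕ) (Ca : ℝ), Ra ≤ 100 ∧ ∀ A : ℝ, 0 < A → ∃ (Bx ε₀ : ℝ), 0 < ε₀ ∧
      ∀ E : PEnv, E.Obeys B → E.ε < ε₀ → 0 < E.nrm2 → ∀ t r bs : ℝ, 0 ≤ r → r + dmin ≤ t → 0 ≤ bs → bs ≤ E.u t →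
        ∃ At : Atoms, At.Good E B t r bs ⟨Ra, Bb, Mu, Ca, A, Bx⟩ := by
  obtain ⟨Ra, Bb, Mu, Ca, hRa, -, H⟩ := atoms_exist B hB dmin hd
  exact ⟨Ra, Bb, Mu, Ca, hRa, H⟩

/-- the constants of a cut, chosen in the order of Sec. 10.1 -/
structure CutPar where
  p : Atoms.Par
  ξ : ℝ
  S0 : ℕ
  Mloc : ℕ
  Bat : PBd

/-- the shape constraints of `b_*` follow from `CutOK` -/
theorem ct_bs_le {γ : ℝ} {E : PEnv} {B : PBd} {T : PTest} {r bs : ℝ} {p : Atoms.Par} {ξ : ℝ} {S0 : ℕ} {A0 : ℝ}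
    {At : Atoms} {Cl : Classes At} {tag : At.𝔸 → τ} {win : T.ι → ℕ × τ}
    (H : CutOK γ E B T r bs p ξ S0 A0 At Cl tag win) : bs ≤ E.u T.t ∧ bs ≤ E.L - T.t := by
  obtain ⟨o, ho⟩ := ct_exists_supp T.P
  have hg := H.obT.geo o ho
  have hb := H.bsb o ho
  exact ⟨by linarith [hg.2.1, hg.2.2.2.1], by linarith [hg.2.1, hg.2.2.1]⟩

/-- the assigned caps are admissible apertures of the earlier tests -/
theorem ct_early_acap {γ : ℝ} {E : PEnv} {B : PBd} {T : PTest} {r bs : ℝ} {p : Atoms.Par} {ξ : ℝ} {S0 : ℕ} {A0 : ℝ}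
    {At : Atoms} {Cl : Classes At} {tag : At.𝔸 → τ} {win : T.ι → ℕ × τ} {S : ℝ}
    (H : CutOK γ E B T r bs p ξ S0 A0 At Cl tag win) (hW : WinOK E r bs T Cl tag win S) :
    EarlyOK E r T At Cl (ctJ E r bs T win) Cl.clsAll Cl.acap ∧
    EarlyOK E r T At Cl (ctJ E r bs T win) (Cl.clsOf tag) Cl.acap :=
  ⟨⟨fun o ho => (ct_cls_nonempty H hW o ho.ne').mono (ct_cls_sub Cl tag _), fun _ _ => Finset.Subset.refl _,
      fun _ _ A _ => H.goodC.capOK A⟩,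
    ⟨fun o ho => ct_cls_nonempty H hW o ho.ne', fun _ _ => ct_cls_sub Cl tag _, fun _ _ A _ => H.goodC.capOK A⟩⟩

/-- assembling `CompHyp` -/
theorem ct_comp_of {γ : ℝ} {E : PEnv} {B : PBd} {T : PTest} {r bs : ℝ} {p : Atoms.Par} {ξ : ℝ} {S0 : ℕ} {A0 : ℝ}
    {At : Atoms} {Cl : Classes At} {tag : At.𝔸 → τ} {win : T.ι → ℕ × τ} {S S₁ : ℝ}
    (H : CutOK γ E B T r bs p ξ S0 A0 At Cl tag win) (hW : WinOK E r bs T Cl tag win S) (hS : 0 < S)
    (hL : T.P.NVal (fun _ => True) (ctJ E r bs T win) T.D S₁) (Mloc : ℕ) (β R : ℝ)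
    (hsplit : Real.log S₁ / (2 * lg E.ε) + 3 / 2 * (Real.log (4 * S ^ 2) / lg E.ε) ≤ R)
    (hroot : ∀ o, 0 < T.P.p o → K0 γ Mloc (Cl.envJ E r bs tag (ctJ E r bs T win o))
      ≤ Cl.AJ E tag (ctJ E r bs T win o) + R)
    (hwhole : pcKstar (lg E.ε) T.P (ctJ E r bs T win) bs (Cl.LA E) (Cl.Lm E) Cl.gJ ≤ K0 γ B.M E + β * r + 2 * R)
    (hloc : ∀ o, 0 < T.P.p o →
      score γ (Cl.envJ E r bs tag (ctJ E r bs T win o)) (ctTestJ E r bs T win (ctJ E r bs T win o))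
        ≤ K0 γ Mloc (Cl.envJ E r bs tag (ctJ E r bs T win o)) + β * (T.t - r) + R) :
    CompHyp (lg E.ε) T.P T.O T.D (ctJ E r bs T win) (ctLm E T) (Cl.LmW E r bs tag T win) (ctW γ T) bs
      (Cl.LA E) (Cl.LN E tag) (Cl.Lm E) Cl.gJ (fun j => K0 γ Mloc (Cl.envJ E r bs tag j)) (K0 γ B.M E) β r T.t R := by
  have hl := p9_lg_pos H.obE.ε0 H.obE.ε1
  refine ⟨?_, ?_, ?_, hwhole, ?_⟩
  · have := ct_split H hW hS hL
    rw [ct_score_eq] at this
    linarith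
  · intro o ho
    have hN := ct_N_pos H hW o (ct_pos_of_ne _ ho)
    unfold Classes.LN Classes.LA pcLN
    apply div_le_div_of_nonneg_right _ hl.le
    apply Real.log_le_log
    · exact_mod_cast hN
    · exact_mod_cast Finset.card_le_card (ct_cls_sub Cl tag _)
  · intro o ho
    rw [← ct_AJ_eq]
    exact hroot o (ct_pos_of_ne _ ho)
  · intro o ho
    rw [← ct_PJ_eq γ E H.obE.ε0 r bs T Cl tag win o ho]
    exact hloc o (ct_pos_of_ne _ ho)

/-- **Proposition 10.1**, final form, with the additional information `c.p.Ra ≤ 100` (needed for the generalised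
root tests at `r = 0`) and `A0 / 2 < c.p.A` (the atoms' decay exponent beats the winner exponent) -/
theorem cut_main' (γ β : ℝ) (h0 : 0 < γ) (h1 : γ < 1) (hrate : PRate γ β) (B : PBd) (hB : B.Good)
    (dmin rmin R A0 : ℝ) (hd : 0 < dmin) (hr : 0 < rmin) (hR : 0 < R) (Smax : ℕ) :
    ∃ (c : CutPar) (ε₀ : ℝ), 0 < ε₀ ∧ 0 < c.ξ ∧ c.ξ ≤ R ∧ 10 ≤ c.Mloc ∧ c.Bat.Good ∧ c.Bat.M = B.M ∧
      (∀ E : PEnv, E.Obeys B → E.ε < ε₀ → 0 < E.nrm2 → ∀ t r bs : ℝ, 0 ≤ r → r + dmin ≤ t → 0 ≤ bs → bs ≤ E.u t →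
        bs ≤ E.L - t → ∃ (At : Atoms) (Cl : Classes At), At.Good E B t r bs c.p ∧ Cl.Good γ E r bs c.ξ c.S0) ∧
      (∀ (E : PEnv) (T : PTest) (r bs : ℝ) (At : Atoms) (Cl : Classes At) (τ : Type) [Fintype τ] (tag : At.𝔸 → τ)
        (win : T.ι → ℕ × τ), E.ε < ε₀ → Fintype.card τ ≤ Smax →
        CutOK γ E B T r bs c.p c.ξ c.S0 A0 At Cl tag win → r + dmin ≤ T.t → (r = 0 ∨ rmin ≤ r) →
        WinOK E r bs T Cl tag win ((c.S0 : ℝ) * (Fintype.card τ : ℝ)) ∧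
        CompHyp (lg E.ε) T.P T.O T.D (ctJ E r bs T win) (ctLm E T) (Cl.LmW E r bs tag T win) (ctW γ T) bs
          (Cl.LA E) (Cl.LN E tag) (Cl.Lm E) Cl.gJ (fun j => K0 γ c.Mloc (Cl.envJ E r bs tag j)) (K0 γ B.M E)
          β r T.t R) ∧
      (∀ (E : PEnv) (T : PTest) (r bs : ℝ) (At : Atoms) (Cl : Classes At) (τ : Type) (tag : At.𝔸 → τ)
        (win : T.ι → ℕ × τ) (_ : Nonempty At.𝔸) (cl : Classes.Lab τ → Finset At.𝔸) (ap : At.𝔸 → Geo),
        CutOK γ E B T r bs c.p c.ξ c.S0 A0 At Cl tag win → rmin ≤ r → EarlyOK E r T At Cl (ctJ E r bs T win) cl ap →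
        E.Obeys c.Bat ∧ (At.earlierX r T (ctJ E r bs T win) cl ap).Obeys c.Bat E) ∧
      c.p.Ra ≤ 100 ∧ A0 / 2 < c.p.A := by
  obtain ⟨Ra, Bb, Mu, Ca, hRa, HA⟩ := ct_atoms_exist B hB dmin hd
  have hApos : 0 < |A0| / 2 + 1 := by positivity
  obtain ⟨Bx, εA, hεA, HA'⟩ := HA (|A0| / 2 + 1) hApos
  set p : Atoms.Par := ⟨Ra, Bb, Mu, Ca, |A0| / 2 + 1, Bx⟩ with hp
  have hξ : 0 < R / 4 := by positivity
  obtain ⟨S0, εC, hεC, HC⟩ := classes_exist γ h0 h1 B hB p (R / 4) hξ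
  obtain ⟨Mloc, εR, hM, hεR, HR⟩ := ct_root γ h0 h1 B hB p R hR
  obtain ⟨εW, hεW, HW⟩ := ct_winner B p A0 (by show A0 / 2 < |A0| / 2 + 1; linarith [le_abs_self A0])
  obtain ⟨C1, hC1, HL⟩ := ct_list B.Ke
  obtain ⟨Bat, hBat, hBatM, HE⟩ := ct_earlier_obeys B hB p rmin hr
  obtain ⟨MuG, HG⟩ := ct_earlier_rootG B hB p hRa
  obtain ⟨CG, hCG, HN⟩ := p9_root_norm γ B.M p.Bb MuG 1 zero_le_one
  obtain ⟨εL, hεL, -, HPL⟩ := hrate (ctBloc B p dmin Mloc) (ct_bloc_good B hB p dmin hd Mloc hM) R hR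
  obtain ⟨εE, hεE, -, HPE⟩ := hrate Bat hBat (R / 2) (by positivity)
  set Sx : ℝ := (S0 : ℝ) * (Smax : ℝ) with hSx
  obtain ⟨ε1, hε1, H1⟩ := ct_small (Real.log (C1 * Sx) / 2 + 3 / 2 * Real.log (4 * Sx ^ 2)) R hR
  obtain ⟨ε2, hε2, H2⟩ := ct_small (3 / 2 * Real.log (Smax : ℝ)) (R / 2) (by positivity)
  obtain ⟨ε3, hε3, H3⟩ := ct_small CG (R / 2) (by positivity)
  set ε₀ : ℝ := min (min (min εA εC) (min εR εW)) (min (min εL εE) (min ε1 (min ε2 ε3))) with hε₀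
  have hε₀pos : 0 < ε₀ := by
    simp only [hε₀, lt_min_iff]
    exact ⟨⟨⟨hεA, hεC⟩, hεR, hεW⟩, ⟨hεL, hεE⟩, hε1, hε2, hε3⟩
  have lA : ε₀ ≤ εA := (min_le_left _ _).trans ((min_le_left _ _).trans (min_le_left _ _))
  have lC : ε₀ ≤ εC := (min_le_left _ _).trans ((min_le_left _ _).trans (min_le_right _ _))
  have lR : ε₀ ≤ εR := (min_le_left _ _).trans ((min_le_right _ _).trans (min_le_left _ _))
  have lW : ε₀ ≤ εW := (min_le_left _ _).trans ((min_le_right _ _).trans (min_le_right _ _))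
  have lL : ε₀ ≤ εL := (min_le_right _ _).trans ((min_le_left _ _).trans (min_le_left _ _))
  have lE : ε₀ ≤ εE := (min_le_right _ _).trans ((min_le_left _ _).trans (min_le_right _ _))
  have l1 : ε₀ ≤ ε1 := (min_le_right _ _).trans ((min_le_right _ _).trans (min_le_left _ _))
  have l2 : ε₀ ≤ ε2 :=
    (min_le_right _ _).trans ((min_le_right _ _).trans ((min_le_right _ _).trans (min_le_left _ _)))
  have l3 : ε₀ ≤ ε3 :=
    (min_le_right _ _).trans ((min_le_right _ _).trans ((min_le_right _ _).trans (min_le_right _ _)))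
  refine ⟨⟨p, R / 4, S0, Mloc, Bat⟩, ε₀, hε₀pos, hξ, by show R / 4 ≤ R; linarith, hM, hBat, hBatM, ?_, ?_, ?_, hRa,
    by show A0 / 2 < |A0| / 2 + 1; linarith [le_abs_self A0]⟩
  · intro E hE he hn t r bs hr0 hrt hbs hbu hbL
    obtain ⟨At, hAt⟩ := HA' E hE (lt_of_lt_of_le he lA) hn t r bs hr0 hrt hbs hbu
    obtain ⟨Cl, hCl⟩ := HC E hE (lt_of_lt_of_le he lC) hn t r bs hr0 (by linarith) hbs hbu hbL At hAt
    exact ⟨At, Cl, hAt, hCl⟩
  · intro E T r bs At Cl τ _ tag win he hcard H hrt hr'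
    have hl := p9_lg_pos H.obE.ε0 H.obE.ε1
    have hW : WinOK E r bs T Cl tag win ((S0 : ℝ) * (Fintype.card τ : ℝ)) :=
      HW γ E T r bs (R / 4) S0 At Cl τ tag win (lt_of_lt_of_le he lW) H
    refine ⟨hW, ?_⟩
    obtain ⟨o₀, ho₀⟩ := ct_exists_supp T.P
    have hS0 : 0 < S0 := lt_of_le_of_lt (Nat.zero_le _) (ct_win_lt H hW o₀ ho₀)
    have : Nonempty τ := ⟨(win (T.O o₀)).2⟩
    have hcτ : 0 < Fintype.card τ := Fintype.card_pos
    have hS : 0 < (S0 : ℝ) * (Fintype.card τ : ℝ) := by positivity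
    have hSle : (S0 : ℝ) * (Fintype.card τ : ℝ) ≤ Sx :=
      mul_le_mul_of_nonneg_left (by exact_mod_cast hcard) (by positivity)
    have : Nonempty At.𝔸 := ⟨(ct_cls_nonempty H hW o₀ ho₀.ne').choose⟩
    have hL := ct_list_J E T r bs C1 S0 win
      (HL E B T r bs rfl H.obE H.obT H.r0 H.rt H.bs0 H.bsb) (fun o ho => ct_win_lt H hW o ho)
    obtain ⟨hbu, hbL⟩ := ct_bs_le H
    refine ct_comp_of H hW hS hL Mloc β R ?_ ?_ ?_ ?_
    · -- the split error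
      have e1 : Real.log (C1 * ((S0 : ℝ) * (Fintype.card τ : ℝ))) ≤ Real.log (C1 * Sx) :=
        Real.log_le_log (by positivity) (mul_le_mul_of_nonneg_left hSle (by linarith))
      have e2 : Real.log (4 * ((S0 : ℝ) * (Fintype.card τ : ℝ)) ^ 2) ≤ Real.log (4 * Sx ^ 2) :=
        Real.log_le_log (by positivity) (by gcongr)
      have e3 := H1 E.ε H.obE.ε0 (lt_of_lt_of_le he l1)
      have e4 : Real.log (C1 * ((S0 : ℝ) * (Fintype.card τ : ℝ))) / (2 * lg E.ε)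
          + 3 / 2 * (Real.log (4 * ((S0 : ℝ) * (Fintype.card τ : ℝ)) ^ 2) / lg E.ε)
          = (Real.log (C1 * ((S0 : ℝ) * (Fintype.card τ : ℝ))) / 2
            + 3 / 2 * Real.log (4 * ((S0 : ℝ) * (Fintype.card τ : ℝ)) ^ 2)) / lg E.ε := by
        field_simp
      rw [e4]
      refine le_trans (div_le_div_of_nonneg_right ?_ hl.le) e3
      linarith
    · -- the local root comparison
      intro o ho
      have hact : T.act (T.O o) := ⟨o, ho, rfl⟩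
      have htime := H.obT.time _ hact
      obtain ⟨c1, c2⟩ := ct_Cr_bounds E.ε r bs H.obE.ε0 (T.site (T.O o)) htime.1 htime.2
      exact HR E T.t r bs (R / 4) S0 At Cl τ tag H.obE (lt_of_lt_of_le he lR) H.nrm H.r0 H.rt H.bs0 hbu hbL hξ
        le_rfl H.goodA H.goodC _ (ct_N_pos H hW o ho) c1 c2
    · -- the whole-class test
      have hws := ct_whole_score H hW
      have e2 := H2 E.ε H.obE.ε0 (lt_of_lt_of_le he l2)
      have e5 : 3 / 2 * (Real.log (Fintype.card τ : ℝ) / lg E.ε) ≤ R / 2 := by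
        refine le_trans ?_ e2
        rw [← mul_div_assoc]
        apply div_le_div_of_nonneg_right _ hl.le
        have : Real.log (Fintype.card τ : ℝ) ≤ Real.log (Smax : ℝ) :=
          Real.log_le_log (by exact_mod_cast hcτ) (by exact_mod_cast hcard)
        linarith
      have hEO := (ct_early_acap H hW).1
      rcases hr' with rfl | hr'
      · have hG := HG γ E T bs (R / 4) S0 A0 At Cl τ tag win inferInstance Cl.clsAll Cl.acap H hEO
        have hN := HN E _ H.obE.ε0 H.obE.ε1 (ct_K0_bdd γ h0 h1 B hB B.M (by linarith [hB.M]) E H.obE) hG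
        have e3 := H3 E.ε H.obE.ε0 (lt_of_lt_of_le he l3)
        linarith
      · obtain ⟨hEB, hTB⟩ := HE γ E T r bs (R / 4) S0 A0 At Cl τ tag win inferInstance Cl.clsAll Cl.acap H hr' hEO
        have hP := HPE E _ (lt_of_lt_of_le he lE) hEB hTB
        rw [hBatM] at hP
        have ht : (At.earlierX r T (ctJ E r bs T win) Cl.clsAll Cl.acap).t = r := rfl
        rw [ht] at hP
        linarith
    · -- growth after the cut
      intro o ho
      have hP := HPL _ _ (by rw [ct_envJ_eps]; exact lt_of_lt_of_le he lL) (ct_loc_env H dmin hd hrt Mloc o ho)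
        (ct_loc_test H hW dmin hrt Mloc o ho)
      rw [ct_testJ_t] at hP
      exact hP
  · intro E T r bs At Cl τ tag win hne cl ap H hr' hEO
    exact HE γ E T r bs (R / 4) S0 A0 At Cl τ tag win hne cl ap H hr' hEO

/-- **Proposition 10.1**, final form, with the additional information `c.p.Ra ≤ 100` (needed for the generalised root tests at `r = 0`) -/
theorem cut_main_x (γ β : ℝ) (h0 : 0 < γ) (h1 : γ < 1) (hrate : PRate γ β) (B : PBd) (hB : B.Good)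
    (dmin rmin R A0 : ℝ) (hd : 0 < dmin) (hr : 0 < rmin) (hR : 0 < R) (Smax : ℕ) :
    ∃ (c : CutPar) (ε₀ : ℝ), 0 < ε₀ ∧ 0 < c.ξ ∧ c.ξ ≤ R ∧ 10 ≤ c.Mloc ∧ c.Bat.Good ∧ c.Bat.M = B.M ∧
      (∀ E : PEnv, E.Obeys B → E.ε < ε₀ → 0 < E.nrm2 → ∀ t r bs : ℝ, 0 ≤ r → r + dmin ≤ t → 0 ≤ bs → bs ≤ E.u t →
        bs ≤ E.L - t → ∃ (At : Atoms) (Cl : Classes At), At.Good E B t r bs c.p ∧ Cl.Good γ E r bs c.ξ c.S0) ∧
      (∀ (E : PEnv) (T : PTest) (r bs : ℝ) (At : Atoms) (Cl : Classes At) (τ : Type) [Fintype τ] (tag : At.𝔸 → τ)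
        (win : T.ι → ℕ × τ), E.ε < ε₀ → Fintype.card τ ≤ Smax →
        CutOK γ E B T r bs c.p c.ξ c.S0 A0 At Cl tag win → r + dmin ≤ T.t → (r = 0 ∨ rmin ≤ r) →
        WinOK E r bs T Cl tag win ((c.S0 : ℝ) * (Fintype.card τ : ℝ)) ∧
        CompHyp (lg E.ε) T.P T.O T.D (ctJ E r bs T win) (ctLm E T) (Cl.LmW E r bs tag T win) (ctW γ T) bs
          (Cl.LA E) (Cl.LN E tag) (Cl.Lm E) Cl.gJ (fun j => K0 γ c.Mloc (Cl.envJ E r bs tag j)) (K0 γ B.M E)
          β r T.t R) ∧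
      (∀ (E : PEnv) (T : PTest) (r bs : ℝ) (At : Atoms) (Cl : Classes At) (τ : Type) (tag : At.𝔸 → τ)
        (win : T.ι → ℕ × τ) (_ : Nonempty At.𝔸) (cl : Classes.Lab τ → Finset At.𝔸) (ap : At.𝔸 → Geo),
        CutOK γ E B T r bs c.p c.ξ c.S0 A0 At Cl tag win → rmin ≤ r → EarlyOK E r T At Cl (ctJ E r bs T win) cl ap →
        E.Obeys c.Bat ∧ (At.earlierX r T (ctJ E r bs T win) cl ap).Obeys c.Bat E) ∧
      c.p.Ra ≤ 100 := by
  obtain ⟨c, ε₀, a1, a2, a3, a4, a5, a6, a7, a8, a9, a10, -⟩ :=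
    cut_main' γ β h0 h1 hrate B hB dmin rmin R A0 hd hr hR Smax
  exact ⟨c, ε₀, a1, a2, a3, a4, a5, a6, a7, a8, a9, a10⟩

/-- **Proposition 10.1**, final form -/
theorem cut_main (γ β : ℝ) (h0 : 0 < γ) (h1 : γ < 1) (hrate : PRate γ β) (B : PBd) (hB : B.Good)
    (dmin rmin R A0 : ℝ) (hd : 0 < dmin) (hr : 0 < rmin) (hR : 0 < R) (Smax : ℕ) :
    ∃ (c : CutPar) (ε₀ : ℝ), 0 < ε₀ ∧ 0 < c.ξ ∧ c.ξ ≤ R ∧ 10 ≤ c.Mloc ∧ c.Bat.Good ∧ c.Bat.M = B.M ∧
      (∀ E : PEnv, E.Obeys B → E.ε < ε₀ → 0 < E.nrm2 → ∀ t r bs : ℝ, 0 ≤ r → r + dmin ≤ t → 0 ≤ bs → bs ≤ E.u t →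
        bs ≤ E.L - t → ∃ (At : Atoms) (Cl : Classes At), At.Good E B t r bs c.p ∧ Cl.Good γ E r bs c.ξ c.S0) ∧
      (∀ (E : PEnv) (T : PTest) (r bs : ℝ) (At : Atoms) (Cl : Classes At) (τ : Type) [Fintype τ] (tag : At.𝔸 → τ)
        (win : T.ι → ℕ × τ), E.ε < ε₀ → Fintype.card τ ≤ Smax →
        CutOK γ E B T r bs c.p c.ξ c.S0 A0 At Cl tag win → r + dmin ≤ T.t → (r = 0 ∨ rmin ≤ r) →
        WinOK E r bs T Cl tag win ((c.S0 : ℝ) * (Fintype.card τ : ℝ)) ∧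
        CompHyp (lg E.ε) T.P T.O T.D (ctJ E r bs T win) (ctLm E T) (Cl.LmW E r bs tag T win) (ctW γ T) bs
          (Cl.LA E) (Cl.LN E tag) (Cl.Lm E) Cl.gJ (fun j => K0 γ c.Mloc (Cl.envJ E r bs tag j)) (K0 γ B.M E)
          β r T.t R) ∧
      (∀ (E : PEnv) (T : PTest) (r bs : ℝ) (At : Atoms) (Cl : Classes At) (τ : Type) (tag : At.𝔸 → τ)
        (win : T.ι → ℕ × τ) (_ : Nonempty At.𝔸) (cl : Classes.Lab τ → Finset At.𝔸) (ap : At.𝔸 → Geo),
        CutOK γ E B T r bs c.p c.ξ c.S0 A0 At Cl tag win → rmin ≤ r → EarlyOK E r T At Cl (ctJ E r bs T win) cl ap →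
        E.Obeys c.Bat ∧ (At.earlierX r T (ctJ E r bs T win) cl ap).Obeys c.Bat E) := by
  obtain ⟨c, ε₀, a1, a2, a3, a4, a5, a6, a7, a8, a9, -⟩ :=
    cut_main_x γ β h0 h1 hrate B hB dmin rmin R A0 hd hr hR Smax
  exact ⟨c, ε₀, a1, a2, a3, a4, a5, a6, a7, a8, a9⟩

end Claimed.Agent.R255.Pkt
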