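-- KEEP
import Claimed.Agent.R255.Comp.Score
import Claimed.Agent.R255.Pkt.Top
import Claimed.Agent.R255.Pk.Loc
import Claimed.Agent.R255.Pk9.Classes
import Claimed.Agent.R255.Pk9.RootNorm

/-!
# Row 255 (BR paper), Sec. 10, file FLOOR: sub-laws of a test, count of the sites, THE OUTPUT MASS FLOOR ((9.27), l.640-660; Sec. 10.1 "The floor also preserves saturation")      (architect helper95; prefix `pcx_`)

PAPER-FREE.  Vocabulary of `Pkt/Base.lean`.   `T.withLaw Q` = the same test with another law `Q` on `T.Ω`; `score γ E (T.withLaw Q) = pscore (lg ε) Q T.O T.D ..` by `rfl` (`p9_score_eq`).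
* `pcxDef γ β M E T = K₀ + β t - score`   the growth deficit.
* `pcxFl A0 E T o`   : the sample `o` satisfies the output floor `m_O ≥ ε^{A0} ‖f‖²`.
* `pcx_obeys_withLaw`  a law supported in the support of `T.P` gives a test obeying the same package.
* `pcx_site_count`     `#(active sites) ≤ C ε^{-Q}`.
* `pcx_floor`          every law on samples BELOW the floor has score `≤ K₀ - c`  (`A0` depends on `B`, `c`).
* `pcx_floor_upper`    an upper bound `Y ≥ K₀ - c` for the floor part is an upper bound for the whole law, up to `(3/2) log 2 / ℓ`.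
* `pcx_floor_sat`      a law of small deficit charges the floor with probability `≥ 1/2` and its floor part has deficit `≤ 2 Δ + err`.
-/

set_option autoImplicit false

namespace Claimed.Agent.R255

open scoped BigOperators
open Classical
open FLaw Pkt

/-- the growth deficit `K₀ + β t - P_t` -/
noncomputable def pcxDef (γ β : ℝ) (M : ℕ) (E : PEnv) (T : PTest) : ℝ := K0 γ M E + β * T.t - score γ E T

/-- the output floor (9.27) at the sample `o` -/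
def pcxFl (A0 : ℝ) (E : PEnv) (T : PTest) (o : T.Ω) : Prop := E.ε ^ A0 * E.nrm2 ≤ E.m T.t (T.site (T.O o))

/-- `Q` is supported in the support of the law of `T` -/
def pcxSub (T : PTest) (Q : FLaw T.Ω) : Prop := ∀ o, Q.p o ≠ 0 → 0 < T.P.p o

theorem pcx_floor_eqns_cite : True := by
  have := @pcxDef.eq_1
  have := @pcxFl.eq_1
  have := @pcxSub.eq_1
  trivial

/-! ## LEAF `L-PCX-FL-A` (~120 l.) : `pcx_act_withLaw`, `pcx_obeys_withLaw`, `pcx_sub_cnd`, `pcx_nrm2_pos`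
`(T.withLaw Q).act i → T.act i`; every field of `PTest.Obeys` only concerns active sites / charged samples; for `multT`, `multS` the filtered sets shrink (`Finset.card_le_card`, `Finset.filter_subset_filter`, `Finset.image_subset_image`).
`pcx_nrm2_pos`: a charged sample has `m_O > 0` (`mpos`), and `m_O ≤ C ‖f‖²` (`pk_site_mass_le`, or: `nrm2 = 0 ⟹ f = 0` a.e. `⟹` pairing `= 0`). -/

theorem pcx_act_withLaw (T : PTest) (Q : FLaw T.Ω) (hQ : pcxSub T Q) (i : T.ι) (h : (T.withLaw Q).act i) : T.act i := by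
  obtain ⟨o, ho, hi⟩ := h
  exact ⟨o, hQ o (ne_of_gt ho), hi⟩

theorem pcx_card_filter_le {ι : Type} (s : Finset ι) (p q : ι → Prop) {dp : DecidablePred p} {dq : DecidablePred q}
    (h : ∀ i, p i → q i) : (@Finset.filter ι p dp s).card ≤ (@Finset.filter ι q dq s).card :=
  Finset.card_le_card fun j hj => by
    rw [Finset.mem_filter] at hj ⊢
    exact ⟨hj.1, h j hj.2⟩

theorem pcx_card_image_le {ι : Type} (s : Finset ι) (p q : ι → Prop) {dp : DecidablePred p} {dq : DecidablePred q}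
    (f : ι → ℝ) (P : ℝ → Prop) {dP : DecidablePred P} {de : DecidableEq ℝ} (h : ∀ i, p i → q i) :
    (@Finset.filter ℝ P dP (@Finset.image ι ℝ de f (@Finset.filter ι p dp s))).card
      ≤ (@Finset.filter ℝ P dP (@Finset.image ι ℝ de f (@Finset.filter ι q dq s))).card :=
  Finset.card_le_card (Finset.filter_subset_filter _ (Finset.image_subset_image fun j hj => by
    rw [Finset.mem_filter] at hj ⊢
    exact ⟨hj.1, h j hj.2⟩))

theorem pcx_obeys_withLaw {B : PBd} {E : PEnv} {T : PTest} (hT : T.Obeys B E) (Q : FLaw T.Ω) (hQ : pcxSub T Q) :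
    (T.withLaw Q).Obeys B E := by
  have ha : ∀ i, (T.withLaw Q).act i → T.act i := fun i h => pcx_act_withLaw T Q hQ i h
  refine ⟨hT.t0, fun i hi => hT.amp i (ha i hi), fun i hi => hT.time i (ha i hi), fun i hi => hT.vel i (ha i hi),
    fun i hi => hT.pos i (ha i hi), ?_, ?_, fun o ho => hT.mpos o (hQ o (ne_of_gt ho)),
    fun o ho => hT.geo o (hQ o (ne_of_gt ho))⟩
  · intro i hi
    exact le_trans (pcx_card_image_le _ _ _ _ _ ha) (hT.multT i (ha i hi))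
  · intro i hi
    exact le_trans (pcx_card_filter_le _ _ _ (fun j hj => ⟨ha j hj.1, hj.2⟩)) (hT.multS i (ha i hi))

/-- conditioning keeps the support -/
theorem pcx_sub_cnd (T : PTest) (Q : FLaw T.Ω) (hQ : pcxSub T Q) (Ev : T.Ω → Prop) : pcxSub T (Q.cnd Ev) := by
  intro o ho
  by_cases h : 0 < Q.pr Ev
  · exact hQ o ((ent_cnd_supp Q Ev h).1 ho).2
  · have e : Q.cnd Ev = Q := by
      unfold FLaw.cnd
      rw [dif_neg h]
    rw [e] at ho
    exact hQ o ho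

theorem pcx_sub_self (T : PTest) : pcxSub T T.P := fun o ho => lt_of_le_of_ne (T.P.nonneg o) (Ne.symm ho)

theorem pcx_nrm2_pos {B : PBd} {E : PEnv} {T : PTest} (hE : E.Obeys B) (hT : T.Obeys B E) : 0 < E.nrm2 := by
  obtain ⟨o, ho⟩ := ent_exists_supp T.P
  have hp : 0 < T.P.p o := lt_of_le_of_ne (T.P.nonneg o) (Ne.symm ho)
  have hm := hT.mpos o hp
  have hact : T.act (T.O o) := ⟨o, hp, rfl⟩
  have hρ : 0 < E.rho T.t := Real.rpow_pos_of_pos hE.ε0 _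
  have hle := pk_site_mass_le E.lam hρ E.Φ E.f hE.mem (T.site (T.O o)) ((pk_ampC_iff _ _ _).1 (hT.amp _ hact) 0)
  have hn0 : 0 ≤ E.nrm2 := MeasureTheory.integral_nonneg fun v => sq_nonneg _
  rcases hn0.eq_or_lt with h | h
  · exfalso
    have h2 : (∫ v, ‖E.f v‖ ^ 2) = 0 := h.symm
    rw [h2, mul_zero] at hle
    exact absurd hm (not_lt.2 hle)
  · exact h

/-! ## LEAF `L-PCX-FL-B` (~250 l.) : `pcx_site_count`
Time anchors: the set `𝒞` of the anchors of the active sites lies in `[0,1)` and every window `|c - c_i| < ε^t` contains at most `Mu` of them (`multT`): `#𝒞 ≤ Mu (ε^{-t} + 1)` (map `c ↦ ⌊c / ε^t⌋ ∈ [0, ε^{-t}]`, fibres have `≤ Mu` elements).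
One anchor: `p9_pack` (`Pk9/Classes.lean`) with `V₀ = X₀ = 0`, `ρ = ρ_t`, `σ = σ_t`, `R₁ = Rv/ρ_t`, `R₂ = Rx/σ_t` and `multS`.
`t ≤ H ≤ Hmax` (from `geo` of a charged sample: `0 ≤ u_t`), `ρ_t, σ_t ≥ ε^{Hmax}`; so `Q = 7 Hmax` (or anything) works.  (`max Rv 0`, `max Rx 0` if you need signs.) -/

theorem pcx_div_lg_le (C : ℝ) {ν : ℝ} (hν : 0 < ν) : ∃ ε₀ : ℝ, 0 < ε₀ ∧ ε₀ < 1 ∧
    ∀ ε : ℝ, 0 < ε → ε < ε₀ → C / lg ε ≤ ν := by
  refine ⟨Real.exp (-(|C| / ν + 1)), Real.exp_pos _, ?_, fun ε h0 h1 => ?_⟩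
  · rw [Real.exp_lt_one_iff]
    have : 0 ≤ |C| / ν := by positivity
    linarith
  · have e1 : |C| / ν + 1 < lg ε := by
      unfold lg
      rw [one_div, Real.log_inv]
      have h3 : Real.log ε < -(|C| / ν + 1) := by
        rw [← Real.log_exp (-(|C| / ν + 1))]
        exact Real.log_lt_log h0 h1
      linarith
    have hp : 0 ≤ |C| / ν := by positivity
    have hl : 0 < lg ε := by linarith
    rw [div_le_iff₀ hl]
    have e2 : |C| / ν ≤ lg ε := by linarith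
    rw [div_le_iff₀ hν] at e2
    linarith [le_abs_self C]

/-- a set of points of `[0,1)` with at most `Mu` points in each window of radius `δ` centred at one of them -/
theorem pcx_count_time (𝒞 : Finset ℝ) (δ : ℝ) (hδ : 0 < δ) (Mu : ℕ) (h01 : ∀ c ∈ 𝒞, 0 ≤ c ∧ c < 1)
    {dP : ∀ c₀ : ℝ, DecidablePred fun c : ℝ => |c - c₀| < δ}
    (hm : ∀ c₀ ∈ 𝒞, (@Finset.filter ℝ (fun c => |c - c₀| < δ) (dP c₀) 𝒞).card ≤ Mu) :
    (𝒞.card : ℝ) ≤ Mu * (δ⁻¹ + 1) := by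
  have h1 : 𝒞.card ≤ Mu * (𝒞.image (fun c => ⌊c / δ⌋)).card := by
    refine Finset.card_le_mul_card_image 𝒞 Mu ?_
    intro a ha
    obtain ⟨c₀, hc₀, rfl⟩ := Finset.mem_image.1 ha
    refine le_trans (Finset.card_le_card ?_) (hm c₀ hc₀)
    intro c hc
    rw [Finset.mem_filter] at hc ⊢
    refine ⟨hc.1, ?_⟩
    have h2 := Int.abs_sub_lt_one_of_floor_eq_floor hc.2
    rw [← sub_div, abs_div, abs_of_pos hδ, div_lt_one hδ] at h2
    exact h2
  have h2 : (𝒞.image (fun c => ⌊c / δ⌋)) ⊆ Finset.Icc 0 ⌊δ⁻¹⌋ := by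
    intro a ha
    obtain ⟨c, hc, rfl⟩ := Finset.mem_image.1 ha
    rw [Finset.mem_Icc]
    refine ⟨Int.floor_nonneg.2 (div_nonneg (h01 c hc).1 hδ.le), Int.floor_le_floor ?_⟩
    rw [div_eq_mul_inv]
    have := (h01 c hc).2
    have h3 : 0 < δ⁻¹ := inv_pos.2 hδ
    nlinarith
  have h3 : ((𝒞.image (fun c => ⌊c / δ⌋)).card : ℝ) ≤ δ⁻¹ + 1 := by
    have h4 := Finset.card_le_card h2
    rw [Int.card_Icc] at h4
    have h5 : (0 : ℤ) ≤ ⌊δ⁻¹⌋ := Int.floor_nonneg.2 (inv_pos.2 hδ).le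
    have h6 : (((⌊δ⁻¹⌋ + 1 - 0).toNat : ℕ) : ℝ) = (⌊δ⁻¹⌋ : ℝ) + 1 := by
      have h7 : (((⌊δ⁻¹⌋ + 1 - 0).toNat : ℕ) : ℤ) = ⌊δ⁻¹⌋ + 1 := by
        rw [Int.toNat_of_nonneg (by omega)]
        ring
      have h8 : ((((⌊δ⁻¹⌋ + 1 - 0).toNat : ℕ) : ℤ) : ℝ) = ((⌊δ⁻¹⌋ + 1 : ℤ) : ℝ) := by rw [h7]
      push_cast at h8
      exact h8
    have h9 : ((𝒞.image (fun c => ⌊c / δ⌋)).card : ℝ) ≤ (((⌊δ⁻¹⌋ + 1 - 0).toNat : ℕ) : ℝ) := by exact_mod_cast h4
    rw [h6] at h9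
    linarith [Int.floor_le δ⁻¹]
  have h4 : (𝒞.card : ℝ) ≤ (Mu : ℝ) * ((𝒞.image (fun c => ⌊c / δ⌋)).card : ℝ) := by exact_mod_cast h1
  exact h4.trans (mul_le_mul_of_nonneg_left h3 (Nat.cast_nonneg _))

theorem pcx_site_count (B : PBd) (hB : B.Good) : ∃ C Qx : ℝ, 0 ≤ C ∧ 0 ≤ Qx ∧ ∀ (E : PEnv) (T : PTest), E.Obeys B → T.Obeys B E →
    ((Finset.univ.filter T.act).card : ℝ) ≤ C * E.ε ^ (-Qx) := by
  obtain ⟨Rv, hRv⟩ : ∃ Rv : ℝ, Rv = max B.K.Rv 0 := ⟨_, rfl⟩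
  obtain ⟨Rx, hRx⟩ : ∃ Rx : ℝ, Rx = max B.K.Rx 0 := ⟨_, rfl⟩
  have hRv0 : 0 ≤ Rv := by rw [hRv]; exact le_max_right _ _
  have hRx0 : 0 ≤ Rx := by rw [hRx]; exact le_max_right _ _
  refine ⟨2 * (B.Mu : ℝ) ^ 2 * ((4 * Rv + 2) ^ 2 * (4 * Rx + 2) ^ 2), 5 * max B.Hmax 0, by positivity,
    mul_nonneg (by norm_num) (le_max_right _ _), ?_⟩
  intro E T hE hT
  have hε0 := hE.ε0
  have hε1 := hE.ε1
  have hHm : max B.Hmax 0 = B.Hmax := max_eq_left (hE.H0.le.trans hE.H1)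
  rw [hHm]
  have ht : 0 < T.t := lt_of_lt_of_le hB.tmin hT.t0
  obtain ⟨o₀, ho₀⟩ := ent_exists_supp T.P
  have hu0 : 0 ≤ E.u T.t := by
    obtain ⟨b0, ba, _, au, _⟩ := hT.geo o₀ (lt_of_le_of_ne (T.P.nonneg o₀) (Ne.symm ho₀))
    linarith
  have hu : E.u T.t = (E.H - T.t) / 2 := rfl
  have hH1 := hE.H1
  obtain ⟨w, hw⟩ : ∃ w : ℝ, w = E.ε ^ (-B.Hmax) := ⟨_, rfl⟩
  have hw1 : 1 ≤ w := by
    rw [hw]
    exact Real.one_le_rpow_of_pos_of_le_one_of_nonpos hε0 hε1.le (by linarith [hE.H0])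
  have hρ : 0 < E.rho T.t := Real.rpow_pos_of_pos hε0 _
  have hσ : 0 < E.sig T.t := Real.rpow_pos_of_pos hε0 _
  have hδ : 0 < E.ε ^ T.t := Real.rpow_pos_of_pos hε0 _
  have hρw : (E.rho T.t)⁻¹ ≤ w := by
    show (E.ε ^ (E.u T.t))⁻¹ ≤ _
    rw [← Real.rpow_neg hε0.le, hw]
    exact Real.rpow_le_rpow_of_exponent_ge hε0 hε1.le (by linarith)
  have hσw : (E.sig T.t)⁻¹ ≤ w := by
    show (E.ε ^ (E.u T.t + T.t))⁻¹ ≤ _
    rw [← Real.rpow_neg hε0.le, hw]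
    exact Real.rpow_le_rpow_of_exponent_ge hε0 hε1.le (by linarith)
  have hδw : (E.ε ^ T.t)⁻¹ ≤ w := by
    rw [← Real.rpow_neg hε0.le, hw]
    exact Real.rpow_le_rpow_of_exponent_ge hε0 hε1.le (by linarith)
  have hρw' : 1 ≤ w * E.rho T.t := by
    have := mul_le_mul_of_nonneg_right hρw hρ.le
    rwa [inv_mul_cancel₀ hρ.ne'] at this
  have hσw' : 1 ≤ w * E.sig T.t := by
    have := mul_le_mul_of_nonneg_right hσw hσ.le
    rwa [inv_mul_cancel₀ hσ.ne'] at this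
  -- the time anchors
  have hC := pcx_count_time ((Finset.univ.filter T.act).image (fun j => (T.site j).C)) _ hδ B.Mu
    (fun c hc => by
      obtain ⟨j, hj, rfl⟩ := Finset.mem_image.1 hc
      exact hT.time j (Finset.mem_filter.1 hj).2)
    (fun c₀ hc₀ => by
      obtain ⟨j, hj, rfl⟩ := Finset.mem_image.1 hc₀
      exact hT.multT j (Finset.mem_filter.1 hj).2)
  -- one anchor
  obtain ⟨N, hN⟩ : ∃ N : ℝ, N = B.Mu * ((4 * (Rv * w) + 2) ^ 2 * (4 * (Rx * w) + 2) ^ 2) := ⟨_, rfl⟩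
  have hN0 : 0 ≤ N := by
    rw [hN]
    positivity
  have hper : ∀ c : ℝ, (((Finset.univ.filter T.act).filter (fun j => (T.site j).C = c)).card : ℝ) ≤ N := by
    intro c
    rw [hN]
    refine p9_pack _ (fun j => (T.site j).V) (fun j => (T.site j).X) 0 0 (E.rho T.t) (E.sig T.t) (Rv * w) (Rx * w) B.Mu
      hρ hσ (by positivity) (by positivity) ?_ ?_ ?_
    · intro i hi
      have hi' := (Finset.mem_filter.1 (Finset.mem_filter.1 hi).1).2
      rw [sub_zero]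
      calc ‖(T.site i).V‖ ≤ B.K.Rv := hT.vel i hi'
        _ ≤ Rv := by rw [hRv]; exact le_max_left _ _
        _ = Rv * 1 := (mul_one _).symm
        _ ≤ Rv * (w * E.rho T.t) := mul_le_mul_of_nonneg_left hρw' hRv0
        _ = Rv * w * E.rho T.t := by ring
    · intro i hi
      have hi' := (Finset.mem_filter.1 (Finset.mem_filter.1 hi).1).2
      rw [sub_zero]
      calc ‖(T.site i).X‖ ≤ B.K.Rx := hT.pos i hi'
        _ ≤ Rx := by rw [hRx]; exact le_max_left _ _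
        _ = Rx * 1 := (mul_one _).symm
        _ ≤ Rx * (w * E.sig T.t) := mul_le_mul_of_nonneg_left hσw' hRx0
        _ = Rx * w * E.sig T.t := by ring
    · intro i hi
      have hi1 := Finset.mem_filter.1 hi
      have hi' := (Finset.mem_filter.1 hi1.1).2
      refine le_trans (Finset.card_le_card ?_) (hT.multS i hi')
      intro j hj
      rw [Finset.mem_filter] at hj ⊢
      have hj1 := Finset.mem_filter.1 hj.1
      exact ⟨Finset.mem_univ _, (Finset.mem_filter.1 hj1.1).2, hj1.2.trans hi1.2.symm, hj.2⟩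
  have hA := Finset.card_le_mul_card_image (f := fun j => (T.site j).C) (Finset.univ.filter T.act) ⌊N⌋₊
    (fun c _ => Nat.le_floor (hper c))
  have hA' : ((Finset.univ.filter T.act).card : ℝ)
      ≤ (⌊N⌋₊ : ℝ) * (((Finset.univ.filter T.act).image (fun j => (T.site j).C)).card : ℝ) := by
    exact_mod_cast hA
  have hfl : (⌊N⌋₊ : ℝ) ≤ N := Nat.floor_le hN0
  have hNw : N ≤ B.Mu * ((4 * Rv + 2) ^ 2 * (4 * Rx + 2) ^ 2) * w ^ 4 := by
    rw [hN]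
    have a1 : 4 * (Rv * w) + 2 ≤ (4 * Rv + 2) * w := by nlinarith
    have a2 : 4 * (Rx * w) + 2 ≤ (4 * Rx + 2) * w := by nlinarith
    have b1 : (4 * (Rv * w) + 2) ^ 2 ≤ ((4 * Rv + 2) * w) ^ 2 := pow_le_pow_left₀ (by positivity) a1 2
    have b2 : (4 * (Rx * w) + 2) ^ 2 ≤ ((4 * Rx + 2) * w) ^ 2 := pow_le_pow_left₀ (by positivity) a2 2
    have b3 := mul_le_mul b1 b2 (by positivity) (by positivity)
    calc (B.Mu : ℝ) * ((4 * (Rv * w) + 2) ^ 2 * (4 * (Rx * w) + 2) ^ 2)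
        ≤ B.Mu * (((4 * Rv + 2) * w) ^ 2 * ((4 * Rx + 2) * w) ^ 2) := mul_le_mul_of_nonneg_left b3 (Nat.cast_nonneg _)
      _ = B.Mu * ((4 * Rv + 2) ^ 2 * (4 * Rx + 2) ^ 2) * w ^ 4 := by ring
  have hCw : (((Finset.univ.filter T.act).image (fun j => (T.site j).C)).card : ℝ) ≤ B.Mu * (2 * w) :=
    hC.trans (mul_le_mul_of_nonneg_left (by linarith) (Nat.cast_nonneg _))
  have hw5 : E.ε ^ (-(5 * B.Hmax)) = w ^ 5 := by
    rw [hw, ← Real.rpow_natCast, ← Real.rpow_mul hε0.le]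
    congr 1
    push_cast
    ring
  rw [hw5]
  calc ((Finset.univ.filter T.act).card : ℝ)
      ≤ (⌊N⌋₊ : ℝ) * (((Finset.univ.filter T.act).image (fun j => (T.site j).C)).card : ℝ) := hA'
    _ ≤ (B.Mu * ((4 * Rv + 2) ^ 2 * (4 * Rx + 2) ^ 2) * w ^ 4) * (B.Mu * (2 * w)) :=
        mul_le_mul (hfl.trans hNw) hCw (Nat.cast_nonneg _) (by positivity)
    _ = 2 * (B.Mu : ℝ) ^ 2 * ((4 * Rv + 2) ^ 2 * (4 * Rx + 2) ^ 2) * w ^ 5 := by ring

/-! ## LEAF `L-PCX-FL-C` (~200 l.) : `pcx_floor`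
`Q` a law on samples below the floor.  `ℓ = lg ε > 0`.  `H_Q(O) ≤ log #act ≤ log C + Qx ℓ` (`ent_le_log_card`, `pcx_site_count`), `H_Q(O|D) ≤ H_Q(O)`;
`log m_O < - A0 ℓ + log ‖f‖²` (`Real.log_lt_log`, `Real.log_mul`, `Real.log_rpow`, `lg ε = - log ε`; `m_O > 0` by `mpos`);  `wt γ g ≤ 2 g.a ≤ 2 u_t ≤ Hmax`  (`0 ≤ b ≤ a ≤ u_t`, `-1 ≤ γ`).
So `score ≤ (3/2)(Qx + log C/ℓ) + (3/2)(- A0 + log‖f‖²/ℓ) + Hmax/2`, and `(3/2) log‖f‖²/ℓ ≤ K₀` (`pk_K0_norm_le`, `pk_K0_obeys_bdd`).   `A0 := Qx + Hmax/3 + c + 1` (`c ≥ 0` wlog: use `max c 0`), `ε₀` with `log C / ℓ ≤ 1/2`. -/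

theorem pcx_floor (γ : ℝ) (h0 : 0 < γ) (h1 : γ < 1) (B : PBd) (hB : B.Good) (c : ℝ) : ∃ A0 ε₀ : ℝ, 0 < A0 ∧ 0 < ε₀ ∧
    ∀ (E : PEnv) (T : PTest), E.ε < ε₀ → E.Obeys B → T.Obeys B E → ∀ Q : FLaw T.Ω, pcxSub T Q →
      (∀ o, Q.p o ≠ 0 → ¬ pcxFl A0 E T o) → score γ E (T.withLaw Q) ≤ K0 γ B.M E - c := by
  obtain ⟨C, Qx, hC0, hQx0, hcount⟩ := pcx_site_count B hB
  obtain ⟨ε₁, h10, h11, hs⟩ := pcx_div_lg_le (Real.log (max C 1)) (ν := 1 / 2) (by norm_num)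
  refine ⟨Qx + |B.Hmax| / 3 + |c| + 1, ε₁, by positivity, h10, ?_⟩
  intro E T hε hE hT Q hQ hlow
  obtain ⟨A0, hA0⟩ : ∃ A0 : ℝ, A0 = Qx + |B.Hmax| / 3 + |c| + 1 := ⟨_, rfl⟩
  rw [← hA0] at hlow
  have hl : 0 < lg E.ε := p9_lg_pos hE.ε0 hE.ε1
  have hn := pcx_nrm2_pos hE hT
  have ht : 0 < T.t := lt_of_lt_of_le hB.tmin hT.t0
  have hC1 : 0 < max C 1 := lt_of_lt_of_le one_pos (le_max_right _ _)
  -- entropy
  have hS : ∀ o, Q.p o ≠ 0 → T.O o ∈ Finset.univ.filter T.act := fun o ho => by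
    rw [Finset.mem_filter]
    exact ⟨Finset.mem_univ _, o, hQ o ho, rfl⟩
  have hH := ent_le_log_card Q T.O _ hS
  obtain ⟨o₀, ho₀⟩ := ent_exists_supp Q
  have hcpos : (0 : ℝ) < ((Finset.univ.filter T.act).card : ℝ) := by
    exact_mod_cast Finset.card_pos.2 ⟨_, hS o₀ ho₀⟩
  have hcnt : ((Finset.univ.filter T.act).card : ℝ) ≤ max C 1 * E.ε ^ (-Qx) :=
    (hcount E T hE hT).trans (mul_le_mul_of_nonneg_right (le_max_left _ _) (Real.rpow_pos_of_pos hE.ε0 _).le)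
  have hlogc : Real.log ((Finset.univ.filter T.act).card : ℝ) ≤ Real.log (max C 1) + Qx * lg E.ε := by
    refine (Real.log_le_log hcpos hcnt).trans (le_of_eq ?_)
    rw [Real.log_mul hC1.ne' (Real.rpow_pos_of_pos hE.ε0 _).ne', Real.log_rpow hE.ε0]
    unfold lg
    rw [one_div, Real.log_inv]
    ring
  have hHC := ent_entC_le Q T.O T.D
  -- mass
  have hmass : ∀ o, Q.p o ≠ 0 →
      Real.log (E.m T.t (T.site (T.O o))) / lg E.ε ≤ -A0 + Real.log E.nrm2 / lg E.ε := by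
    intro o ho
    have hm := hT.mpos o (hQ o ho)
    have hlt : E.m T.t (T.site (T.O o)) < E.ε ^ A0 * E.nrm2 := not_le.1 (hlow o ho)
    have h2 := (Real.log_lt_log hm hlt).le
    rw [Real.log_mul (Real.rpow_pos_of_pos hE.ε0 _).ne' hn.ne', Real.log_rpow hE.ε0] at h2
    have e : A0 * Real.log E.ε = -A0 * lg E.ε := by
      unfold lg
      rw [one_div, Real.log_inv]
      ring
    rw [e] at h2
    rw [div_le_iff₀ hl]
    have e2 : (-A0 + Real.log E.nrm2 / lg E.ε) * lg E.ε = -A0 * lg E.ε + Real.log E.nrm2 := by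
      field_simp
    rw [e2]
    exact h2
  -- weight
  have hw : ∀ o, Q.p o ≠ 0 → wt γ (T.geo (T.D o)) ≤ B.Hmax := by
    intro o ho
    obtain ⟨b0, ba, _, au, _⟩ := hT.geo o (hQ o ho)
    have hu : E.u T.t = (E.H - T.t) / 2 := rfl
    rw [hu] at au
    have h2 := mul_nonneg (by linarith : 0 ≤ 1 + γ) (sub_nonneg.2 ba)
    show (1 + γ) * (T.geo (T.D o)).b + (1 - γ) * (T.geo (T.D o)).a ≤ B.Hmax
    nlinarith [hE.H1]
  have hK := pk_K0_norm_le (pk_K0_obeys_bdd hB (by linarith : (-1 : ℝ) ≤ γ) hE)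
  -- assemble
  show pscore (lg E.ε) Q T.O T.D (fun o => Real.log (E.m T.t (T.site (T.O o))) / lg E.ε)
    (fun o => wt γ (T.geo (T.D o))) ≤ _
  unfold pscore
  have e1 := ent_ev_mono Q hmass
  rw [ent_ev_const] at e1
  have e2 := ent_ev_mono Q hw
  rw [ent_ev_const] at e2
  have e3 : (Q.ent T.O + Q.entC T.O T.D / 2) / lg E.ε ≤ 3 / 2 * (Real.log (max C 1) / lg E.ε + Qx) := by
    rw [div_le_iff₀ hl]
    have e4 : 3 / 2 * (Real.log (max C 1) / lg E.ε + Qx) * lg E.ε = 3 / 2 * (Real.log (max C 1) + Qx * lg E.ε) := by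
      field_simp
    rw [e4]
    linarith
  have e4 := hs E.ε hE.ε0 hε
  have a1 := le_abs_self B.Hmax
  have a2 := le_abs_self c
  have a3 := abs_nonneg c
  linarith

/-! ## LEAF `L-PCX-FL-D` (~150 l.) : `pcx_floor_upper`, `pcx_floor_sat`   (glue: `pc_split_le` / `pc_ev_cfib_prop` / `pc_restrict` of `Comp/Score.lean`, `pcx_floor`, `PRate`)
`pcx_floor_upper`: `pscore P ≤ pr·pscore(P|Fl) + (1-pr)·pscore(P|¬Fl) + (3/2) log 2/ℓ` (`pc_split_le` with `B = Fl`, `pc_ev_cfib_prop`, `ent_prop_le`); cases `pr = 0`, `pr = 1` are covered by the convention `cnd = P` only through the weights.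
`pcx_floor_sat`: `pc_restrict` with `𝒦 = K₀ + β t`, `ω₀ = -1` (`pcx_floor` with `c = β·Hmax + 1`... any `c ≥ 1 + β t`, here `c := 1` and `β t ≥ 0`): `pr (𝒦 - P(·|Fl)) ≤ Δ + e - (1 - pr)`; with `𝒦 - P(·|Fl) ≥ - ν` (`PRate` for `T.withLaw (P.cnd Fl)`): `1 - pr ≤ Δ + e + ν ≤ 1/2`. -/

theorem pcx_floor_upper (γ : ℝ) (E : PEnv) (T : PTest) (hε0 : 0 < E.ε) (hε1 : E.ε < 1) (Ev : T.Ω → Prop) (Y : ℝ)
    (hlo : 0 < T.P.pr (fun o => ¬ Ev o) → score γ E (T.withLaw (T.P.cnd fun o => ¬ Ev o)) ≤ Y)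
    (hhi : 0 < T.P.pr Ev → score γ E (T.withLaw (T.P.cnd Ev)) ≤ Y) :
    score γ E T ≤ Y + 3 / 2 * Real.log 2 / lg E.ε := by
  have hl : 0 < lg E.ε := p9_lg_pos hε0 hε1
  obtain ⟨F, hF⟩ : ∃ F : FLaw T.Ω → ℝ, F = fun Q => score γ E (T.withLaw Q) := ⟨_, rfl⟩
  have h := pc_split_le hl T.P T.O T.D (fun o => Real.log (E.m T.t (T.site (T.O o))) / lg E.ε)
    (fun o => wt γ (T.geo (T.D o))) Ev
  have h' : score γ E T ≤ T.P.ev (fun o => F (T.P.cfib Ev o)) + 3 / 2 * T.P.ent Ev / lg E.ε := by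
    rw [hF]
    exact h
  rw [pc_ev_cfib_prop T.P Ev F] at h'
  have he : 3 / 2 * T.P.ent Ev / lg E.ε ≤ 3 / 2 * Real.log 2 / lg E.ε := by
    apply div_le_div_of_nonneg_right _ hl.le
    linarith [ent_prop_le T.P Ev]
  have hp0 := ent_pr_nonneg T.P Ev
  have hp1 := ent_pr_le_one T.P Ev
  have hnot := ent_pr_not T.P Ev
  have a1 : T.P.pr Ev * F (T.P.cnd Ev) ≤ T.P.pr Ev * Y := by
    rcases hp0.eq_or_lt with h0 | h0
    · rw [← h0]
      simp
    · refine mul_le_mul_of_nonneg_left ?_ hp0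
      rw [hF]
      exact hhi h0
  have a2 : (1 - T.P.pr Ev) * F (T.P.cnd fun o => ¬ Ev o) ≤ (1 - T.P.pr Ev) * Y := by
    rcases hp1.eq_or_lt with h0 | h0
    · rw [h0]
      simp
    · refine mul_le_mul_of_nonneg_left ?_ (by linarith)
      rw [hF]
      exact hlo (by rw [hnot]; linarith)
  linarith

/-- the floor preserves saturation -/
theorem pcx_floor_sat (γ β : ℝ) (h0 : 0 < γ) (h1 : γ < 1) (hβ : 0 ≤ β) (hrate : PRate γ β) (B : PBd) (hB : B.Good) (e : ℝ) (he : 0 < e) :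
    ∃ A0 ε₀ : ℝ, 0 < A0 ∧ 0 < ε₀ ∧ ∀ (E : PEnv) (T : PTest), E.ε < ε₀ → E.Obeys B → T.Obeys B E → pcxDef γ β B.M E T ≤ 1 / 4 →
      1 / 2 ≤ T.P.pr (pcxFl A0 E T) ∧
      pcxDef γ β B.M E (T.withLaw (T.P.cnd (pcxFl A0 E T))) ≤ 2 * pcxDef γ β B.M E T + e := by
  obtain ⟨A0, ε₁, hA0, hε₁, hfl⟩ := pcx_floor γ h0 h1 B hB 1
  obtain ⟨ν, hνdef⟩ : ∃ ν : ℝ, ν = min (e / 2) (1 / 8) := ⟨_, rfl⟩
  have hν0 : 0 < ν := by
    rw [hνdef]
    exact lt_min (by positivity) (by norm_num)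
  have hνe : ν ≤ e / 2 := by
    rw [hνdef]
    exact min_le_left _ _
  have hν8 : ν ≤ 1 / 8 := by
    rw [hνdef]
    exact min_le_right _ _
  obtain ⟨ε₂, h20, h21, hr⟩ := hrate B hB ν hν0
  obtain ⟨ε₃, h30, h31, hs⟩ := pcx_div_lg_le (3 / 2 * Real.log 2) hν0
  refine ⟨A0, min ε₁ (min ε₂ ε₃), hA0, lt_min hε₁ (lt_min h20 h30), ?_⟩
  intro E T hε hE hT hD
  have hεa : E.ε < ε₁ := lt_of_lt_of_le hε (min_le_left _ _)
  have hεb : E.ε < ε₂ := lt_of_lt_of_le hε ((min_le_right _ _).trans (min_le_left _ _))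
  have hεc : E.ε < ε₃ := lt_of_lt_of_le hε ((min_le_right _ _).trans (min_le_right _ _))
  have hl : 0 < lg E.ε := p9_lg_pos hE.ε0 hE.ε1
  have ht : 0 < T.t := lt_of_lt_of_le hB.tmin hT.t0
  have hβt : 0 ≤ β * T.t := by positivity
  have hres := pc_restrict hl T.P T.O T.D (fun o => Real.log (E.m T.t (T.site (T.O o))) / lg E.ε)
    (fun o => wt γ (T.geo (T.D o))) (pcxFl A0 E T) (𝒦 := K0 γ B.M E + β * T.t) (ω₀ := -1) (fun hlt => by
      have hpos : 0 < T.P.pr (fun o => ¬ pcxFl A0 E T o) := by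
        rw [ent_pr_not]
        linarith
      have h2 := hfl E T hεa hE hT (T.P.cnd fun o => ¬ pcxFl A0 E T o) (pcx_sub_cnd T T.P (pcx_sub_self T) _)
        (fun o ho => ((ent_cnd_supp T.P _ hpos).1 ho).1)
      have h3 : score γ E (T.withLaw (T.P.cnd fun o => ¬ pcxFl A0 E T o)) ≤ K0 γ B.M E + β * T.t + -1 := by
        linarith
      exact h3)
  have hres' : T.P.pr (pcxFl A0 E T) * pcxDef γ β B.M E (T.withLaw (T.P.cnd (pcxFl A0 E T)))
      ≤ pcxDef γ β B.M E T + 3 / 2 * Real.log 2 / lg E.ε + (1 - T.P.pr (pcxFl A0 E T)) * -1 := hres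
  have hup : -ν ≤ pcxDef γ β B.M E (T.withLaw (T.P.cnd (pcxFl A0 E T))) := by
    have h2 := hr E (T.withLaw (T.P.cnd (pcxFl A0 E T))) hεb hE
      (pcx_obeys_withLaw hT _ (pcx_sub_cnd T T.P (pcx_sub_self T) _))
    unfold pcxDef
    linarith
  have hup0 : -ν ≤ pcxDef γ β B.M E T := by
    have h2 := hr E T hεb hE hT
    unfold pcxDef
    linarith
  have hse := hs E.ε hE.ε0 hεc
  have hp0 := ent_pr_nonneg T.P (pcxFl A0 E T)
  have hp1 := ent_pr_le_one T.P (pcxFl A0 E T)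
  generalize pcxDef γ β B.M E (T.withLaw (T.P.cnd (pcxFl A0 E T))) = X at hres' hup ⊢
  generalize pcxDef γ β B.M E T = Δ at hres' hup0 hD ⊢
  generalize T.P.pr (pcxFl A0 E T) = q at hres' hp0 hp1 ⊢
  generalize 3 / 2 * Real.log 2 / lg E.ε = e' at hres' hse
  have hqX : q * (-ν) ≤ q * X := mul_le_mul_of_nonneg_left hup hp0
  have hqν : q * ν ≤ ν := by nlinarith
  have hq : 1 / 2 ≤ q := by linarith
  refine ⟨hq, ?_⟩
  rcases le_or_gt X 0 with hX | hX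
  · linarith
  · have : 1 / 2 * X ≤ q * X := mul_le_mul_of_nonneg_right hq hX.le
    linarith

end Claimed.Agent.R255
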