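-- KEEP
import Claimed.Agent.R255.Comp.CutMain
import Claimed.Agent.R255.Comp.Floor

/-!
# Row 255 (BR paper), Sec. 10: THE THREE EXPORTS (X1), (X2), (X3) AS PROPOSITIONS      (architect helper95; prefix `Pcx` / `pcx_`)

INTERFACE FILE (definitions only).   The glue `start_el`, `start_iso` (`Comp/StartPf.lean`) CONSUMES these three propositions as hypotheses; their owners PROVE them:
* `PcxSlack γ β`     = (X1) = L10.3  "exclusion of a fixed uncertainty slack"           OWNER helper17  (`Comp/Slack*.lean`,  `pkt_slack_gap`)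
* `PcxForced γ β`    = (X2) = first paragraph of the proof of P10.4 (forced root gap)     OWNER helper6   (`Comp/Forced*.lean`)
* `PcxUnforced γ β`  = (X3) = (10.15)-(10.16), second alternative of P10.4               OWNER helper6   (`Comp/Unforced*.lean`)
QUANTIFIERS: the gain `c₁` is chosen BEFORE the package `B` (it only depends on the margins).
-/

set_option autoImplicit false

namespace Claimed.Agent.R255

open scoped BigOperators
open Classical
open FLaw Pkt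

/-- **(X1) = L10.3**: a test all of whose shapes stay `κ₁` below the uncertainty boundary `a = u_t` has a growth deficit `≥ c₁(κ₁) > 0`. -/
def PcxSlack (γ β : ℝ) : Prop :=
  ∀ κ₁ : ℝ, 0 < κ₁ → ∃ c₁ : ℝ, 0 < c₁ ∧ ∀ B : PBd, B.Good → ∃ ε₀ : ℝ, 0 < ε₀ ∧
    ∀ (E : PEnv) (T : PTest), E.ε < ε₀ → E.Obeys B → T.Obeys B E → κ₁ ≤ T.t →
      (∀ o, 0 < T.P.p o → (T.geo (T.D o)).a ≤ E.u T.t - κ₁) →
      c₁ ≤ K0 γ B.M E + β * T.t - score γ E T

/-- **(X2)**: under a forced root gap `K_0^{≥ u_0 - ν} ≤ K_0 - κ`, a test all of whose smaller widths are `≥ u_0 - ν + κ₁` (inward margin `κ₁`) has a growth deficit `≥ c₁(ν,κ,κ₁) > 0`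
(paper: `κ - o(1)`;  cut to `r = 0` with `b_* = max (u_0 - ν + κ₁) 0`, whole-class earlier test = generalised root test with widths `≥ b_*`, width-preserving normalisation). -/
def PcxForced (γ β : ℝ) : Prop :=
  ∀ ν κ κ₁ : ℝ, 0 < κ → 0 < κ₁ → ∃ c₁ : ℝ, 0 < c₁ ∧ ∀ B : PBd, B.Good → ∃ ε₀ : ℝ, 0 < ε₀ ∧
    ∀ (E : PEnv) (T : PTest), E.ε < ε₀ → E.Obeys B → T.Obeys B E →
      K0geLe γ B.M E (E.u 0 - ν) (K0 γ B.M E - κ) →
      (∀ o, 0 < T.P.p o → E.u 0 - ν + κ₁ ≤ (T.geo (T.D o)).b) →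
      c₁ ≤ K0 γ B.M E + β * T.t - score γ E T

/-- **(X3)**: POINTWISE in the tagged localizer `j = J o` of a cut of fixed gap `d = t - r` : if the local root comparison and the local growth are both `c₁`-sharp, then the cap maximum has no
excess `ζ` over the isotropic value:  `g(j) < 2 (u_r - b_*) + ζ`.      (True if no forced array exists: (10.16) + `¬ Forced γ β (α/d) (ζ/(8d))` applied to `(envJ j, ctTestJ j)`, package `ctBloc B p d Mloc`.) -/
def PcxUnforced (γ β : ℝ) : Prop :=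
  ∀ ζ d : ℝ, 0 < ζ → 0 < d → ∃ c₁ : ℝ, 0 < c₁ ∧
    ∀ (B : PBd) (p : Atoms.Par) (ξ : ℝ) (S0 : ℕ) (A0 : ℝ) (Mloc : ℕ), B.Good → 0 < ξ → ξ ≤ c₁ → 10 ≤ Mloc →
      ∃ ε₀ : ℝ, 0 < ε₀ ∧
        ∀ (E : PEnv) (T : PTest) (r bs S : ℝ) (At : Atoms) (Cl : Classes At) (τ : Type) (tag : At.𝔸 → τ)
          (win : T.ι → ℕ × τ), E.ε < ε₀ → CutOK γ E B T r bs p ξ S0 A0 At Cl tag win →
          WinOK E r bs T Cl tag win S → T.t = r + d → ∀ o, 0 < T.P.p o →
          Cl.AJ E tag (ctJ E r bs T win o) - K0 γ Mloc (Cl.envJ E r bs tag (ctJ E r bs T win o)) ≤ c₁ →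
          K0 γ Mloc (Cl.envJ E r bs tag (ctJ E r bs T win o)) + β * d
            - score γ (Cl.envJ E r bs tag (ctJ E r bs T win o)) (ctTestJ E r bs T win (ctJ E r bs T win o)) ≤ c₁ →
          Cl.gJ (ctJ E r bs T win o) < 2 * (E.u r - bs) + ζ

theorem pcx_expdefs_eqns_cite : True := by
  have := @PcxSlack.eq_1
  have := @PcxForced.eq_1
  have := @PcxUnforced.eq_1
  trivial

end Claimed.Agent.R255
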