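-- KEEP
import Claimed.Agent.R255.Comp.ExpDefs
import Claimed.Agent.R255.Rep.State

/-!
# Row 255 (BR paper), Sec. 10.2 + P10.4: SELECT      (architect helper95; prefix `pcx_`)

* `pcx_select`      abstract selection: a label `Bn` with few values, branches with a deficit `≥ c` are `bad`; a law of small deficit has a good branch of small deficit.
* `pcxBin`          shape bins of mesh `μ`.
* `pcx_select_el`   a test of small deficit at time `t₀ ≤ ν` under a forced root gap has a branch which is an elongated state `RState .. true ..` without credit   (uses (X1), (X2)).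
-/

set_option autoImplicit false

namespace Claimed.Agent.R255

open scoped BigOperators
open Classical
open FLaw Pkt

theorem pcx_def_withLaw (γ β : ℝ) (M : ℕ) (E : PEnv) (T : PTest) (Q : FLaw T.Ω) :
    pcxDef γ β M E (T.withLaw Q)
      = (K0 γ M E + β * T.t) - pscore (lg E.ε) Q T.O T.D (ctLm E T) (ctW γ T) := rfl

/-- **abstract selection** -/
theorem pcx_select (γ β : ℝ) (M : ℕ) (E : PEnv) (T : PTest) (hε0 : 0 < E.ε) (hε1 : E.ε < 1)
    {κ : Type} (Bn : T.Ω → κ) (F : Finset κ) (hF : ∀ o, T.P.p o ≠ 0 → Bn o ∈ F)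
    (bad : T.Ω → Prop) (c ν' Δ e : ℝ) (hc : 0 < c) (hν : 0 ≤ ν')
    (hlow : ∀ o, T.P.p o ≠ 0 → -ν' ≤ pcxDef γ β M E (T.withLaw (T.P.cfib Bn o)))
    (hbad : ∀ o, T.P.p o ≠ 0 → bad o → c ≤ pcxDef γ β M E (T.withLaw (T.P.cfib Bn o)))
    (hΔ : pcxDef γ β M E T ≤ Δ) (he : 3 / 2 * Real.log F.card / lg E.ε ≤ e)
    (hsmall : 2 * (Δ + e + ν') ≤ c) :
    ∃ o, T.P.p o ≠ 0 ∧ ¬ bad o ∧ pcxDef γ β M E (T.withLaw (T.P.cfib Bn o)) ≤ 8 * (Δ + e + ν') := by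
  have hl : 0 < lg E.ε := p9_lg_pos hε0 hε1
  set d : T.Ω → ℝ := fun o => pcxDef γ β M E (T.withLaw (T.P.cfib Bn o)) + ν' with hd
  have hd0 : ∀ o, T.P.p o ≠ 0 → 0 ≤ d o := fun o ho => by
    have := hlow o ho
    simp only [hd]
    linarith
  have hev : T.P.ev d ≤ Δ + e + ν' := by
    have h1 := pc_split_deficit hl T.P T.O T.D (ctLm E T) (ctW γ T) Bn (K0 γ M E + β * T.t)
    have h2 : T.P.ev d = T.P.ev (fun o => (K0 γ M E + β * T.t)
        - pscore (lg E.ε) (T.P.cfib Bn o) T.O T.D (ctLm E T) (ctW γ T)) + ν' := by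
      simp only [hd]
      rw [ent_ev_add, ent_ev_const]
      rfl
    have h3 : 3 / 2 * T.P.ent Bn / lg E.ε ≤ e := by
      refine le_trans (div_le_div_of_nonneg_right ?_ hl.le) he
      linarith [ent_le_log_card T.P Bn F hF]
    have h4 : (K0 γ M E + β * T.t) - pscore (lg E.ε) T.P T.O T.D (ctLm E T) (ctW γ T) ≤ Δ := hΔ
    rw [h2]
    linarith
  have hbadpr : T.P.pr bad ≤ 1 / 2 := by
    have h1 : T.P.pr bad ≤ T.P.pr (fun o => c ≤ d o) := ent_pr_mono T.P fun o ho hb => by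
      have := hbad o ho hb
      simp only [hd]
      linarith
    have h2 := ent_markov T.P hd0 hc
    have h3 : T.P.ev d / c ≤ 1 / 2 := by
      rw [div_le_iff₀ hc]
      linarith
    linarith
  have hgood : (1 / 2 : ℝ) ≤ T.P.pr (fun o => ¬ bad o) := by
    rw [ent_pr_not]
    linarith
  obtain ⟨o, ho, hU, -, hdo⟩ := pc_tag_rule T.P Bn (fun o => ¬ bad o) d hd0 hev (by norm_num : (0 : ℝ) < 1 / 2)
    hgood F (fun o ho _ => hF o ho)
  refine ⟨o, ho, hU, ?_⟩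
  have : d o = pcxDef γ β M E (T.withLaw (T.P.cfib Bn o)) + ν' := rfl
  have h8 : 4 * (Δ + e + ν') / (1 / 2) = 8 * (Δ + e + ν') := by ring
  rw [h8] at hdo
  linarith

/-- the shape bin of a sample -/
noncomputable def pcxBin (μ : ℝ) (T : PTest) (o : T.Ω) : ℤ × ℤ :=
  (⌊(T.geo (T.D o)).b / μ⌋, ⌊(T.geo (T.D o)).a / μ⌋)

/-- the menu of the shape bins -/
noncomputable def pcxMenu (μ Hm : ℝ) : Finset (ℤ × ℤ) := Finset.Icc 0 ⌊Hm / μ⌋ ×ˢ Finset.Icc 0 ⌊Hm / μ⌋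

theorem pcx_select_eqns_cite : True := by
  have := @pcxBin.eq_1
  have := @pcxMenu.eq_1
  trivial

/-- shapes are bounded by `Hmax` -/
theorem pcx_shape_le {B : PBd} {E : PEnv} {T : PTest} (hB : B.Good) (hE : E.Obeys B) (hT : T.Obeys B E) (o : T.Ω)
    (ho : 0 < T.P.p o) :
    0 ≤ (T.geo (T.D o)).b ∧ (T.geo (T.D o)).b ≤ (T.geo (T.D o)).a ∧ (T.geo (T.D o)).a ≤ B.Hmax := by
  obtain ⟨g0, g1, -, g3, -⟩ := hT.geo o ho
  refine ⟨g0, g1, g3.trans ?_⟩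
  have ht : 0 < T.t := lt_of_lt_of_le hB.tmin hT.t0
  have := hE.H1
  have := hE.H0
  unfold PEnv.u
  linarith

theorem pcx_bin_mem {B : PBd} {E : PEnv} {T : PTest} (hB : B.Good) (hE : E.Obeys B) (hT : T.Obeys B E) {μ : ℝ}
    (hμ : 0 < μ) (o : T.Ω) (ho : 0 < T.P.p o) : pcxBin μ T o ∈ pcxMenu μ B.Hmax := by
  obtain ⟨g0, g1, g2⟩ := pcx_shape_le hB hE hT o ho
  unfold pcxBin pcxMenu
  rw [Finset.mem_product, Finset.mem_Icc, Finset.mem_Icc]
  refine ⟨⟨Int.floor_nonneg.2 (div_nonneg g0 hμ.le), Int.floor_le_floor ?_⟩,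
    ⟨Int.floor_nonneg.2 (div_nonneg (g0.trans g1) hμ.le), Int.floor_le_floor ?_⟩⟩
  · exact div_le_div_of_nonneg_right (g1.trans g2) hμ.le
  · exact div_le_div_of_nonneg_right g2 hμ.le

theorem pcx_floor_bounds {μ x : ℝ} (hμ : 0 < μ) : (⌊x / μ⌋ : ℝ) * μ ≤ x ∧ x < ((⌊x / μ⌋ : ℝ) + 1) * μ := by
  constructor
  · have := Int.floor_le (x / μ)
    rwa [le_div_iff₀ hμ] at this
  · have := Int.lt_floor_add_one (x / μ)
    rwa [div_lt_iff₀ hμ] at this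

/-- the support of a branch -/
theorem pcx_cfib_supp {Ω κ : Type} [Fintype Ω] (P : FLaw Ω) (Bn : Ω → κ) {o o' : Ω} (ho : P.p o ≠ 0)
    (ho' : (P.cfib Bn o).p o' ≠ 0) : Bn o' = Bn o ∧ P.p o' ≠ 0 :=
  (ent_cnd_supp P _ (ent_fib_pos P Bn ho)).1 ho'

theorem pcx_sub_cfib (T : PTest) {κ : Type} (Bn : T.Ω → κ) (o : T.Ω) : pcxSub T (T.P.cfib Bn o) :=
  pcx_sub_cnd T T.P (pcx_sub_self T) _

/-- **SELECT, elongated case** -/
theorem pcx_select_el (γ β : ℝ) (hrate : PRate γ β) (hX1 : PcxSlack γ β) (hX2 : PcxForced γ β)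
    (ν κ t0 h e0 : ℝ) (hκ : 0 < κ) (ht0 : 0 < t0) (htν : t0 ≤ ν) (he0 : e0 < ν / 2) :
    ∀ acc : ℝ, 0 < acc → ∃ δ : ℝ, 0 < δ ∧ ∀ (B : PBd) (Kc : ℝ), B.Good → ∃ ε₀ : ℝ, 0 < ε₀ ∧
      ∀ (E : PEnv) (T : PTest), E.ε < ε₀ → E.Obeys B → T.Obeys B E → T.t = t0 → pcxDef γ β B.M E T ≤ δ →
        K0geLe γ B.M E (E.u 0 - ν) (K0 γ B.M E - κ) →
        ∃ T' : PTest, T'.t = t0 ∧ RState γ β true B Kc h e0 acc 0 E T' := by
  intro acc hacc
  obtain ⟨μ, hμdef⟩ : ∃ μ : ℝ, μ = min (min (acc / 2) ((ν / 2 - e0) / 3)) t0 := ⟨_, rfl⟩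
  have hμ : 0 < μ := by
    rw [hμdef]
    exact lt_min (lt_min (by positivity) (by linarith)) ht0
  have hμ1 : μ ≤ acc / 2 := by rw [hμdef]; exact (min_le_left _ _).trans (min_le_left _ _)
  have hμ2 : μ ≤ (ν / 2 - e0) / 3 := by rw [hμdef]; exact (min_le_left _ _).trans (min_le_right _ _)
  have hμ3 : μ ≤ t0 := by rw [hμdef]; exact min_le_right _ _
  obtain ⟨c₁, hc₁, H1⟩ := hX1 μ hμ
  obtain ⟨c₂, hc₂, H2⟩ := hX2 ν κ μ hκ hμ
  obtain ⟨c, hcdef⟩ : ∃ c : ℝ, c = min c₁ c₂ := ⟨_, rfl⟩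
  have hc : 0 < c := by rw [hcdef]; exact lt_min hc₁ hc₂
  have hcc₁ : c ≤ c₁ := by rw [hcdef]; exact min_le_left _ _
  have hcc₂ : c ≤ c₂ := by rw [hcdef]; exact min_le_right _ _
  obtain ⟨δ, hδdef⟩ : ∃ δ : ℝ, δ = min (c / 6) (acc / 24) := ⟨_, rfl⟩
  have hδ : 0 < δ := by rw [hδdef]; exact lt_min (by positivity) (by positivity)
  have hδ1 : δ ≤ c / 6 := by rw [hδdef]; exact min_le_left _ _
  have hδ2 : δ ≤ acc / 24 := by rw [hδdef]; exact min_le_right _ _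
  refine ⟨δ, hδ, fun B Kc hB => ?_⟩
  obtain ⟨ε₁, hε₁, H1'⟩ := H1 B hB
  obtain ⟨ε₂, hε₂, H2'⟩ := H2 B hB
  obtain ⟨ε₃, hε₃, -, H3⟩ := hrate B hB δ hδ
  obtain ⟨ε₄, hε₄, -, H4⟩ := pcx_div_lg_le (3 / 2 * Real.log (pcxMenu μ B.Hmax).card) hδ
  refine ⟨min (min ε₁ ε₂) (min ε₃ ε₄), lt_min (lt_min hε₁ hε₂) (lt_min hε₃ hε₄), ?_⟩
  intro E T hε hE hT htt hdef hgap
  have l1 : E.ε < ε₁ := lt_of_lt_of_le hε ((min_le_left _ _).trans (min_le_left _ _))
  have l2 : E.ε < ε₂ := lt_of_lt_of_le hε ((min_le_left _ _).trans (min_le_right _ _))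
  have l3 : E.ε < ε₃ := lt_of_lt_of_le hε ((min_le_right _ _).trans (min_le_left _ _))
  have l4 : E.ε < ε₄ := lt_of_lt_of_le hε ((min_le_right _ _).trans (min_le_right _ _))
  -- the branches
  have hob : ∀ o, (T.withLaw (T.P.cfib (pcxBin μ T) o)).Obeys B E := fun o =>
    pcx_obeys_withLaw hT _ (pcx_sub_cfib T _ o)
  have hsupp : ∀ o, T.P.p o ≠ 0 → ∀ o', 0 < (T.withLaw (T.P.cfib (pcxBin μ T) o)).P.p o' →
      pcxBin μ T o' = pcxBin μ T o ∧ 0 < T.P.p o' := fun o ho o' ho' => by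
    have := pcx_cfib_supp T.P (pcxBin μ T) ho (ne_of_gt ho')
    exact ⟨this.1, lt_of_le_of_ne (T.P.nonneg o') (Ne.symm this.2)⟩
  obtain ⟨o, ho, hgood, hsel⟩ := pcx_select γ β B.M E T hE.ε0 hE.ε1 (pcxBin μ T) (pcxMenu μ B.Hmax)
    (fun o ho => pcx_bin_mem hB hE hT hμ o (lt_of_le_of_ne (T.P.nonneg o) (Ne.symm ho)))
    (fun o => (((pcxBin μ T o).2 : ℝ) + 1) * μ ≤ E.u T.t - μ ∨ E.u 0 - ν + μ ≤ ((pcxBin μ T o).1 : ℝ) * μ)
    c δ δ δ hc hδ.le
    (fun o _ => by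
      have := H3 E _ l3 hE (hob o)
      unfold pcxDef
      linarith)
    (fun o ho hb => by
      rcases hb with hb | hb
      · refine hcc₁.trans (H1' E _ l1 hE (hob o) (by show μ ≤ T.t; rw [htt]; exact hμ3) ?_)
        intro o' ho'
        obtain ⟨e1, -⟩ := hsupp o ho o' ho'
        have e2 : ⌊(T.geo (T.D o')).a / μ⌋ = (pcxBin μ T o).2 := congrArg Prod.snd e1
        have e3 := (pcx_floor_bounds (x := (T.geo (T.D o')).a) hμ).2
        rw [e2] at e3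
        show (T.geo (T.D o')).a ≤ E.u T.t - μ
        linarith
      · refine hcc₂.trans (H2' E _ l2 hE (hob o) hgap ?_)
        intro o' ho'
        obtain ⟨e1, -⟩ := hsupp o ho o' ho'
        have e2 : ⌊(T.geo (T.D o')).b / μ⌋ = (pcxBin μ T o).1 := congrArg Prod.fst e1
        have e3 := (pcx_floor_bounds (x := (T.geo (T.D o')).b) hμ).1
        rw [e2] at e3
        show E.u 0 - ν + μ ≤ (T.geo (T.D o')).b
        linarith)
    hdef (H4 E.ε hE.ε0 l4) (by linarith)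
  push Not at hgood
  obtain ⟨hga, hgb⟩ := hgood
  refine ⟨T.withLaw (T.P.cfib (pcxBin μ T) o), htt, hE, hob o, ?_, ?_, Or.inl rfl⟩
  · have : pcxDef γ β B.M E (T.withLaw (T.P.cfib (pcxBin μ T) o)) ≤ acc := by linarith
    exact this
  · refine ⟨((pcxBin μ T o).1 : ℝ) * μ, ((pcxBin μ T o).2 : ℝ) * μ, ?_, ?_, ?_, ?_⟩
    · intro o' ho'
      obtain ⟨e1, -⟩ := hsupp o ho o' ho'
      have e2 : ⌊(T.geo (T.D o')).b / μ⌋ = (pcxBin μ T o).1 := congrArg Prod.fst e1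
      have e3 : ⌊(T.geo (T.D o')).a / μ⌋ = (pcxBin μ T o).2 := congrArg Prod.snd e1
      have f2 := pcx_floor_bounds (x := (T.geo (T.D o')).b) hμ
      have f3 := pcx_floor_bounds (x := (T.geo (T.D o')).a) hμ
      rw [e2] at f2
      rw [e3] at f3
      constructor
      · show |(T.geo (T.D o')).b - ((pcxBin μ T o).1 : ℝ) * μ| ≤ acc
        rw [abs_le]
        constructor <;> linarith [f2.1, f2.2]
      · show |(T.geo (T.D o')).a - ((pcxBin μ T o).2 : ℝ) * μ| ≤ acc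
        rw [abs_le]
        constructor <;> linarith [f3.1, f3.2]
    · show E.u T.t - acc ≤ _
      linarith
    · intro _
      have hu : E.u T.t = E.u 0 - T.t / 2 := by
        unfold PEnv.u
        ring
      rw [hu, htt] at hga
      linarith
    · intro hf
      exact absurd hf (by simp)

end Claimed.Agent.R255
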