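-- KEEP
import Claimed.Agent.R255.Comp.Select

/-!
# Row 255 (BR paper), P10.4: THE FIRST BACKWARD CUT      (architect helper95; prefix `pcx_`)

GLUE on `cut_main` (P10.1), `pcx_floor_sat` (floor), `ct_ret_score` (10.10), `ct_iso_score`, (X1), (X3).   Cut `t → r`, `b_* = 0`, no tags (`τ = Unit`).
* `pcx_cut_setup`  the frozen data of the cut for the floor part of a test.
* `pcx_back_ret`   a test of small deficit at time `t` gives a test of small deficit at time `r` (retained uniform classes, assigned caps).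
* `pcx_back_iso`   if (X1), (X3): the same with EXACT isotropic boundary apertures `b = a = u_r`.
QUANTIFIERS: `∀ δ ∃ ϑ` (package free) `∀ B ∃ B' ε₀`.
-/

set_option autoImplicit false

namespace Claimed.Agent.R255

open scoped BigOperators
open Classical
open FLaw Pkt

/-- `0 ≤ u_t`, `0 ≤ L - t` -/
theorem pcx_ut_nonneg {B : PBd} {E : PEnv} {T : PTest} (hT : T.Obeys B E) : 0 ≤ E.u T.t ∧ 0 ≤ E.L - T.t := by
  obtain ⟨o, ho⟩ := ct_exists_supp T.P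
  obtain ⟨g0, g1, g2, g3, -⟩ := hT.geo o ho
  exact ⟨g0.trans (g1.trans g3), g0.trans (g1.trans g2)⟩

/-- the frozen data of the cut for the floor part -/
theorem pcx_cut_setup {γ : ℝ} {B : PBd} {p : Atoms.Par} {ξ : ℝ} {S0 : ℕ} {A0 : ℝ} {E : PEnv} {T : PTest} {r : ℝ}
    (hE : E.Obeys B) (hT : T.Obeys B E) (hr0 : 0 ≤ r) (hrt : r ≤ T.t)
    (HA : ∃ (At : Atoms) (Cl : Classes At), At.Good E B T.t r 0 p ∧ Cl.Good γ E r 0 ξ S0)
    (hpr : 0 < T.P.pr (pcxFl A0 E T)) :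
    ∃ (At : Atoms) (Cl : Classes At) (win : T.ι → ℕ × Unit),
      CutOK γ E B (T.withLaw (T.P.cnd (pcxFl A0 E T))) r 0 p ξ S0 A0 At Cl (fun _ => ()) win := by
  obtain ⟨At, Cl, hAt, hCl⟩ := HA
  obtain ⟨win, hwin⟩ := ct_win_exists E T.t r 0 ξ S0 Cl hCl (fun _ => ()) T.site
  have hsub : pcxSub T (T.P.cnd (pcxFl A0 E T)) := pcx_sub_cnd T T.P (pcx_sub_self T) _
  refine ⟨At, Cl, win, hE, pcx_obeys_withLaw hT _ hsub, pcx_nrm2_pos hE hT, hr0, hrt, le_rfl, hAt, hCl, hwin, ?_, ?_⟩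
  · intro o ho
    exact ((ent_cnd_supp T.P _ hpr).1 (ne_of_gt ho)).1
  · intro o ho
    exact (hT.geo o (hsub o (ne_of_gt ho))).1

/-- the deficit of the retained earlier test:  `Δ_r^{ret} ≤ (3/2)(Δ_t + 5R) - 2R + ξ` -/
theorem pcx_ret_core {γ β : ℝ} {E : PEnv} {B : PBd} {T : PTest} {r bs : ℝ} {p : Atoms.Par} {ξ : ℝ} {S0 : ℕ} {A0 : ℝ}
    {At : Atoms} {Cl : Classes At} {τ : Type} {tag : At.𝔸 → τ} {win : T.ι → ℕ × τ} {S R : ℝ} {K : Classes.Lab τ → ℝ}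
    [Nonempty At.𝔸] (H : CutOK γ E B T r bs p ξ S0 A0 At Cl tag win) (hW : WinOK E r bs T Cl tag win S)
    (C : CompHyp (lg E.ε) T.P T.O T.D (ctJ E r bs T win) (ctLm E T) (Cl.LmW E r bs tag T win) (ctW γ T) bs
      (Cl.LA E) (Cl.LN E tag) (Cl.Lm E) Cl.gJ K (K0 γ B.M E) β r T.t R) :
    pcxDef γ β B.M E (At.earlierX r T (ctJ E r bs T win) (Cl.clsOf tag) Cl.acap)
      ≤ 3 / 2 * (pcxDef γ β B.M E T + 5 * R) - 2 * R + ξ := by
  have hs := ct_ret_score H hW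
  have hc := pc_comp_d1 C
  have hd0 := C.d0_nonneg
  have hd1 : 0 ≤ T.P.ev (fun o => pcd1 (Cl.LA E) (Cl.LN E tag) (ctJ E r bs T win o)) :=
    ent_ev_nonneg _ fun o ho => C.d1_nonneg o ho
  have e1 : K0 γ B.M E + β * T.t - pscore (lg E.ε) T.P T.O T.D (ctLm E T) (ctW γ T) = pcxDef γ β B.M E T := rfl
  rw [e1] at hc
  unfold pcd0 at hc hd0
  show K0 γ B.M E + β * r - score γ E _ ≤ _
  linarith

/-- **the first cut, retained classes and assigned caps** -/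
theorem pcx_back_ret (γ β : ℝ) (h0 : 0 < γ) (h1 : γ < 1) (hβ : 0 ≤ β) (hrate : PRate γ β) (t r : ℝ) (hr : 0 < r)
    (hrt : r < t) :
    ∀ δ : ℝ, 0 < δ → ∃ ϑ : ℝ, 0 < ϑ ∧ ∀ B : PBd, B.Good → ∃ (B' : PBd) (ε₀ : ℝ), B'.Good ∧ B'.M = B.M ∧ 0 < ε₀ ∧
      ∀ (E : PEnv) (T : PTest), E.ε < ε₀ → E.Obeys B → T.Obeys B E → T.t = t → pcxDef γ β B.M E T ≤ ϑ →
        ∃ T' : PTest, T'.t = r ∧ E.Obeys B' ∧ T'.Obeys B' E ∧ pcxDef γ β B.M E T' ≤ δ := by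
  intro δ hδ
  obtain ⟨ϑ, hϑdef⟩ : ∃ ϑ : ℝ, ϑ = min (δ / 12) (1 / 4) := ⟨_, rfl⟩
  have hϑ : 0 < ϑ := by rw [hϑdef]; exact lt_min (by positivity) (by norm_num)
  have hϑ1 : ϑ ≤ δ / 12 := by rw [hϑdef]; exact min_le_left _ _
  have hϑ2 : ϑ ≤ 1 / 4 := by rw [hϑdef]; exact min_le_right _ _
  refine ⟨ϑ, hϑ, fun B hB => ?_⟩
  obtain ⟨R, hRdef⟩ : ∃ R : ℝ, R = δ / 20 := ⟨_, rfl⟩
  have hR : 0 < R := by rw [hRdef]; positivity
  obtain ⟨A0, εF, -, hεF, HF⟩ := pcx_floor_sat γ β h0 h1 hβ hrate B hB R hR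
  obtain ⟨c, εC, hεC, -, hξR, -, hBat, hBatM, HA, HB, HC⟩ :=
    cut_main γ β h0 h1 hrate B hB (t - r) r R A0 (by linarith) hr hR 1
  refine ⟨c.Bat, min εF εC, hBat, hBatM, lt_min hεF hεC, ?_⟩
  intro E T hε hE hT htt hdef
  have lF : E.ε < εF := lt_of_lt_of_le hε (min_le_left _ _)
  have lC : E.ε < εC := lt_of_lt_of_le hε (min_le_right _ _)
  obtain ⟨hpr, hΔ1⟩ := HF E T lF hE hT (hdef.trans hϑ2)
  obtain ⟨hu, hL⟩ := pcx_ut_nonneg hT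
  obtain ⟨At, Cl, win, H1⟩ := pcx_cut_setup (γ := γ) (p := c.p) (ξ := c.ξ) (S0 := c.S0) (A0 := A0) (r := r) hE hT hr.le
    (by rw [htt]; exact hrt.le)
    (HA E hE lC (pcx_nrm2_pos hE hT) T.t r 0 hr.le (by rw [htt]; linarith) le_rfl hu hL) (by linarith)
  obtain ⟨hW1, C1⟩ := HB E (T.withLaw (T.P.cnd (pcxFl A0 E T))) r 0 At Cl Unit (fun _ => ()) win lC (by simp) H1
    (by show r + (t - r) ≤ T.t; rw [htt]; linarith) (Or.inr le_rfl)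
  obtain ⟨o₁, ho₁⟩ := ct_exists_supp (T.withLaw (T.P.cnd (pcxFl A0 E T))).P
  have hne : Nonempty At.𝔸 := ⟨(ct_cls_nonempty H1 hW1 o₁ ho₁.ne').choose⟩
  obtain ⟨hEB, hTB⟩ := HC E (T.withLaw (T.P.cnd (pcxFl A0 E T))) r 0 At Cl Unit (fun _ => ()) win hne _ _ H1 le_rfl
    (ct_early_acap H1 hW1).2
  refine ⟨_, rfl, hEB, hTB, (pcx_ret_core H1 hW1 C1).trans ?_⟩
  linarith

/-! ## the isotropic alternative -/

theorem pcx_inrect_zero (ε b a th : ℝ) (hε : 0 < ε) : InRect 1 ε b a th 0 := by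
  unfold InRect ip
  simp only [Prod.fst_zero, Prod.snd_zero, zero_mul, add_zero, abs_zero, one_mul]
  exact ⟨(Real.rpow_pos_of_pos hε _).le, (Real.rpow_pos_of_pos hε _).le⟩

/-- the exact isotropic boundary apertures are admissible if the horizon allows them -/
theorem pcx_early_iso {γ : ℝ} {E : PEnv} {B : PBd} {T : PTest} {r bs : ℝ} {p : Atoms.Par} {ξ : ℝ} {S0 : ℕ} {A0 : ℝ}
    {At : Atoms} {Cl : Classes At} {τ : Type} {tag : At.𝔸 → τ} {win : T.ι → ℕ × τ} {S : ℝ}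
    (H : CutOK γ E B T r bs p ξ S0 A0 At Cl tag win) (hW : WinOK E r bs T Cl tag win S) (hur : 0 ≤ E.u r)
    (hL : E.u r ≤ E.L - r) : EarlyOK E r T At Cl (ctJ E r bs T win) (Cl.clsOf tag) (At.isoAp E r) := by
  refine ⟨fun o ho => ct_cls_nonempty H hW o ho.ne', fun _ _ => ct_cls_sub Cl tag _, fun _ _ A _ => ?_⟩
  refine ⟨hur, le_rfl, hL, le_rfl, rfl, ?_, ?_⟩
  · show InRect 1 E.ε _ _ _ (toP (At.asite A).V - toP (At.asite A).V)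
    rw [sub_self]
    exact pcx_inrect_zero _ _ _ _ H.obE.ε0
  · show InRect 1 E.ε _ _ _ (toP (At.asite A).X - toP (At.asite A).X)
    rw [sub_self]
    exact pcx_inrect_zero _ _ _ _ H.obE.ε0

/-- the deficit of the isotropic earlier test:  `Δ_r^{iso} ≤ Δ_t + 3R + ζ/2`  if `g ≤ 2 u_r + ζ` on the support -/
theorem pcx_iso_core {γ β : ℝ} {E : PEnv} {B : PBd} {T : PTest} {r : ℝ} {p : Atoms.Par} {ξ : ℝ} {S0 : ℕ} {A0 : ℝ}
    {At : Atoms} {Cl : Classes At} {τ : Type} {tag : At.𝔸 → τ} {win : T.ι → ℕ × τ} {S R ζ : ℝ} {K : Classes.Lab τ → ℝ}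
    [Nonempty At.𝔸] (H : CutOK γ E B T r 0 p ξ S0 A0 At Cl tag win) (hW : WinOK E r 0 T Cl tag win S)
    (C : CompHyp (lg E.ε) T.P T.O T.D (ctJ E r 0 T win) (ctLm E T) (Cl.LmW E r 0 tag T win) (ctW γ T) 0
      (Cl.LA E) (Cl.LN E tag) (Cl.Lm E) Cl.gJ K (K0 γ B.M E) β r T.t R)
    (hg : ∀ o, T.P.p o ≠ 0 → Cl.gJ (ctJ E r 0 T win o) ≤ 2 * E.u r + ζ) :
    pcxDef γ β B.M E (At.earlierX r T (ctJ E r 0 T win) (Cl.clsOf tag) (At.isoAp E r))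
      ≤ pcxDef γ β B.M E T + 3 * R + ζ / 2 := by
  have hs := ct_iso_score H hW
  have he := pc_iso_eq (lg E.ε) T.P (ctJ E r 0 T win) (Cl.clsOf tag) Cl.clsAll (Cl.Lm E) Cl.gJ (E.u r)
  have hc := pc_comp_d1 C
  have e1 : K0 γ B.M E + β * T.t - pscore (lg E.ε) T.P T.O T.D (ctLm E T) (ctW γ T) = pcxDef γ β B.M E T := rfl
  rw [e1] at hc
  have hz : T.P.ev (fun o => Cl.gJ (ctJ E r 0 T win o) - 2 * E.u r) ≤ ζ := by
    rw [← ent_ev_const T.P ζ]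
    exact ent_ev_mono T.P fun o ho => by linarith [hg o ho]
  have e2 : T.P.ent (ctJ E r 0 T win) / lg E.ε
      + T.P.ev (fun o => Cl.LN E tag (ctJ E r 0 T win o) + 3 / 2 * Cl.Lm E (ctJ E r 0 T win o)) + E.u r
      = pcKstar (lg E.ε) T.P (ctJ E r 0 T win) 0 (Cl.LA E) (Cl.Lm E) Cl.gJ
        - T.P.ev (fun o => pcd1 (Cl.LA E) (Cl.LN E tag) (ctJ E r 0 T win o))
        - 1 / 2 * T.P.ev (fun o => Cl.gJ (ctJ E r 0 T win o) - 2 * E.u r) := he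
  rw [e2] at hs
  unfold pcd0 at hc
  show K0 γ B.M E + β * r - score γ E _ ≤ _
  linarith

/-- the event `g(J) < 2 u_r + ζ` has probability `≥ 1/2` -/
theorem pcx_iso_good {γ β : ℝ} {E : PEnv} {B : PBd} {T : PTest} {r : ℝ} {p : Atoms.Par} {ξ : ℝ} {S0 : ℕ} {A0 : ℝ}
    {At : Atoms} {Cl : Classes At} {τ : Type} {tag : At.𝔸 → τ} {win : T.ι → ℕ × τ} {R ζ c₃ : ℝ} {Mloc : ℕ}
    (H : CutOK γ E B T r 0 p ξ S0 A0 At Cl tag win)
    (C : CompHyp (lg E.ε) T.P T.O T.D (ctJ E r 0 T win) (ctLm E T) (Cl.LmW E r 0 tag T win) (ctW γ T) 0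
      (Cl.LA E) (Cl.LN E tag) (Cl.Lm E) Cl.gJ (fun j => K0 γ Mloc (Cl.envJ E r 0 tag j)) (K0 γ B.M E) β r T.t R)
    (hR : 0 ≤ R) (hc₃ : 0 < c₃) (hsm : 2 * (pcxDef γ β B.M E T + 5 * R) ≤ c₃)
    (hX : ∀ o, 0 < T.P.p o →
      Cl.AJ E tag (ctJ E r 0 T win o) - K0 γ Mloc (Cl.envJ E r 0 tag (ctJ E r 0 T win o)) ≤ c₃ →
      K0 γ Mloc (Cl.envJ E r 0 tag (ctJ E r 0 T win o)) + β * (T.t - r)
        - score γ (Cl.envJ E r 0 tag (ctJ E r 0 T win o)) (ctTestJ E r 0 T win (ctJ E r 0 T win o)) ≤ c₃ →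
      Cl.gJ (ctJ E r 0 T win o) < 2 * (E.u r - 0) + ζ) :
    1 / 2 ≤ T.P.pr (fun o => Cl.gJ (ctJ E r 0 T win o) < 2 * E.u r + ζ) := by
  have hm := pc_comp_markov C hc₃
  have e1 : K0 γ B.M E + β * T.t - pscore (lg E.ε) T.P T.O T.D (ctLm E T) (ctW γ T) = pcxDef γ β B.M E T := rfl
  rw [e1] at hm
  have h2 : (pcxDef γ β B.M E T + 5 * R) / c₃ ≤ 1 / 2 := by
    rw [div_le_iff₀ hc₃]
    linarith
  have h3 : T.P.pr (fun o => ¬ Cl.gJ (ctJ E r 0 T win o) < 2 * E.u r + ζ)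
      ≤ T.P.pr (fun o => c₃ ≤ pcd1 (Cl.LA E) (Cl.LN E tag) (ctJ E r 0 T win o)
        + pcd2 (Cl.LN E tag) (Cl.Lm E) Cl.gJ (fun j => K0 γ Mloc (Cl.envJ E r 0 tag j)) R (ctJ E r 0 T win o)
        + pcd3 (lg E.ε) T.P T.O T.D (ctJ E r 0 T win) (Cl.LmW E r 0 tag T win) (ctW γ T) 0
          (fun j => K0 γ Mloc (Cl.envJ E r 0 tag j)) β r T.t R o) := by
    refine ent_pr_mono T.P fun o ho hng => ?_
    by_contra hlt
    push Not at hlt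
    have a1 := C.d1_nonneg o ho
    have a2 := C.d2_nonneg o ho
    have a3 := C.d3_nonneg o ho
    apply hng
    have hx := hX o (ct_pos_of_ne _ ho) ?_ ?_
    · rw [sub_zero] at hx
      exact hx
    · rw [ct_AJ_eq]
      unfold pcd2 at a2 hlt
      linarith
    · rw [ct_PJ_eq γ E H.obE.ε0 r 0 T Cl tag win o ho]
      unfold pcd3 at a3 hlt
      linarith
  rw [ent_pr_not] at h3
  linarith

/-- restriction to an event of probability `≥ 1/2` at most doubles the (shifted) deficit -/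
theorem pcx_restrict_half (γ β : ℝ) (M : ℕ) (E : PEnv) (T : PTest) (hε0 : 0 < E.ε) (hε1 : E.ε < 1) (G : T.Ω → Prop)
    (hG : 1 / 2 ≤ T.P.pr G) (ω₀ e X : ℝ) (hω : 0 ≤ ω₀)
    (hcompl : -ω₀ ≤ pcxDef γ β M E (T.withLaw (T.P.cnd fun o => ¬ G o)))
    (he : 3 / 2 * Real.log 2 / lg E.ε ≤ e) (hX : pcxDef γ β M E T + e + ω₀ ≤ X) (hX0 : 0 ≤ X) :
    pcxDef γ β M E (T.withLaw (T.P.cnd G)) ≤ 2 * X := by
  have hl : 0 < lg E.ε := p9_lg_pos hε0 hε1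
  have h := pc_restrict hl T.P T.O T.D (ctLm E T) (ctW γ T) G (𝒦 := K0 γ M E + β * T.t) (ω₀ := ω₀) (fun _ => by
    have : -ω₀ ≤ (K0 γ M E + β * T.t) - pscore (lg E.ε) (T.P.cnd fun o => ¬ G o) T.O T.D (ctLm E T) (ctW γ T) :=
      hcompl
    linarith)
  have e1 : (K0 γ M E + β * T.t) - pscore (lg E.ε) (T.P.cnd G) T.O T.D (ctLm E T) (ctW γ T)
      = pcxDef γ β M E (T.withLaw (T.P.cnd G)) := rfl
  have e2 : (K0 γ M E + β * T.t) - pscore (lg E.ε) T.P T.O T.D (ctLm E T) (ctW γ T) = pcxDef γ β M E T := rfl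
  rw [e1, e2] at h
  have hp1 := ent_pr_le_one T.P G
  have h4 : (1 - T.P.pr G) * ω₀ ≤ ω₀ := by nlinarith
  by_cases hD : pcxDef γ β M E (T.withLaw (T.P.cnd G)) ≤ 0
  · linarith
  · push Not at hD
    have h5 : 1 / 2 * pcxDef γ β M E (T.withLaw (T.P.cnd G)) ≤ T.P.pr G * pcxDef γ β M E (T.withLaw (T.P.cnd G)) :=
      mul_le_mul_of_nonneg_right hG hD.le
    linarith

end Claimed.Agent.R255
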