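-- KEEP
import Claimed.Agent.R255.Comp.Back

/-!
# Row 255 (BR paper), P10.4 (2): THE FIRST BACKWARD CUT, ISOTROPIC ALTERNATIVE      (architect helper95; prefix `pcx_`)

`pcx_back_iso` : GLUE on `Comp/Back.lean`, `cut_main`, (X1) (horizon `u_r ≤ L - r`), (X3) (no cap excess on a `J`-measurable event of probability `≥ 1/2`; composition is re-applied to the restricted law with the data frozen).
-/

set_option autoImplicit false

namespace Claimed.Agent.R255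

open scoped BigOperators
open Classical
open FLaw Pkt

/-- **the first cut, exact isotropic boundary apertures** -/
theorem pcx_back_iso (γ β : ℝ) (h0 : 0 < γ) (h1 : γ < 1) (hβ : 0 ≤ β) (hrate : PRate γ β) (hX1 : PcxSlack γ β)
    (hX3 : PcxUnforced γ β) (t r : ℝ) (hr : 0 < r) (hrt : r < t) :
    ∀ δ : ℝ, 0 < δ → ∃ ϑ : ℝ, 0 < ϑ ∧ ∀ B : PBd, B.Good → ∃ (B' : PBd) (ε₀ : ℝ), B'.Good ∧ B'.M = B.M ∧ 0 < ε₀ ∧
      ∀ (E : PEnv) (T : PTest), E.ε < ε₀ → E.Obeys B → T.Obeys B E → T.t = t → pcxDef γ β B.M E T ≤ ϑ →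
        ∃ T' : PTest, T'.t = r ∧ E.Obeys B' ∧ T'.Obeys B' E ∧ pcxDef γ β B.M E T' ≤ δ ∧
          ∀ o, 0 < T'.P.p o → (T'.geo (T'.D o)).b = E.u r ∧ (T'.geo (T'.D o)).a = E.u r := by
  intro δ hδ
  have hd : 0 < t - r := by linarith
  obtain ⟨c₁, hc₁, H1⟩ := hX1 ((t - r) / 2) (by positivity)
  obtain ⟨c₃, hc₃, H3⟩ := hX3 δ (t - r) hδ hd
  obtain ⟨s, hsdef⟩ : ∃ s : ℝ, s = min (c₃ / 16) (δ / 26) := ⟨_, rfl⟩
  have hs : 0 < s := by rw [hsdef]; exact lt_min (by positivity) (by positivity)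
  have hs1 : s ≤ c₃ / 16 := by rw [hsdef]; exact min_le_left _ _
  have hs2 : s ≤ δ / 26 := by rw [hsdef]; exact min_le_right _ _
  obtain ⟨ϑ, hϑdef⟩ : ∃ ϑ : ℝ, ϑ = min (min s (c₁ / 2)) (1 / 4) := ⟨_, rfl⟩
  have hϑ : 0 < ϑ := by rw [hϑdef]; exact lt_min (lt_min hs (by positivity)) (by norm_num)
  have hϑ1 : ϑ ≤ s := by rw [hϑdef]; exact (min_le_left _ _).trans (min_le_left _ _)
  have hϑ2 : ϑ ≤ c₁ / 2 := by rw [hϑdef]; exact (min_le_left _ _).trans (min_le_right _ _)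
  have hϑ3 : ϑ ≤ 1 / 4 := by rw [hϑdef]; exact min_le_right _ _
  refine ⟨ϑ, hϑ, fun B hB => ?_⟩
  obtain ⟨A0, εF, -, hεF, HF⟩ := pcx_floor_sat γ β h0 h1 hβ hrate B hB s hs
  obtain ⟨c, εC, hεC, hξ0, hξR, hM, hBat, hBatM, HA, HB, HC⟩ :=
    cut_main γ β h0 h1 hrate B hB (t - r) r s A0 hd hr hs 1
  obtain ⟨ε₁, hε₁, H1'⟩ := H1 B hB
  obtain ⟨ε₃, hε₃, H3'⟩ := H3 B c.p c.ξ c.S0 A0 c.Mloc hB hξ0 (by linarith) hM
  obtain ⟨ε₄, hε₄, -, H4⟩ := hrate B hB s hs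
  obtain ⟨ε₅, hε₅, -, H5⟩ := pcx_div_lg_le (3 / 2 * Real.log 2) hs
  refine ⟨c.Bat, min (min εF εC) (min (min ε₁ ε₃) (min ε₄ ε₅)), hBat, hBatM,
    lt_min (lt_min hεF hεC) (lt_min (lt_min hε₁ hε₃) (lt_min hε₄ hε₅)), ?_⟩
  intro E T hε hE hT htt hdef
  have lF : E.ε < εF := lt_of_lt_of_le hε ((min_le_left _ _).trans (min_le_left _ _))
  have lC : E.ε < εC := lt_of_lt_of_le hε ((min_le_left _ _).trans (min_le_right _ _))
  have l1 : E.ε < ε₁ := lt_of_lt_of_le hε ((min_le_right _ _).trans ((min_le_left _ _).trans (min_le_left _ _)))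
  have l3 : E.ε < ε₃ := lt_of_lt_of_le hε ((min_le_right _ _).trans ((min_le_left _ _).trans (min_le_right _ _)))
  have l4 : E.ε < ε₄ := lt_of_lt_of_le hε ((min_le_right _ _).trans ((min_le_right _ _).trans (min_le_left _ _)))
  have l5 : E.ε < ε₅ := lt_of_lt_of_le hε ((min_le_right _ _).trans ((min_le_right _ _).trans (min_le_right _ _)))
  obtain ⟨hpr, hΔ1⟩ := HF E T lF hE hT (hdef.trans hϑ3)
  obtain ⟨hu, hL⟩ := pcx_ut_nonneg hT
  -- the horizon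
  have hur : E.u r = E.u T.t + (t - r) / 2 := by
    unfold PEnv.u
    rw [htt]
    ring
  have hur0 : 0 ≤ E.u r := by rw [hur]; linarith
  have hhor : E.u r ≤ E.L - r := by
    by_contra hcon
    push Not at hcon
    have := H1' E T l1 hE hT (by rw [htt]; linarith) (fun o ho => by
      have hg := (hT.geo o ho).2.2.1
      rw [htt] at hg
      linarith)
    have h2 : K0 γ B.M E + β * T.t - score γ E T ≤ ϑ := hdef
    linarith
  -- the cut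
  obtain ⟨At, Cl, win, K1⟩ := pcx_cut_setup (γ := γ) (p := c.p) (ξ := c.ξ) (S0 := c.S0) (A0 := A0) (r := r) hE hT hr.le
    (by rw [htt]; exact hrt.le)
    (HA E hE lC (pcx_nrm2_pos hE hT) T.t r 0 hr.le (by rw [htt]; linarith) le_rfl hu hL) (by linarith)
  obtain ⟨hW1, C1⟩ := HB E (T.withLaw (T.P.cnd (pcxFl A0 E T))) r 0 At Cl Unit (fun _ => ()) win lC (by simp) K1
    (by show r + (t - r) ≤ T.t; rw [htt]; linarith) (Or.inr le_rfl)
  -- the good event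
  have hgood := pcx_iso_good (ζ := δ) (c₃ := c₃) K1 C1 hs.le hc₃ (by linarith) (fun o ho a1 a2 =>
    H3' E (T.withLaw (T.P.cnd (pcxFl A0 E T))) r 0 _ At Cl Unit (fun _ => ()) win l3 K1 hW1
      (by show T.t = r + (t - r); rw [htt]; ring) o ho a1 (by
        have e : (T.withLaw (T.P.cnd (pcxFl A0 E T))).t - r = t - r := by show T.t - r = t - r; rw [htt]
        rw [e] at a2
        exact a2))
  -- the restricted law
  have hsub1 : pcxSub T (T.P.cnd (pcxFl A0 E T)) := pcx_sub_cnd T T.P (pcx_sub_self T) _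
  have hΔ2 := pcx_restrict_half γ β B.M E (T.withLaw (T.P.cnd (pcxFl A0 E T))) hE.ε0 hE.ε1 _ hgood s s (5 * s) hs.le
    (by
      have := H4 E ((T.withLaw (T.P.cnd (pcxFl A0 E T))).withLaw ((T.withLaw (T.P.cnd (pcxFl A0 E T))).P.cnd fun o =>
        ¬ Cl.gJ (ctJ E r 0 (T.withLaw (T.P.cnd (pcxFl A0 E T))) win o) < 2 * E.u r + δ)) l4 hE
        (pcx_obeys_withLaw K1.obT _ (pcx_sub_cnd _ _ (pcx_sub_self _) _))
      unfold pcxDef
      linarith)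
    (H5 E.ε hE.ε0 l5) (by linarith) (by positivity)
  have hpos : 0 < (T.withLaw (T.P.cnd (pcxFl A0 E T))).P.pr
      (fun o => Cl.gJ (ctJ E r 0 (T.withLaw (T.P.cnd (pcxFl A0 E T))) win o) < 2 * E.u r + δ) := by linarith
  have K2 := K1.withLaw ((T.withLaw (T.P.cnd (pcxFl A0 E T))).P.cnd
    (fun o => Cl.gJ (ctJ E r 0 (T.withLaw (T.P.cnd (pcxFl A0 E T))) win o) < 2 * E.u r + δ))
    (fun o ho => ct_pos_of_ne _ ((ent_cnd_supp _ _ hpos).1 (ne_of_gt ho)).2)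
  obtain ⟨hW2, C2⟩ := HB E ((T.withLaw (T.P.cnd (pcxFl A0 E T))).withLaw ((T.withLaw (T.P.cnd (pcxFl A0 E T))).P.cnd
    (fun o => Cl.gJ (ctJ E r 0 (T.withLaw (T.P.cnd (pcxFl A0 E T))) win o) < 2 * E.u r + δ))) r 0 At Cl Unit (fun _ => ()) win lC (by simp) K2
    (by show r + (t - r) ≤ T.t; rw [htt]; linarith) (Or.inr le_rfl)
  obtain ⟨o₁, ho₁⟩ := ct_exists_supp (T.withLaw (T.P.cnd (pcxFl A0 E T))).P
  have hne : Nonempty At.𝔸 := ⟨(ct_cls_nonempty K1 hW1 o₁ ho₁.ne').choose⟩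
  obtain ⟨hEB, hTB⟩ := HC E ((T.withLaw (T.P.cnd (pcxFl A0 E T))).withLaw ((T.withLaw (T.P.cnd (pcxFl A0 E T))).P.cnd
    (fun o => Cl.gJ (ctJ E r 0 (T.withLaw (T.P.cnd (pcxFl A0 E T))) win o) < 2 * E.u r + δ))) r 0 At Cl Unit (fun _ => ()) win hne _ _ K2 le_rfl (pcx_early_iso K2 hW2 hur0 hhor)
  refine ⟨_, rfl, hEB, hTB, (pcx_iso_core (ζ := δ) K2 hW2 C2 (fun o ho => ?_)).trans ?_, fun o _ => ⟨rfl, rfl⟩⟩
  · exact ((ent_cnd_supp _ _ hpos).1 ho).1.le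
  · linarith

end Claimed.Agent.R255
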