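-- KEEP
import Claimed.Agent.R255.Comp.CutMain
import Claimed.Agent.R255.Comp.Floor

/-!
# Row 255 (BR paper), Sec. 10: THE FORCED ROOT GAP EXCLUDES LARGE SMALLER WIDTHS (P10.4 (1), first paragraph of the proof) = (X2)      (architect helper242; prefix `pcf_`)

* `pcf_root_norm` : WIDTH-PRESERVING root normalisation.   A generalised root test all of whose smaller widths are `≥ w` has score `≤ y + C/ℓ` as soon as `K0geLe γ M E w y`
  (same three reductions as `p9_root_norm`: scaling of amplitudes, refinement of the labels by `gshift` (same widths!), colouring).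
* `pcf_forced`    : `PRate γ β`, package `B`, gap `κ`, accuracy `e` : for `ε < ε₀`, every test obeying `B` all of whose smaller widths are `≥ w`, on an environment with
  `K0geLe γ B.M E w (K₀ - κ)`, has `score ≤ K₀ - κ + β t + e`   (so its deficit is `≥ κ - e`).   NO inward margin is needed: the assigned caps of the cut `r = 0`, `b_* = max w 0` have widths `≥ b_*`.
  PROOF: floor split (`pcx_floor`, `pcx_floor_upper`);  on the floor part cut to `r = 0` with trivial tags: `score ≤ K_0^* + β t + 3R` (`CompHyp.split/.loc/.root/.sub`),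
  `K_0^* - ξ ≤ score (whole-class earlier test)` (`ct_whole_score`), which is a generalised root test (`ct_earlier_rootG`) with widths `≥ b_*` (`Classes.Good.capbs`).
-/

set_option autoImplicit false

namespace Claimed.Agent.R255.Pkt

open MeasureTheory Claimed.Agent.R255.Osc Claimed.Agent.R255.FLaw
open scoped BigOperators
open Classical

/-- **width-preserving ROOT-NORMALISE** -/
theorem pcf_root_norm (γ : ℝ) (M : ℕ) (Bb : ℕ → ℝ) (Mu : ℕ) (Ke : ℝ) (hKe : 0 ≤ Ke) :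
    ∃ C : ℝ, 0 ≤ C ∧ ∀ (E : PEnv) (T : PTest) (w y : ℝ), 0 < E.ε → E.ε < 1 → T.IsRootG Bb Mu Ke E →
      (∀ o, 0 < T.P.p o → w ≤ (T.geo (T.D o)).b) → K0geLe γ M E w y → score γ E T ≤ y + C / lg E.ε := by
  set c : ℝ := 1 + ∑ j ∈ Finset.range (M + 1), |Bb j| with hc
  have hsum : 0 ≤ ∑ j ∈ Finset.range (M + 1), |Bb j| := Finset.sum_nonneg fun _ _ => abs_nonneg _
  have hc1 : 1 ≤ c := by linarith
  have hc0 : 0 < c := by linarith
  have hcB : ∀ j, j ≤ M → Bb j ≤ c := by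
    intro j hj
    have h1 : |Bb j| ≤ ∑ j ∈ Finset.range (M + 1), |Bb j| :=
      Finset.single_le_sum (f := fun j => |Bb j|) (fun _ _ => abs_nonneg _)
        (Finset.mem_range.2 (Nat.lt_succ_of_le hj))
    have h2 := le_abs_self (Bb j)
    linarith
  have hn1 : (1 : ℝ) ≤ (Ke + 3) ^ 4 := one_le_pow₀ (by linarith)
  refine ⟨3 * Real.log c + Real.log ((Ke + 3) ^ 4) / 2 + 3 / 2 * Real.log (Mu : ℝ), ?_, ?_⟩
  · have a := Real.log_nonneg hc1
    have b := Real.log_nonneg hn1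
    have d := Real.log_natCast_nonneg Mu
    positivity
  intro E T w y h0 h1 hT hw hK
  have hl := p9_lg_pos h0 h1
  have hρ : 0 < E.rho 0 := Real.rpow_pos_of_pos h0 _
  have hpp : ∀ o, T.P.p o ≠ 0 → 0 < T.P.p o := fun o h => lt_of_le_of_ne (T.P.nonneg o) (Ne.symm h)
  -- 1. scaling
  have hmpos : ∀ o, 0 < T.P.p o → 0 < E.m T.t (T.site (T.O o)) := by
    intro o ho; rw [hT.t0]; exact hT.mpos o ho
  have s1 := p9_scale_score γ E T c hc0 h0 h1 hmpos
  -- 2. refinement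
  have hgeo1 : ∀ o, 0 < T.P.p o → GeoOK (T.geo (T.D o)) Ke E.ε T.t E.L (E.u 0)
      ((T.site (T.O o)).scale c⁻¹) := by
    intro o ho
    have h := hT.geo o ho
    have ht := hT.t0
    rw [ht]
    exact h
  have s2 := p9_refine_score γ E (T.scaleAmp c⁻¹) Ke E.L (E.u 0) hKe h0 h1 hgeo1
  -- 3. colouring
  obtain ⟨col, hcolM, hcol⟩ := p9_colour (ι := T.ι) T.act
    (fun i j => ‖(T.site i).V - (T.site j).V‖ < E.rho 0 ∧ ‖(T.site i).X - (T.site j).X‖ < E.rho 0)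
    (fun i j h => by rw [norm_sub_rev (T.site j).V, norm_sub_rev (T.site j).X]; exact h)
    (fun i => by simp [hρ]) Mu (fun i hi => by convert hT.mult i hi)
  let D₂ : T.Ω → T.Γ × (ℤ × ℤ × ℤ × ℤ) :=
    fun o => (T.D o, gidx (T.geo (T.D o)) E.ε T.t ((T.site (T.O o)).scale c⁻¹))
  let lm₂ : T.Ω → ℝ := fun o => Real.log (E.m T.t ((T.site (T.O o)).scale c⁻¹)) / lg E.ε
  let w₂ : T.Ω → ℝ := fun o => wt γ (gshift (T.geo (D₂ o).1) E.ε T.t (D₂ o).2)
  have e2 : score γ E ((T.scaleAmp c⁻¹).refine E.ε) = pscore (lg E.ε) T.P T.O D₂ lm₂ w₂ := rfl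
  let I : T.Ω → ℕ := fun o => col (T.O o)
  have s3 := pc_split_le hl T.P T.O D₂ lm₂ w₂ I
  have hentI : T.P.ent I ≤ Real.log (Mu : ℝ) := by
    have := ent_le_log_card T.P I (Finset.range Mu)
      (fun o ho => Finset.mem_range.2 (hcolM _ ⟨o, hpp o ho, rfl⟩))
    simpa using this
  have hcell : T.P.ev (fun o => pscore (lg E.ε) (T.P.cfib I o) T.O D₂ lm₂ w₂)
      ≤ T.P.ev (fun _ => y) := by
    apply ent_ev_mono
    intro o ho
    have hfib : 0 < T.P.pr (fun o' => I o' = I o) := ent_fib_pos T.P I ho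
    have hsupp : ∀ o', (T.P.cfib I o).p o' ≠ 0 → I o' = I o ∧ T.P.p o' ≠ 0 := fun o' h =>
      (ent_cnd_supp T.P (fun o' => I o' = I o) hfib).1 h
    have e : score γ E (((T.scaleAmp c⁻¹).refine E.ε).withLaw (T.P.cfib I o))
        = pscore (lg E.ε) (T.P.cfib I o) T.O D₂ lm₂ w₂ := rfl
    refine le_of_eq_of_le e.symm ?_
    refine hK _ ?_ ?_
    · have hact : ∀ i, (((T.scaleAmp c⁻¹).refine E.ε).withLaw (T.P.cfib I o)).act i →
          T.act i ∧ col i = col (T.O o) := by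
        rintro i ⟨o', ho', rfl⟩
        have := hsupp o' ho'.ne'
        exact ⟨⟨o', hpp o' this.2, rfl⟩, this.1⟩
      refine ⟨hT.t0, fun i hi => p9_scale_can M Bb c hc0 hcB _ (hT.amp i (hact i hi).1),
        fun i hi => hT.time i (hact i hi).1, ?_, ?_, ?_⟩
      · intro i j hi hj hij
        have hnot : ¬ (‖(T.site i).V - (T.site j).V‖ < E.rho 0 ∧ ‖(T.site i).X - (T.site j).X‖ < E.rho 0) :=
          fun hR => hcol i j (hact i hi).1 (hact j hj).1 hij hR ((hact i hi).2.trans (hact j hj).2.symm)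
        rw [not_and_or, not_lt, not_lt] at hnot
        exact hnot
      · intro o' ho'
        show 0 < E.m 0 ((T.site (T.O o')).scale c⁻¹)
        unfold PEnv.m
        rw [p9_mass_scale]
        have := hT.mpos o' (hpp o' (hsupp o' ho'.ne').2)
        unfold PEnv.m at this
        positivity
      · intro o' ho'
        have hg := hgeo1 o' (hpp o' (hsupp o' ho'.ne').2)
        have hg' := p9_refine_geo _ _ _ _ _ _ _ h0 hg
        show GeoOK (gshift (T.geo (T.D o')) E.ε T.t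
            (gidx (T.geo (T.D o')) E.ε T.t ((T.site (T.O o')).scale c⁻¹))) 1 E.ε 0 E.L (E.u 0)
          ((T.site (T.O o')).scale c⁻¹)
        have ht := hT.t0
        rw [ht] at hg' ⊢
        exact hg'
    · intro o' ho'
      exact hw o' (hpp o' (hsupp o' ho'.ne').2)
  rw [ent_ev_const] at hcell
  have s3' : score γ E ((T.scaleAmp c⁻¹).refine E.ε) ≤ y + 3 / 2 * Real.log (Mu : ℝ) / lg E.ε := by
    have e1 : 3 / 2 * T.P.ent I / lg E.ε ≤ 3 / 2 * Real.log (Mu : ℝ) / lg E.ε := by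
      apply div_le_div_of_nonneg_right _ hl.le
      linarith
    rw [e2]
    linarith
  have e3 : (3 * Real.log c + Real.log ((Ke + 3) ^ 4) / 2 + 3 / 2 * Real.log (Mu : ℝ)) / lg E.ε
      = 3 * Real.log c / lg E.ε + Real.log ((Ke + 3) ^ 4) / (2 * lg E.ε)
        + 3 / 2 * Real.log (Mu : ℝ) / lg E.ε := by
    field_simp
  rw [e3]
  linarith

/-- the chain `score ≤ K_r^* + β (t - r) + 3R` contained in `CompHyp` -/
theorem pcf_comp_upper {Ω α β' 𝒥 : Type} [Fintype Ω] {l : ℝ} {P : FLaw Ω} {O : Ω → α} {D : Ω → β'} {J : Ω → 𝒥}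
    {lm lmW w : Ω → ℝ} {bs : ℝ} {LA LN Lm g K : 𝒥 → ℝ} {K0 b r t R : ℝ}
    (H : CompHyp l P O D J lm lmW w bs LA LN Lm g K K0 b r t R) :
    pscore l P O D lm w ≤ pcKstar l P J bs LA Lm g + b * (t - r) + 3 * R := by
  have h1 : P.ev (pcPJ l P O D J lmW w bs) ≤ P.ev (fun o => pcA LA Lm g (J o) + (b * (t - r) + 2 * R)) := by
    refine ent_ev_mono P fun o ho => ?_
    have a1 := H.loc o ho
    have a2 := H.root o ho
    have a3 := H.sub o ho
    unfold pcA at a2 ⊢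
    linarith
  rw [ent_ev_add, ent_ev_const] at h1
  have h2 := H.split
  unfold pcKstar
  linarith

/-- **(X2)** : a forced root gap excludes tests with smaller widths in the window -/
theorem pcf_forced (γ β : ℝ) (h0 : 0 < γ) (h1 : γ < 1) (hβ : 0 ≤ β) (hrate : PRate γ β) (κ : ℝ) (B : PBd)
    (hB : B.Good) (e : ℝ) (he : 0 < e) :
    ∃ ε₀ : ℝ, 0 < ε₀ ∧ ∀ (E : PEnv) (T : PTest) (w : ℝ), E.ε < ε₀ → E.Obeys B → T.Obeys B E →
      (∀ o, 0 < T.P.p o → w ≤ (T.geo (T.D o)).b) → K0geLe γ B.M E w (K0 γ B.M E - κ) →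
      score γ E T ≤ K0 γ B.M E - κ + β * T.t + e := by
  obtain ⟨A0, εF, hA0, hεF, HF⟩ := pcx_floor γ h0 h1 B hB κ
  have hR : 0 < e / 16 := by positivity
  obtain ⟨c, εC, hεC, hξ0, hξR, -, -, -, HA, HB, -, hRa⟩ :=
    cut_main_x γ β h0 h1 hrate B hB B.tmin 1 (e / 16) A0 hB.tmin one_pos hR 1
  obtain ⟨MuG, HG⟩ := ct_earlier_rootG B hB c.p hRa
  obtain ⟨CG, hCG, HN⟩ := pcf_root_norm γ B.M c.p.Bb MuG 1 zero_le_one
  obtain ⟨ε1, hε1, H1⟩ := ct_small CG (e / 16) hR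
  obtain ⟨ε2, hε2, H2⟩ := ct_small (3 / 2 * Real.log 2) (e / 2) (by positivity)
  refine ⟨min (min εF εC) (min ε1 ε2), lt_min (lt_min hεF hεC) (lt_min hε1 hε2), ?_⟩
  intro E T w hε hE hT hw hK
  have lF : E.ε < εF := lt_of_lt_of_le hε ((min_le_left _ _).trans (min_le_left _ _))
  have lC : E.ε < εC := lt_of_lt_of_le hε ((min_le_left _ _).trans (min_le_right _ _))
  have l1 : E.ε < ε1 := lt_of_lt_of_le hε ((min_le_right _ _).trans (min_le_left _ _))
  have l2 : E.ε < ε2 := lt_of_lt_of_le hε ((min_le_right _ _).trans (min_le_right _ _))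
  have hl := p9_lg_pos hE.ε0 hE.ε1
  have ht : 0 < T.t := lt_of_lt_of_le hB.tmin hT.t0
  have hβt : 0 ≤ β * T.t := by positivity
  have hn : 0 < E.nrm2 := pcx_nrm2_pos hE hT
  have e2 := H2 E.ε hE.ε0 l2
  have key := pcx_floor_upper γ E T hE.ε0 hE.ε1 (pcxFl A0 E T) (K0 γ B.M E - κ + β * T.t + e / 2) ?_ ?_
  · linarith
  · -- the low-mass part
    intro hpos
    have := HF E T lF hE hT (T.P.cnd fun o => ¬ pcxFl A0 E T o) (pcx_sub_cnd T T.P (pcx_sub_self T) _)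
      (fun o ho => ((ent_cnd_supp T.P _ hpos).1 ho).1)
    linarith
  · -- the floor part
    intro hpos
    set Q : FLaw T.Ω := T.P.cnd (pcxFl A0 E T) with hQ
    have hsupp : ∀ o, 0 < Q.p o → pcxFl A0 E T o ∧ 0 < T.P.p o := fun o ho => by
      have := (ent_cnd_supp T.P _ hpos).1 ho.ne'
      exact ⟨this.1, ct_pos_of_ne _ this.2⟩
    have hT1 : (T.withLaw Q).Obeys B E := ct_obeys_withLaw hT Q fun o ho => (hsupp o ho).2
    set bs : ℝ := max w 0 with hbs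
    have hbsb : ∀ o, 0 < Q.p o → bs ≤ (T.geo (T.D o)).b := fun o ho =>
      max_le (hw o (hsupp o ho).2) (hT.geo o (hsupp o ho).2).1
    obtain ⟨o₀, ho₀⟩ := ct_exists_supp Q
    have hg₀ := hT.geo o₀ (hsupp o₀ ho₀).2
    have hb₀ := hbsb o₀ ho₀
    obtain ⟨At, Cl, hAt, hCl⟩ := HA E hE lC hn T.t 0 bs le_rfl (by linarith [hT.t0]) (le_max_right _ _)
      (by linarith [hg₀.2.1, hg₀.2.2.2.1]) (by linarith [hg₀.2.1, hg₀.2.2.1])
    obtain ⟨win, hwin⟩ := ct_win_exists E T.t 0 bs c.ξ c.S0 Cl hCl (fun _ => ()) T.site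
    have H : CutOK γ E B (T.withLaw Q) 0 bs c.p c.ξ c.S0 A0 At Cl (fun _ => ()) win :=
      ⟨hE, hT1, hn, le_rfl, ht.le, le_max_right _ _, hAt, hCl, hwin, fun o ho => (hsupp o ho).1, hbsb⟩
    obtain ⟨hW, hComp⟩ := HB E (T.withLaw Q) 0 bs At Cl Unit (fun _ => ()) win lC (by simp) H
      (by have := hT.t0; show (0 : ℝ) + B.tmin ≤ T.t; linarith) (Or.inl rfl)
    have : Nonempty At.𝔸 := ⟨(ct_cls_nonempty H hW o₀ ho₀.ne').choose⟩
    have hup := pcf_comp_upper hComp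
    rw [← ct_score_eq] at hup
    have hws := ct_whole_score H hW
    have hEO := (ct_early_acap H hW).1
    have hG := HG γ E (T.withLaw Q) bs c.ξ c.S0 A0 At Cl Unit (fun _ => ()) win inferInstance Cl.clsAll Cl.acap H hEO
    have hN := HN E _ w (K0 γ B.M E - κ) hE.ε0 hE.ε1 hG
      (fun x _ => (le_max_left w 0).trans (hCl.capbs x.2)) hK
    have e1 := H1 E.ε hE.ε0 l1
    have hcard : Real.log ((Fintype.card Unit : ℕ) : ℝ) = 0 := by simp
    rw [hcard] at hws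
    have ht' : (T.withLaw Q).t = T.t := rfl
    rw [ht'] at hup
    simp only [zero_div, mul_zero, add_zero, sub_zero] at hws hup
    linarith

/-! ## the same statements under the names announced by helper6 (both sets of names are valid) -/

/-- `pcf_root_norm` with another order of the hypotheses -/
theorem pcf_root_norm_ge (γ : ℝ) (M : ℕ) (Bb : ℕ → ℝ) (Mu : ℕ) (Ke : ℝ) (hKe : 0 ≤ Ke) :
    ∃ C : ℝ, 0 ≤ C ∧ ∀ (E : PEnv) (T : PTest) (w y : ℝ), 0 < E.ε → E.ε < 1 → K0geLe γ M E w y →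
      T.IsRootG Bb Mu Ke E → (∀ o, 0 < T.P.p o → w ≤ (T.geo (T.D o)).b) → score γ E T ≤ y + C / lg E.ε := by
  obtain ⟨C, hC, H⟩ := pcf_root_norm γ M Bb Mu Ke hKe
  exact ⟨C, hC, fun E T w y h0 h1 hK hT hw => H E T w y h0 h1 hT hw hK⟩

/-- `cut_main` + the clause: the earlier tests at `r = 0` are generalised root tests -/
theorem pcf_cut_main (γ β : ℝ) (h0 : 0 < γ) (h1 : γ < 1) (hrate : PRate γ β) (B : PBd) (hB : B.Good)
    (dmin rmin R A0 : ℝ) (hd : 0 < dmin) (hr : 0 < rmin) (hR : 0 < R) (Smax : ℕ) :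
    ∃ (c : CutPar) (MuG : ℕ) (ε₀ : ℝ), 0 < ε₀ ∧ 0 < c.ξ ∧ c.ξ ≤ R ∧ 10 ≤ c.Mloc ∧ c.Bat.Good ∧ c.Bat.M = B.M ∧
      (∀ E : PEnv, E.Obeys B → E.ε < ε₀ → 0 < E.nrm2 → ∀ t r bs : ℝ, 0 ≤ r → r + dmin ≤ t → 0 ≤ bs → bs ≤ E.u t →
        bs ≤ E.L - t → ∃ (At : Atoms) (Cl : Classes At), At.Good E B t r bs c.p ∧ Cl.Good γ E r bs c.ξ c.S0) ∧
      (∀ (E : PEnv) (T : PTest) (r bs : ℝ) (At : Atoms) (Cl : Classes At) (τ : Type) [Fintype τ] (tag : At.𝔸 → τ)
        (win : T.ι → ℕ × τ), E.ε < ε₀ → Fintype.card τ ≤ Smax →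
        CutOK γ E B T r bs c.p c.ξ c.S0 A0 At Cl tag win → r + dmin ≤ T.t → (r = 0 ∨ rmin ≤ r) →
        WinOK E r bs T Cl tag win ((c.S0 : ℝ) * (Fintype.card τ : ℝ)) ∧
        CompHyp (lg E.ε) T.P T.O T.D (ctJ E r bs T win) (ctLm E T) (Cl.LmW E r bs tag T win) (ctW γ T) bs
          (Cl.LA E) (Cl.LN E tag) (Cl.Lm E) Cl.gJ (fun j => K0 γ c.Mloc (Cl.envJ E r bs tag j)) (K0 γ B.M E)
          β r T.t R) ∧
      (∀ (E : PEnv) (T : PTest) (r bs : ℝ) (At : Atoms) (Cl : Classes At) (τ : Type) (tag : At.𝔸 → τ)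
        (win : T.ι → ℕ × τ) (_ : Nonempty At.𝔸) (cl : Classes.Lab τ → Finset At.𝔸) (ap : At.𝔸 → Geo),
        CutOK γ E B T r bs c.p c.ξ c.S0 A0 At Cl tag win → rmin ≤ r → EarlyOK E r T At Cl (ctJ E r bs T win) cl ap →
        E.Obeys c.Bat ∧ (At.earlierX r T (ctJ E r bs T win) cl ap).Obeys c.Bat E) ∧
      (∀ (E : PEnv) (T : PTest) (bs : ℝ) (At : Atoms) (Cl : Classes At) (τ : Type) (tag : At.𝔸 → τ)
        (win : T.ι → ℕ × τ) (_ : Nonempty At.𝔸) (cl : Classes.Lab τ → Finset At.𝔸) (ap : At.𝔸 → Geo),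
        CutOK γ E B T 0 bs c.p c.ξ c.S0 A0 At Cl tag win → EarlyOK E 0 T At Cl (ctJ E 0 bs T win) cl ap →
        (At.earlierX 0 T (ctJ E 0 bs T win) cl ap).IsRootG c.p.Bb MuG 1 E) := by
  obtain ⟨c, ε₀, a1, a2, a3, a4, a5, a6, HA, HB, HC, hRa⟩ :=
    cut_main_x γ β h0 h1 hrate B hB dmin rmin R A0 hd hr hR Smax
  obtain ⟨MuG, HG⟩ := ct_earlier_rootG B hB c.p hRa
  exact ⟨c, MuG, ε₀, a1, a2, a3, a4, a5, a6, HA, HB, HC,
    fun E T bs At Cl τ tag win hne cl ap H hEO => HG γ E T bs c.ξ c.S0 A0 At Cl τ tag win hne cl ap H hEO⟩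

end Claimed.Agent.R255.Pkt

namespace Claimed.Agent.R255

open scoped BigOperators
open Classical
open FLaw Pkt

/-- **(X2)** (P10.4 (1), TeX l.470-480): under the forced root gap `K_0^{≥ u_0 - ν} ≤ K_0 - κ`, a test all of whose shapes have `b ≥ u_0 - ν` has growth deficit at least `κ / 2`. -/
theorem pcx_forced (γ β : ℝ) (h0 : 0 < γ) (h1 : γ < 1) (hβ : 0 ≤ β) (hrate : PRate γ β) (ν κ : ℝ) (hκ : 0 < κ)
    (B : PBd) (hB : B.Good) :
    ∃ ε₀ : ℝ, 0 < ε₀ ∧ ∀ (E : PEnv) (T : PTest), E.ε < ε₀ → E.Obeys B → T.Obeys B E →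
      K0geLe γ B.M E (E.u 0 - ν) (K0 γ B.M E - κ) → (∀ o, 0 < T.P.p o → E.u 0 - ν ≤ (T.geo (T.D o)).b) →
      κ / 2 ≤ K0 γ B.M E + β * T.t - score γ E T := by
  obtain ⟨ε₀, hε₀, H⟩ := pcf_forced γ β h0 h1 hβ hrate κ B hB (κ / 2) (by positivity)
  refine ⟨ε₀, hε₀, fun E T hε hE hT hK hb => ?_⟩
  have := H E T (E.u 0 - ν) hε hE hT hb hK
  linarith

end Claimed.Agent.R255
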