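-- KEEP
import Claimed.Agent.R255.Comp.CutMain
import Claimed.Agent.R255.Pk.An

/-!
# Row 255 (BR paper), Sec. 10: NO FORCED ARRAY ⟹ THE CAP MAXIMUM IS ISOTROPIC, `g = 2 (u_r - b_*) + o(1)` (P10.4 (2), (10.14)-(10.16)) = (X3)      (architect helper242; prefix `pcu_`)

`v = u_r - b_*` = local root uncertainty depth `(envJ j).u 0`.
* `pcu_g_lower`     `2 v ≤ g(J)`                                       (a single atom fits the exact isotropic cap; needs `u_r ≤ L - r`)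
* `pcu_root_mass`   (AN) total and pointwise canonical masses of a root test of the local environment: `∑ m ≤ C N m(J) ε^{-ξ}`, `m_i ≤ C m(J) ε^{-ξ}`
* `pcu_root_count`  (geometry) a root aperture with smaller width `≥ v - α` contains at most `10⁴ ε^{-4α}` sites of a canonical root test
* `pcu_iso_root`    **(10.15)** : `K0geLe γ Mloc (envJ j) (v - α) (log N + (3/2) log m + v + 2α + e)`
* `pcu_unforced`    **(10.16)**, pointwise in `J` : if `¬ Forced γ β (ζ/(16 dmax)) (ζ/(4 dmax))` there is `ϑ > 0` INDEPENDENT OF THE PACKAGE such that every charged `J` with `g(J) ≥ 2v + ζ` has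
                    `A_J - K_J > ζ/16`  or  `K_J + β (t-r) - P_J > ϑ (t-r)`
* `pcu_excess`      hence `c₁ · P(g(J) ≥ 2v + ζ) ≤ Δ_t + 5R`, `c₁ = min (ζ/16) (ϑ dmin)`      (with `CompHyp`, Markov)
-/

set_option autoImplicit false

namespace Claimed.Agent.R255.Pkt

open MeasureTheory Claimed.Agent.R255.Osc Claimed.Agent.R255.FLaw
open scoped BigOperators
open Classical

variable {τ : Type}

/-! ## elementary facts -/

theorem pcu_not_forced {γ β ν κ : ℝ} (h : ¬ Forced γ β ν κ) :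
    ∃ ϑ : ℝ, 0 < ϑ ∧ ∀ B : PBd, B.Good → ∃ ε₀ : ℝ, 0 < ε₀ ∧ ∀ (E : PEnv) (T : PTest), E.ε < ε₀ →
      SatAt γ β B ϑ E T → ¬ K0geLe γ B.M E (E.u 0 - ν * T.t) (K0 γ B.M E - κ * T.t) := by
  unfold Forced at h
  push Not at h
  obtain ⟨ϑ, hϑ, H⟩ := h
  refine ⟨ϑ, hϑ, fun B hB => ?_⟩
  obtain ⟨ε₀, h0, H'⟩ := H B hB
  exact ⟨ε₀, h0, fun E T he hS => H' E T he hS⟩

theorem pcu_K0geLe_mono {γ : ℝ} {M : ℕ} {E : PEnv} {w w' y y' : ℝ} (h : K0geLe γ M E w y) (hw : w ≤ w')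
    (hy : y ≤ y') : K0geLe γ M E w' y' :=
  fun T hT hb => (h T hT fun o ho => hw.trans (hb o ho)).trans hy

/-- the local root uncertainty depth -/
theorem pcu_envJ_u (E : PEnv) (r bs : ℝ) {At : Atoms} (Cl : Classes At) (tag : At.𝔸 → τ) (j : Classes.Lab τ) :
    (Cl.envJ E r bs tag j).u 0 = E.u r - bs := by
  show (E.H - r - 2 * bs - 0) / 2 = (E.H - r) / 2 - bs
  ring

/-- **`g ≥ 2v`** : a single atom fits the exact isotropic cap of depth `u_r` -/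
theorem pcu_g_lower {γ : ℝ} {E : PEnv} {r bs ξ : ℝ} {S0 : ℕ} {At : Atoms} {Cl : Classes At} (hε : 0 < E.ε)
    (hε1 : E.ε < 1) (hC : Cl.Good γ E r bs ξ S0) (hbs : bs ≤ E.u r) (hL : E.u r ≤ E.L - r) (A : At.𝔸) :
    2 * (E.u r - bs) ≤ Cl.gB (At.loc A) (Cl.cls A) := by
  have h := hC.capcount (At.loc A) (Cl.cls A) (At.isoAp E r A) hbs le_rfl hL le_rfl
  have hmem : A ∈ Finset.univ.filter (fun T => At.loc T = At.loc A ∧ Cl.cls T = Cl.cls A ∧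
      InCap 1 E.ε r (At.isoAp E r A) (At.asite T)) := by
    refine Finset.mem_filter.2 ⟨Finset.mem_univ _, rfl, rfl, ?_, ?_⟩
    · show InRect 1 E.ε _ _ _ (toP (At.asite A).V - toP (At.asite A).V)
      rw [sub_self]
      constructor <;> simp [ip] <;> positivity
    · show InRect 1 E.ε _ _ _ (toP (At.asite A).X - toP (At.asite A).X)
      rw [sub_self]
      constructor <;> simp [ip] <;> positivity
  have h1 : (1 : ℝ) ≤ ((Finset.univ.filter (fun T => At.loc T = At.loc A ∧ Cl.cls T = Cl.cls A ∧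
      InCap 1 E.ε r (At.isoAp E r A) (At.asite T))).card : ℝ) := by
    exact_mod_cast Finset.card_pos.2 ⟨A, hmem⟩
  have h2 := h1.trans h
  rw [ct_iso_wt] at h2
  by_contra hcon
  push Not at hcon
  have h3 : E.ε ^ (-(Cl.gB (At.loc A) (Cl.cls A) - (2 * E.u r - 2 * bs))) < 1 :=
    Real.rpow_lt_one hε.le hε1 (by linarith)
  linarith

theorem pcu_sum_ite_le {α : Type} [Fintype α] (S : α → Prop) (f : α → ℝ) (A : ℝ) (h : ∀ a, S a → f a ≤ A) :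
    (∑ a, if S a then f a else 0) ≤ ((Finset.univ.filter S).card : ℝ) * A := by
  rw [← Finset.sum_filter, ← nsmul_eq_mul]
  exact Finset.sum_le_card_nsmul _ _ _ fun a ha => h a (Finset.mem_filter.1 ha).2

/-! ## LEAF `L-PCU-MASS` (~150 l., AN wrappers) : `pcu_root_mass`
Absolute coordinates: `an_mass_un` (`(envJ j).m 0 s = mass lam ρ_r Φ h_J (pkSiteUn s …)`), `an_root_un` (time `C_r`, `CanC Mloc`, `PkLoc … 1`).
(ii) `an_row` with `S = (lab = j)`, `A = mB ε^{-ξ}` (`massHi`; `lab T = j ⟹ loc T = j.1, cls T = j.2.1`), `CanC 3` from `CanC Mloc` (`3 ≤ Mloc`).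
(i) `pk_site_bessel` (`R = 100`, `b = 1`, multiplicity `1`, `(lam ρ_r)⁻¹ = σ_r` by `an_scales`) for the input `h_J` (`pk_sup_memLp`), then `pk_sup_nrm2`, then `massHi` and `∑_{lab = j} 1 = N`.
`r ≤ E.H` from `0 ≤ bs ≤ u_t`, `r ≤ t`. -/
theorem pcu_root_mass (B : PBd) (hB : B.Good) (p : Atoms.Par) : ∃ C : ℝ, 1 ≤ C ∧
    ∀ (γ : ℝ) (E : PEnv) (t r bs ξ : ℝ) (S0 : ℕ) (At : Atoms) (Cl : Classes At) (τ : Type) (tag : At.𝔸 → τ) (Mloc : ℕ),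
      3 ≤ Mloc → E.Obeys B → 0 ≤ r → r ≤ t → 0 ≤ bs → bs ≤ E.u t → At.Good E B t r bs p → Cl.Good γ E r bs ξ S0 →
      ∀ j : Classes.Lab τ, 0 < Cl.N tag j → 0 ≤ j.1.1 → j.1.Cr E.ε r < 1 → ∀ T : PTest, T.IsRoot Mloc (Cl.envJ E r bs tag j) →
        ∑ i ∈ Finset.univ.filter T.act, (Cl.envJ E r bs tag j).m 0 (T.site i)
            ≤ C * (Cl.N tag j : ℝ) * (Cl.mB j.1 j.2.1 * E.ε ^ (-ξ)) ∧
        ∀ i, T.act i → (Cl.envJ E r bs tag j).m 0 (T.site i) ≤ C * (Cl.mB j.1 j.2.1 * E.ε ^ (-ξ)) := by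
  obtain ⟨C1, hC1, H1⟩ := an_row B hB p.Ra p.Bb
  obtain ⟨C2, hC2, H2⟩ := pk_site_bessel B.K hB.a0 100 (fun _ => 1)
  obtain ⟨C3, hC3, H3⟩ := pk_sup_nrm2 B.K hB.a0 p.Ra p.Bb
  refine ⟨1 + C1 * (p.Mu : ℝ) ^ 2 + C2 * (C3 * p.Mu), by
    have : 0 ≤ C1 * (p.Mu : ℝ) ^ 2 + C2 * (C3 * p.Mu) := by positivity
    linarith, ?_⟩
  intro γ E t r bs ξ S0 At Cl τ tag Mloc hM hE hr hrt hbs hbt hG hC j hN hj0 hj1 T hT
  have hε := hE.ε0
  obtain ⟨s1, s2, s3, s4⟩ := an_scales E hE.ε0 hE.ε1 r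
  have hrH : r ≤ E.H := by
    have h1 : 0 ≤ (E.H - t) / 2 := hbs.trans hbt
    linarith
  obtain ⟨c, hc⟩ : ∃ c, c = j.1.Cr E.ε r := ⟨_, rfl⟩
  have hc0 : 0 ≤ j.1.Cr E.ε r := by
    unfold Loc0.Cr
    have h1 : (0 : ℝ) ≤ (j.1.1 : ℝ) := by exact_mod_cast hj0
    have h2 : 0 < E.ε ^ r := Real.rpow_pos_of_pos hε r
    positivity
  have hS : ∀ A : At.𝔸, Cl.lab tag A = j → At.loc A = j.1 := fun A hA => by rw [← hA]; rfl
  have hS2 : ∀ A : At.𝔸, Cl.lab tag A = j → Cl.cls A = j.2.1 := fun A hA => by rw [← hA]; rfl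
  have hcoef : ∀ A : At.𝔸, Cl.lab tag A = j → ‖At.coef E r A‖ ^ 2 ≤ Cl.mB j.1 j.2.1 * E.ε ^ (-ξ) := fun A hA => by
    have := hC.massHi A
    rwa [hS A hA, hS2 A hA] at this
  have hA0 : 0 ≤ Cl.mB j.1 j.2.1 * E.ε ^ (-ξ) := by
    obtain ⟨A, hA⟩ := Finset.card_pos.1 hN
    exact (sq_nonneg _).trans (hcoef A (Finset.mem_filter.1 hA).2)
  obtain ⟨A, hAdef⟩ : ∃ A, A = Cl.mB j.1 j.2.1 * E.ε ^ (-ξ) := ⟨_, rfl⟩
  rw [← hAdef] at hcoef hA0 ⊢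
  obtain ⟨hun1, hun2⟩ := an_root_un E hε r bs (j.1.Cr E.ε r) (j.1.VJ E.ε bs) (j.1.XJ E.ε r bs) (Cl.hJ E r tag j) Mloc T hT
  have hmass : ∀ s : Site, (Cl.envJ E r bs tag j).m 0 s = mass E.lam (E.rho r) E.Φ (Cl.hJ E r tag j)
      (pkSiteUn s E.ε r bs (j.1.Cr E.ε r) (j.1.VJ E.ε bs) (j.1.XJ E.ε r bs)) := fun s =>
    an_mass_un E hε r bs _ _ _ _ s
  have hcan : ∀ i, T.act i → CanC 3 (pkSiteUn (T.site i) E.ε r bs (j.1.Cr E.ε r) (j.1.VJ E.ε bs) (j.1.XJ E.ε r bs)).ψ :=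
    fun i hi => by
      have h1 := (hun1 i hi).2
      exact ⟨h1.smooth, h1.supp, fun k hk => h1.bound k (hk.trans hM)⟩
  have hNA : 0 ≤ (Cl.N tag j : ℝ) * A := by positivity
  constructor
  · simp only [hmass]
    have hmem : MemLp (Cl.hJ E r tag j) 2 volume :=
      pk_sup_memLp hE hG _ fun A' hA' => by rw [hG.time A', hS A' hA']; exact hc0
    have h1 := H2 E.Φ E.ζ hE.phase E.lam (E.rho r) (j.1.Cr E.ε r) s1 s2 (s4 hrH) hc0 hj1.le T.ι (Finset.univ.filter T.act)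
      (fun i => pkSiteUn (T.site i) E.ε r bs (j.1.Cr E.ε r) (j.1.VJ E.ε bs) (j.1.XJ E.ε r bs)) 1
      (fun i hi => (hun1 i (Finset.mem_filter.1 hi).2).1)
      (fun i hi => (pk_canC_iff _ _).1 (hcan i (Finset.mem_filter.1 hi).2))
      (by rw [s3]; exact hun2) (Cl.hJ E r tag j) hmem
    have h2 := H3 E B t r bs p At rfl rfl rfl hE hG hrH j.1 hc0 hj1.le (fun A' => Cl.lab tag A' = j) hS
    have h4 : ∫ v, ‖Cl.hJ E r tag j v‖ ^ 2 ≤ C3 * p.Mu * ((Cl.N tag j : ℝ) * A) := by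
      refine h2.trans (mul_le_mul_of_nonneg_left ?_ (by positivity))
      have h3 := pcu_sum_ite_le (fun A' : At.𝔸 => Cl.lab tag A' = j) (fun A' => ‖At.coef E r A'‖ ^ 2) A hcoef
      refine h3.trans (le_of_eq ?_)
      unfold Classes.N
      congr!
    have h5 : C2 * ((1 : ℕ) : ℝ) * ∫ v, ‖Cl.hJ E r tag j v‖ ^ 2 ≤ C2 * ((1 : ℕ) : ℝ) * (C3 * p.Mu * ((Cl.N tag j : ℝ) * A)) :=
      mul_le_mul_of_nonneg_left h4 (by positivity)
    refine h1.trans (h5.trans ?_)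
    have h6 : 0 ≤ (1 + C1 * (p.Mu : ℝ) ^ 2) * ((Cl.N tag j : ℝ) * A) := by positivity
    push_cast
    nlinarith
  · intro i hi
    rw [hmass]
    have h1 := H1 E t r bs p At rfl rfl hE hG hrH j.1 hc0 hj1.le (fun A' => Cl.lab tag A' = j) hS _ (hun1 i hi).1 (hcan i hi)
      A hA0 hcoef
    refine h1.trans ?_
    have h6 : 0 ≤ (1 + C2 * (C3 * p.Mu)) * A := by positivity
    nlinarith

/-! ## LEAF `L-PCU-COUNT` (~100 l., geometry) : `pcu_root_count`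
`p9_pack` (`Pk9/Classes.lean`) with `ρ = σ = E.rho 0 = ε^{u_0}`, `Mu = 1` (`IsRoot.sep`), `V₀ = !₂[g.vc.1, g.vc.2]`, `X₀` likewise, `R₁ = R₂ = 3 ε^{-α}`:
`InRect 1 ε b a th z`, `u_0 - α ≤ b ≤ a` give `|z.1|, |z.2| ≤ 2 ε^{u_0 - α}` (`ct_rect_coord`), hence `‖·‖ ≤ 3 ε^{-α} ρ`;  `(4·3 ε^{-α} + 2)^4 ≤ (14 ε^{-α})^4`. -/
/-- a point of a rotated rectangle with both half-sides `≤ w` has distance `≤ 3 w` from the centre -/
theorem pcu_rect_norm {ε b a th w : ℝ} (x : E2) (c : ℝ × ℝ) (h : InRect 1 ε b a th (toP x - c)) (h1 : 1 * ε ^ b ≤ w)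
    (h2 : 1 * ε ^ a ≤ w) (hw : 0 ≤ w) : ‖x - !₂[c.1, c.2]‖ ≤ 3 * w := by
  obtain ⟨e1, e2⟩ := ct_rect_coord h h1 h2
  have f1 : (toP x - c).1 = x 0 - c.1 := rfl
  have f2 : (toP x - c).2 = x 1 - c.2 := rfl
  rw [f1] at e1
  rw [f2] at e2
  rw [EuclideanSpace.norm_eq, Real.sqrt_le_iff]
  refine ⟨by positivity, ?_⟩
  rw [Fin.sum_univ_two]
  have g1 : (x - !₂[c.1, c.2]) 0 = x 0 - c.1 := by simp
  have g2 : (x - !₂[c.1, c.2]) 1 = x 1 - c.2 := by simp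
  rw [g1, g2, Real.norm_eq_abs, Real.norm_eq_abs, sq_abs, sq_abs]
  have k1 := sq_le_sq' (by linarith [(abs_le.1 e1).1]) (abs_le.1 e1).2
  have k2 := sq_le_sq' (by linarith [(abs_le.1 e2).1]) (abs_le.1 e2).2
  nlinarith [sq_nonneg w]

theorem pcu_root_count (E : PEnv) (hε : 0 < E.ε) (hε1 : E.ε < 1) (M : ℕ) (T : PTest) (hT : T.IsRoot M E) (g : Geo)
    (α : ℝ) (hα : 0 ≤ α) (hg : E.u 0 - α ≤ g.b) :
    ((Finset.univ.filter (fun i => T.act i ∧ GeoOK g 1 E.ε 0 E.L (E.u 0) (T.site i))).card : ℝ)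
      ≤ 14 ^ 4 * E.ε ^ (-(4 * α)) := by
  set s := Finset.univ.filter (fun i => T.act i ∧ GeoOK g 1 E.ε 0 E.L (E.u 0) (T.site i)) with hs
  set y : ℝ := E.ε ^ (-α) with hy
  have hy1 : 1 ≤ y := Real.one_le_rpow_of_pos_of_le_one_of_nonpos hε hε1.le (neg_nonpos.2 hα)
  have hρ : 0 < E.rho 0 := Real.rpow_pos_of_pos hε _
  have hw : E.ε ^ (E.u 0 - α) = y * E.rho 0 := by
    rw [hy, PEnv.rho, ← Real.rpow_add hε]
    congr 1
    ring
  have hw0 : 0 ≤ E.ε ^ (E.u 0 - α) := (Real.rpow_pos_of_pos hε _).le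
  have hmem : ∀ i ∈ s, T.act i ∧ GeoOK g 1 E.ε 0 E.L (E.u 0) (T.site i) := fun i hi => (Finset.mem_filter.1 hi).2
  have hle : ∀ c : ℝ, g.b ≤ c → 1 * E.ε ^ c ≤ E.ε ^ (E.u 0 - α) := fun c hc => by
    rw [one_mul]
    exact Real.rpow_le_rpow_of_exponent_ge hε hε1.le (hg.trans hc)
  have h := p9_pack s (fun i => (T.site i).V) (fun i => (T.site i).X) !₂[g.vc.1, g.vc.2] !₂[g.xc.1, g.xc.2]
    (E.rho 0) (E.rho 0) (3 * y) (3 * y) 1 hρ hρ (by positivity) (by positivity)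
    (fun i hi => by
      obtain ⟨-, -, hba, -, -, -, hV, -⟩ := hmem i hi
      have := pcu_rect_norm (T.site i).V g.vc hV (hle _ le_rfl) (hle _ hba) hw0
      rw [hw] at this
      linarith)
    (fun i hi => by
      obtain ⟨-, -, hba, -, -, -, -, hX⟩ := hmem i hi
      have := pcu_rect_norm (T.site i).X g.xc hX (hle _ (by linarith)) (hle _ (by linarith)) hw0
      rw [hw] at this
      linarith)
    (fun i hi => by
      refine Finset.card_le_one.2 fun j hj k hk => ?_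
      obtain ⟨hjs, hj1, hj2⟩ := Finset.mem_filter.1 hj
      obtain ⟨hks, hk1, hk2⟩ := Finset.mem_filter.1 hk
      have aux : ∀ l ∈ s, ‖(T.site l).V - (T.site i).V‖ < E.rho 0 → ‖(T.site l).X - (T.site i).X‖ < E.rho 0 → l = i := by
        intro l hl h1 h2
        by_contra hne
        rcases hT.sep l i (hmem l hl).1 (hmem i hi).1 hne with h3 | h3
        · exact absurd h1 (not_lt.2 h3)
        · exact absurd h2 (not_lt.2 h3)
      rw [aux j hjs hj1 hj2, aux k hks hk1 hk2])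
  refine h.trans ?_
  have hy4 : E.ε ^ (-(4 * α)) = y ^ 4 := by
    rw [hy, ← Real.rpow_natCast, ← Real.rpow_mul hε.le]
    congr 1
    push_cast
    ring
  rw [hy4]
  have h14 : 4 * (3 * y) + 2 ≤ 14 * y := by linarith
  have h0 : 0 ≤ 4 * (3 * y) + 2 := by positivity
  calc ((1 : ℕ) : ℝ) * ((4 * (3 * y) + 2) ^ 2 * (4 * (3 * y) + 2) ^ 2) = (4 * (3 * y) + 2) ^ 4 := by
        push_cast
        ring
    _ ≤ (14 * y) ^ 4 := pow_le_pow_left₀ h0 h14 4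
    _ = 14 ^ 4 * y ^ 4 := by ring

/-- `log ε^{-x} = x ℓ` -/
theorem pcu_log_rpow {ε : ℝ} (hε : 0 < ε) (x : ℝ) : Real.log (ε ^ (-x)) = x * lg ε := by
  unfold lg
  rw [Real.log_rpow hε, one_div, Real.log_inv]
  ring

/-- the abstract entropy count of (10.15), natural units -/
theorem pcu_iso_abs (γ : ℝ) (h0 : 0 < γ) (E' : PEnv) (hε : 0 < E'.ε) (hε1 : E'.ε < 1) (M : ℕ) (T : PTest) (hT : T.IsRoot M E')
    (C Nn mm ξ α : ℝ) (hC : 1 ≤ C) (hN : 0 < Nn) (hmm : 0 < mm) (hα : 0 ≤ α)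
    (hsum : ∑ i ∈ Finset.univ.filter T.act, E'.m 0 (T.site i) ≤ C * Nn * (mm * E'.ε ^ (-ξ)))
    (hpt : ∀ i, T.act i → E'.m 0 (T.site i) ≤ C * (mm * E'.ε ^ (-ξ)))
    (hb : ∀ o, 0 < T.P.p o → E'.u 0 - α ≤ (T.geo (T.D o)).b) :
    score γ E' T ≤ Real.log Nn / lg E'.ε + 3 / 2 * (Real.log mm / lg E'.ε) + E'.u 0 + 2 * α + 3 / 2 * ξ
      + (3 / 2 * Real.log C + 2 * Real.log 14) / lg E'.ε := by
  have hl := p9_lg_pos hε hε1
  have hC0 : 0 < C := lt_of_lt_of_le one_pos hC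
  have hx : 0 < E'.ε ^ (-ξ) := Real.rpow_pos_of_pos hε _
  have hact : ∀ ω, T.P.p ω ≠ 0 → T.act (T.O ω) := fun ω h => ⟨ω, ct_pos_of_ne _ h, rfl⟩
  have hmpos : ∀ ω, T.P.p ω ≠ 0 → 0 < E'.m 0 (T.site (T.O ω)) := fun ω h => hT.mpos ω (ct_pos_of_ne _ h)
  have hmnn : ∀ i, 0 ≤ E'.m 0 (T.site i) := fun i => by
    unfold PEnv.m mass
    positivity
  -- (a)
  have ha := p9_logsum T.P T.O (fun i => E'.m 0 (T.site i)) (Finset.univ.filter T.act)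
    (fun ω h => Finset.mem_filter.2 ⟨Finset.mem_univ _, hact ω h⟩) (fun i _ => hmnn i) hmpos
  obtain ⟨ω₀, hω₀⟩ := ent_exists_supp T.P
  have hsum0 : 0 < ∑ i ∈ Finset.univ.filter T.act, E'.m 0 (T.site i) :=
    lt_of_lt_of_le (hmpos ω₀ hω₀) (Finset.single_le_sum (f := fun i => E'.m 0 (T.site i)) (fun i _ => hmnn i)
      (Finset.mem_filter.2 ⟨Finset.mem_univ _, hact ω₀ hω₀⟩))
  have ha2 : Real.log (∑ i ∈ Finset.univ.filter T.act, E'.m 0 (T.site i))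
      ≤ Real.log C + Real.log Nn + Real.log mm + ξ * lg E'.ε := by
    refine (Real.log_le_log hsum0 hsum).trans (le_of_eq ?_)
    rw [Real.log_mul (by positivity) (by positivity), Real.log_mul hC0.ne' hN.ne', Real.log_mul hmm.ne' hx.ne',
      pcu_log_rpow hε]
    ring
  -- (b)
  have hb1 : T.P.ev (fun ω => Real.log (E'.m 0 (T.site (T.O ω)))) ≤ Real.log C + Real.log mm + ξ * lg E'.ε := by
    have h1 : T.P.ev (fun ω => Real.log (E'.m 0 (T.site (T.O ω)))) ≤ T.P.ev (fun _ => Real.log C + Real.log mm + ξ * lg E'.ε) := by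
      refine ent_ev_mono T.P fun ω h => ?_
      refine (Real.log_le_log (hmpos ω h) (hpt _ (hact ω h))).trans (le_of_eq ?_)
      rw [Real.log_mul hC0.ne' (by positivity), Real.log_mul hmm.ne' hx.ne', pcu_log_rpow hε]
      ring
    rwa [ent_ev_const] at h1
  -- (c)
  have hmemS : ∀ ω, T.P.p ω ≠ 0 → T.O ω ∈ Finset.univ.filter (fun i => T.act i ∧
      GeoOK (T.geo (T.D ω)) 1 E'.ε 0 E'.L (E'.u 0) (T.site i)) := fun ω h =>
    Finset.mem_filter.2 ⟨Finset.mem_univ _, hact ω h, hT.geo ω (ct_pos_of_ne _ h)⟩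
  have hc := p9_entC_le_card T.P T.O T.D
    (fun d => Finset.univ.filter (fun i => T.act i ∧ GeoOK (T.geo d) 1 E'.ε 0 E'.L (E'.u 0) (T.site i))) hmemS
  have hc2 : T.P.entC T.O T.D ≤ 4 * Real.log 14 + 4 * α * lg E'.ε := by
    refine hc.trans ?_
    have h1 : T.P.ev (fun ω => Real.log ((Finset.univ.filter (fun i => T.act i ∧
        GeoOK (T.geo (T.D ω)) 1 E'.ε 0 E'.L (E'.u 0) (T.site i))).card : ℝ)) ≤ T.P.ev (fun _ => 4 * Real.log 14 + 4 * α * lg E'.ε) := by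
      refine ent_ev_mono T.P fun ω h => ?_
      have h2 := pcu_root_count E' hε hε1 M T hT (T.geo (T.D ω)) α hα (hb ω (ct_pos_of_ne _ h))
      have h3 : (0 : ℝ) < ((Finset.univ.filter (fun i => T.act i ∧
          GeoOK (T.geo (T.D ω)) 1 E'.ε 0 E'.L (E'.u 0) (T.site i))).card : ℝ) := by
        have h4 := Finset.card_pos.2 ⟨T.O ω, hmemS ω h⟩
        exact_mod_cast h4
      refine (Real.log_le_log h3 h2).trans (le_of_eq ?_)
      rw [Real.log_mul (by positivity) (Real.rpow_pos_of_pos hε _).ne', pcu_log_rpow hε, Real.log_pow]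
      push_cast
      ring
    rwa [ent_ev_const] at h1
  -- (d)
  have hd : T.P.ev (fun o => wt γ (T.geo (T.D o))) ≤ 2 * E'.u 0 := by
    have h1 : T.P.ev (fun o => wt γ (T.geo (T.D o))) ≤ T.P.ev (fun _ => 2 * E'.u 0) := by
      refine ent_ev_mono T.P fun ω h => ?_
      obtain ⟨-, g2, -, g4, -⟩ := hT.geo ω (ct_pos_of_ne _ h)
      unfold wt
      nlinarith
    rwa [ent_ev_const] at h1
  -- assembly
  unfold score
  rw [hT.t0]
  have e1 : T.P.ev (fun o => Real.log (E'.m 0 (T.site (T.O o))) / lg E'.ε)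
      = T.P.ev (fun o => Real.log (E'.m 0 (T.site (T.O o)))) / lg E'.ε := by
    simp only [div_eq_inv_mul]
    rw [ent_ev_mul_left]
  rw [e1]
  obtain ⟨Lv, hLv⟩ : ∃ Lv, Lv = T.P.ev (fun o => Real.log (E'.m 0 (T.site (T.O o)))) := ⟨_, rfl⟩
  rw [← hLv] at ha hb1 ⊢
  have key : (T.P.ent T.O + T.P.entC T.O T.D / 2) + 3 / 2 * Lv
      ≤ Real.log Nn + 3 / 2 * Real.log mm + (2 * α + 3 / 2 * ξ) * lg E'.ε + (3 / 2 * Real.log C + 2 * Real.log 14) := by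
    linarith
  have key2 := div_le_div_of_nonneg_right key hl.le
  have e2 : ((T.P.ent T.O + T.P.entC T.O T.D / 2) + 3 / 2 * Lv) / lg E'.ε
      = (T.P.ent T.O + T.P.entC T.O T.D / 2) / lg E'.ε + 3 / 2 * (Lv / lg E'.ε) := by ring
  have e3 : (Real.log Nn + 3 / 2 * Real.log mm + (2 * α + 3 / 2 * ξ) * lg E'.ε + (3 / 2 * Real.log C + 2 * Real.log 14)) / lg E'.ε
      = Real.log Nn / lg E'.ε + 3 / 2 * (Real.log mm / lg E'.ε) + (2 * α + 3 / 2 * ξ)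
        + (3 / 2 * Real.log C + 2 * Real.log 14) / lg E'.ε := by
    field_simp
  rw [e2, e3] at key2
  linarith

/-! ## LEAF `L-PCU-ISO` (~150 l., finite entropy) : `pcu_iso_root`
`T` a root test of `E' = envJ j` with `v - α ≤ b` on the support, `m i = E'.m 0 (T.site i)`, `ℓ = lg ε`, `C` from `pcu_root_mass`:
`H(O) + E log m_O ≤ log ∑ m ≤ log (C N mB ε^{-ξ})` (`p9_logsum`);  `E log m_O ≤ log (C mB ε^{-ξ})`;  `H(O|D) ≤ E log #SD(D) ≤ log (14⁴ ε^{-4α})` (`p9_entC_le_card`, `pcu_root_count`);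
`wt γ g ≤ 2 a ≤ 2 v`.   Sum: `score ≤ LN + (3/2) Lm + (3/2) ξ + 2α + v + ((3/2) log C + 2 log 14)/ℓ`;  `ε₀` by `ct_small`. -/
theorem pcu_iso_root (γ : ℝ) (h0 : 0 < γ) (h1 : γ < 1) (B : PBd) (hB : B.Good) (p : Atoms.Par) (e : ℝ) (he : 0 < e) :
    ∃ ε₀ : ℝ, 0 < ε₀ ∧ ∀ (E : PEnv) (t r bs ξ : ℝ) (S0 : ℕ) (At : Atoms) (Cl : Classes At) (τ : Type) (tag : At.𝔸 → τ)
      (Mloc : ℕ), 3 ≤ Mloc → E.Obeys B → E.ε < ε₀ → 0 < E.nrm2 → 0 ≤ r → r ≤ t → 0 ≤ bs → bs ≤ E.u t → 0 < ξ → ξ ≤ e / 4 →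
      At.Good E B t r bs p → Cl.Good γ E r bs ξ S0 →
      ∀ j : Classes.Lab τ, 0 < Cl.N tag j → 0 ≤ j.1.1 → j.1.Cr E.ε r < 1 → ∀ α : ℝ, 0 ≤ α →
        K0geLe γ Mloc (Cl.envJ E r bs tag j) (E.u r - bs - α)
          (Cl.LN E tag j + 3 / 2 * Cl.Lm E j + (E.u r - bs) + 2 * α + e) := by
  obtain ⟨C, hC, HM⟩ := pcu_root_mass B hB p
  obtain ⟨ε₀, hε₀, Hs⟩ := ct_small (3 / 2 * Real.log C + 2 * Real.log 14) (e / 2) (by positivity)
  refine ⟨ε₀, hε₀, ?_⟩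
  intro E t r bs ξ S0 At Cl τ tag Mloc hM hE hε hn hr hrt hbs hbu hξ0 hξ hA hCl j hN hj0 hj1 α hα T hT hb
  obtain ⟨hsum, hpt⟩ := HM γ E t r bs ξ S0 At Cl τ tag Mloc hM hE hr hrt hbs hbu hA hCl j hN hj0 hj1 T hT
  -- the mass bin is positive
  obtain ⟨A, hAj⟩ := Finset.card_pos.1 hN
  have hlab : Cl.lab tag A = j := (Finset.mem_filter.1 hAj).2
  have hmB : 0 < Cl.mB j.1 j.2.1 := by
    have h := ct_mB_pos hE.ε0 hn hA hCl A
    rw [← hlab]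
    exact h
  have hu := pcu_envJ_u E r bs Cl tag j
  have key := pcu_iso_abs γ h0 (Cl.envJ E r bs tag j) hE.ε0 hE.ε1 Mloc T hT C (Cl.N tag j : ℝ) (Cl.mB j.1 j.2.1) ξ α hC
    (by exact_mod_cast hN) hmB hα hsum hpt (fun o ho => by rw [hu]; exact hb o ho)
  rw [hu] at key
  have hs := Hs E.ε hE.ε0 hε
  have e1 : Cl.LN E tag j = Real.log (Cl.N tag j : ℝ) / lg E.ε := rfl
  have e2 : Cl.Lm E j = Real.log (Cl.mB j.1 j.2.1) / lg E.ε := rfl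
  have e3 : (Cl.envJ E r bs tag j).ε = E.ε := rfl
  rw [e3] at key
  rw [e1, e2]
  linarith

/-! ## the glue -/

/-- **(10.16)**, pointwise in the localizer -/
theorem pcu_unforced (γ β : ℝ) (h0 : 0 < γ) (h1 : γ < 1) (ζ dmax : ℝ) (hζ : 0 < ζ) (hdm : 0 < dmax)
    (hNF : ¬ Forced γ β (ζ / (16 * dmax)) (ζ / (4 * dmax))) :
    ∃ ϑ : ℝ, 0 < ϑ ∧ ∀ B : PBd, B.Good → ∀ (p : Atoms.Par) (dmin : ℝ), 0 < dmin → ∀ Mloc : ℕ, 10 ≤ Mloc →
      ∃ ε₀ : ℝ, 0 < ε₀ ∧ ∀ (E : PEnv) (T : PTest) (r bs ξ : ℝ) (S0 : ℕ) (A0 : ℝ) (At : Atoms) (Cl : Classes At)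
        (τ : Type) (tag : At.𝔸 → τ) (win : T.ι → ℕ × τ) (S : ℝ), E.ε < ε₀ →
        CutOK γ E B T r bs p ξ S0 A0 At Cl tag win → WinOK E r bs T Cl tag win S → r + dmin ≤ T.t →
        T.t - r ≤ dmax → 0 < ξ → ξ ≤ ζ / 64 →
        ∀ o, 0 < T.P.p o → 2 * (E.u r - bs) + ζ ≤ Cl.gJ (ctJ E r bs T win o) →
          ζ / 16 < pcA (Cl.LN E tag) (Cl.Lm E) Cl.gJ (ctJ E r bs T win o)
              - K0 γ Mloc (Cl.envJ E r bs tag (ctJ E r bs T win o)) ∨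
          ϑ * (T.t - r) < K0 γ Mloc (Cl.envJ E r bs tag (ctJ E r bs T win o)) + β * (T.t - r)
              - pcPJ (lg E.ε) T.P T.O T.D (ctJ E r bs T win) (Cl.LmW E r bs tag T win) (ctW γ T) bs o := by
  obtain ⟨ϑ, hϑ, HN⟩ := pcu_not_forced hNF
  refine ⟨ϑ, hϑ, fun B hB p dmin hd Mloc hM => ?_⟩
  obtain ⟨ε1, hε1, H1⟩ := HN (ctBloc B p dmin Mloc) (ct_bloc_good B hB p dmin hd Mloc hM)
  obtain ⟨ε2, hε2, H2⟩ := pcu_iso_root γ h0 h1 B hB p (ζ / 16) (by positivity)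
  refine ⟨min ε1 ε2, lt_min hε1 hε2, ?_⟩
  intro E T r bs ξ S0 A0 At Cl τ tag win S hε H hW hrt hdmax hξ0 hξ o ho hg
  by_contra hcon
  push Not at hcon
  obtain ⟨c1, c2⟩ := hcon
  set j := ctJ E r bs T win o with hj
  have hdpos : 0 < T.t - r := by linarith
  have hsat : SatAt γ β (ctBloc B p dmin Mloc) ϑ (Cl.envJ E r bs tag j) (ctTestJ E r bs T win j) := by
    refine ⟨ct_loc_env H dmin hd hrt Mloc o ho, ct_loc_test H hW dmin hrt Mloc o ho, ?_⟩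
    rw [ct_testJ_t, hj, ct_PJ_eq γ E H.obE.ε0 r bs T Cl tag win o ho.ne']
    exact c2
  refine H1 _ _ (by rw [ct_envJ_eps]; exact lt_of_lt_of_le hε (min_le_left _ _)) hsat ?_
  have hact : T.act (T.O o) := ⟨o, ho, rfl⟩
  have htime := H.obT.time _ hact
  obtain ⟨t1, t2⟩ := ct_Cr_bounds E.ε r bs H.obE.ε0 (T.site (T.O o)) htime.1 htime.2
  obtain ⟨hbu, -⟩ := ct_bs_le H
  have hν : 0 ≤ ζ / (16 * dmax) * (T.t - r) := by positivity
  have hiso := H2 E T.t r bs ξ S0 At Cl τ tag Mloc (by omega) H.obE (lt_of_lt_of_le hε (min_le_right _ _)) H.nrm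
    H.r0 H.rt H.bs0 hbu hξ0 (by linarith) H.goodA H.goodC j (ct_N_pos H hW o ho) t1 t2
    (ζ / (16 * dmax) * (T.t - r)) hν
  rw [ct_testJ_t, pcu_envJ_u]
  refine pcu_K0geLe_mono hiso le_rfl ?_
  have b1 : ζ / (16 * dmax) * (T.t - r) ≤ ζ / 16 := by
    rw [div_mul_eq_mul_div, div_le_div_iff₀ (by positivity) (by norm_num)]
    nlinarith
  have b2 : ζ / (4 * dmax) * (T.t - r) ≤ ζ / 4 := by
    rw [div_mul_eq_mul_div, div_le_div_iff₀ (by positivity) (by norm_num)]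
    nlinarith
  show _ ≤ K0 γ Mloc (Cl.envJ E r bs tag j) - ζ / (4 * dmax) * (T.t - r)
  unfold pcA at c1
  linarith

/-- the excess event has small probability -/
theorem pcu_excess (γ β : ℝ) (h0 : 0 < γ) (h1 : γ < 1) (ζ dmin dmax : ℝ) (hζ : 0 < ζ) (hd : 0 < dmin) (hdm : 0 < dmax)
    (hNF : ¬ Forced γ β (ζ / (16 * dmax)) (ζ / (4 * dmax))) :
    ∃ c₁ : ℝ, 0 < c₁ ∧ ∀ B : PBd, B.Good → ∀ (p : Atoms.Par) (Mloc : ℕ), 10 ≤ Mloc →
      ∃ ε₀ : ℝ, 0 < ε₀ ∧ ∀ (E : PEnv) (T : PTest) (r bs ξ : ℝ) (S0 : ℕ) (A0 : ℝ) (At : Atoms) (Cl : Classes At)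
        (τ : Type) (tag : At.𝔸 → τ) (win : T.ι → ℕ × τ) (S R : ℝ), E.ε < ε₀ →
        CutOK γ E B T r bs p ξ S0 A0 At Cl tag win → WinOK E r bs T Cl tag win S → r + dmin ≤ T.t →
        T.t - r ≤ dmax → 0 < ξ → ξ ≤ ζ / 64 → 0 ≤ R →
        CompHyp (lg E.ε) T.P T.O T.D (ctJ E r bs T win) (ctLm E T) (Cl.LmW E r bs tag T win) (ctW γ T) bs
          (Cl.LA E) (Cl.LN E tag) (Cl.Lm E) Cl.gJ (fun j => K0 γ Mloc (Cl.envJ E r bs tag j)) (K0 γ B.M E)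
          β r T.t R →
        c₁ * T.P.pr (fun o => 2 * (E.u r - bs) + ζ ≤ Cl.gJ (ctJ E r bs T win o))
          ≤ (K0 γ B.M E + β * T.t - score γ E T) + 5 * R := by
  obtain ⟨ϑ, hϑ, HU⟩ := pcu_unforced γ β h0 h1 ζ dmax hζ hdm hNF
  have hc : 0 < min (ζ / 16) (ϑ * dmin) := lt_min (by positivity) (by positivity)
  refine ⟨min (ζ / 16) (ϑ * dmin), hc, fun B hB p Mloc hM => ?_⟩
  obtain ⟨ε₀, hε₀, H⟩ := HU B hB p dmin hd Mloc hM
  refine ⟨ε₀, hε₀, ?_⟩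
  intro E T r bs ξ S0 A0 At Cl τ tag win S R hε hCut hW hrt hdmax hξ0 hξ hR hC
  have hmk := pc_comp_markov hC hc
  rw [le_div_iff₀ hc, ← ct_score_eq] at hmk
  refine le_trans ?_ hmk
  rw [mul_comm]
  refine mul_le_mul_of_nonneg_right (ent_pr_mono T.P fun o ho hg => ?_) hc.le
  have ho' := ct_pos_of_ne _ ho
  have d1 := hC.d1_nonneg o ho
  have d2 := hC.d2_nonneg o ho
  have d3 := hC.d3_nonneg o ho
  rcases H E T r bs ξ S0 A0 At Cl τ tag win S hε hCut hW hrt hdmax hξ0 hξ o ho' hg with h | h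
  · have hm := min_le_left (ζ / 16) (ϑ * dmin)
    unfold pcd2 at d2 ⊢
    linarith
  · have hm := min_le_right (ζ / 16) (ϑ * dmin)
    have h2 : ϑ * dmin ≤ ϑ * (T.t - r) := mul_le_mul_of_nonneg_left (by linarith) hϑ.le
    unfold pcd3 at d3 ⊢
    linarith

end Claimed.Agent.R255.Pkt
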