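-- KEEP
import Claimed.Agent.R255.Comp.ExpDefs
import Claimed.Agent.R255.Comp.Forced
import Claimed.Agent.R255.Comp.Unforced

/-!
# Row 255 (BR paper), Sec. 10: (X2), (X3) IN THE INTERFACE OF `Comp/ExpDefs.lean`      (architect helper242)

* `pcx_forced_x2`   : `PcxForced γ β`     from `pcf_forced`   (`Comp/Forced.lean`),   `c₁ = κ/2`
* `pcx_unforced_x3` : `PcxUnforced γ β`   from `pcu_unforced` (`Comp/Unforced.lean`), `c₁ = min (ζ/64) (ϑ d)`
-/

set_option autoImplicit false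

namespace Claimed.Agent.R255

open scoped BigOperators
open Classical
open FLaw Pkt

/-- **(X2)** -/
theorem pcx_forced_x2 (γ β : ℝ) (h0 : 0 < γ) (h1 : γ < 1) (hβ : 0 ≤ β) (hrate : PRate γ β) : PcxForced γ β := by
  intro ν κ κ₁ hκ hκ₁
  refine ⟨κ / 2, by positivity, fun B hB => ?_⟩
  obtain ⟨ε₀, hε₀, H⟩ := pcf_forced γ β h0 h1 hβ hrate κ B hB (κ / 2) (by positivity)
  refine ⟨ε₀, hε₀, fun E T hε hE hT hK hb => ?_⟩
  have := H E T (E.u 0 - ν) hε hE hT (fun o ho => by linarith [hb o ho]) hK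
  linarith

/-- **(X3)** -/
theorem pcx_unforced_x3 (γ β : ℝ) (h0 : 0 < γ) (h1 : γ < 1)
    (hNF : ∀ ν κ : ℝ, 0 < ν → 0 < κ → ¬ Forced γ β ν κ) : PcxUnforced γ β := by
  intro ζ d hζ hd
  obtain ⟨ϑ, hϑ, H⟩ := pcu_unforced γ β h0 h1 ζ d hζ hd (hNF _ _ (by positivity) (by positivity))
  refine ⟨min (ζ / 64) (ϑ * d), lt_min (by positivity) (by positivity), ?_⟩
  intro B p ξ S0 A0 Mloc hB hξ0 hξ hM
  obtain ⟨ε₀, hε₀, H'⟩ := H B hB p d hd Mloc hM
  refine ⟨ε₀, hε₀, ?_⟩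
  intro E T r bs S At Cl τ tag win hε hCut hW ht o ho c1 c2
  by_contra hcon
  push Not at hcon
  have m1 := min_le_left (ζ / 64) (ϑ * d)
  have m2 := min_le_right (ζ / 64) (ϑ * d)
  have hd' : T.t - r = d := by linarith
  rcases H' E T r bs ξ S0 A0 At Cl τ tag win S hε hCut hW (by linarith) (by linarith) hξ0 (hξ.trans m1) o ho hcon
    with h | h
  · rw [← ct_AJ_eq] at h
    linarith
  · rw [← ct_PJ_eq γ E hCut.obE.ε0 r bs T Cl tag win o ho.ne', hd'] at h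
    linarith

end Claimed.Agent.R255
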