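-- KEEP
import Claimed.Agent.R255.Pkt.Top
import Claimed.Agent.R255.Cl.ToolsDefs

/-!
# Row 255 (BR paper), Sec. 10: DURATION NORMALISATION (Definition 10.2, "after normalizing duration to one")      (architect helper242)

PAPER-FREE, EXACT INVARIANCE.  `E.nrmz d` : precision `ε^d`, Planck depth and horizon divided by `d`;  `T.nrmz d` : duration and aperture depths divided by `d`.
All physical scales (`λ`, `ρ_t`, `σ_t`, masses, rectangles) are UNCHANGED because `(ε^d)^(x/d) = ε^x`; `lg (ε^d) = d lg ε`, so scores, `K_0` are divided by `d`.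
Consumer: the chain assembly (`Comp/Chain.lean`): `Forced`, `Saturated` are scale free, the STEP contracts of `Rep/State.lean` use absolute depths.
-/

set_option autoImplicit false

namespace Claimed.Agent.R255.Pkt

open MeasureTheory Claimed.Agent.R255.Osc
open scoped BigOperators
open Classical

/-- duration normalisation of an environment -/
noncomputable def PEnv.nrmz (E : PEnv) (d : ℝ) : PEnv := { E with ε := E.ε ^ d, H := E.H / d, L := E.L / d }

/-- duration normalisation of a test -/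
noncomputable def PTest.nrmz (T : PTest) (d : ℝ) : PTest :=
  { T with t := T.t / d, geo := fun g => (T.geo g).scale d }

/-- the package obeyed by the normalised systems -/
noncomputable def PBd.nrmz (B : PBd) : PBd :=
  { B with Hmax := B.Hmax / B.tmin, Lmax := max B.Lmax 0 / B.tmin, tmin := 1 }

theorem nz_good (B : PBd) (hB : B.Good) : B.nrmz.Good := ⟨hB.a0, one_pos, hB.M⟩

theorem nz_M (B : PBd) : B.nrmz.M = B.M := rfl

section
variable (E : PEnv) (d : ℝ)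

theorem nz_eps : (E.nrmz d).ε = E.ε ^ d := rfl

theorem nz_rpow (hε : 0 < E.ε) (hd : 0 < d) (x : ℝ) : (E.nrmz d).ε ^ (x / d) = E.ε ^ x := by
  show (E.ε ^ d) ^ (x / d) = E.ε ^ x
  rw [← Real.rpow_mul hε.le]
  congr 1
  field_simp

theorem nz_lg (hε : 0 < E.ε) : lg (E.nrmz d).ε = d * lg E.ε := by
  show Real.log (1 / (E.ε ^ d)) = d * Real.log (1 / E.ε)
  rw [one_div, one_div, Real.log_inv, Real.log_inv, Real.log_rpow hε]
  ring

theorem nz_lam (hε : 0 < E.ε) (hd : 0 < d) : (E.nrmz d).lam = E.lam := by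
  show (E.nrmz d).ε ^ (-(E.H / d)) = E.ε ^ (-E.H)
  rw [← neg_div]
  exact nz_rpow E d hε hd _

theorem nz_u (hd : 0 < d) (t : ℝ) : (E.nrmz d).u (t / d) = E.u t / d := by
  show (E.H / d - t / d) / 2 = (E.H - t) / 2 / d
  ring

theorem nz_rho (hε : 0 < E.ε) (hd : 0 < d) (t : ℝ) : (E.nrmz d).rho (t / d) = E.rho t := by
  show (E.nrmz d).ε ^ ((E.nrmz d).u (t / d)) = E.ε ^ (E.u t)
  rw [nz_u E d hd]
  exact nz_rpow E d hε hd _

theorem nz_sig (hε : 0 < E.ε) (hd : 0 < d) (t : ℝ) : (E.nrmz d).sig (t / d) = E.sig t := by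
  show (E.nrmz d).ε ^ ((E.nrmz d).u (t / d) + t / d) = E.ε ^ (E.u t + t)
  rw [nz_u E d hd, ← add_div]
  exact nz_rpow E d hε hd _

theorem nz_m (hε : 0 < E.ε) (hd : 0 < d) (t : ℝ) (s : Site) : (E.nrmz d).m (t / d) s = E.m t s := by
  show mass (E.nrmz d).lam ((E.nrmz d).rho (t / d)) E.Φ E.f s = mass E.lam (E.rho t) E.Φ E.f s
  rw [nz_lam E d hε hd, nz_rho E d hε hd]

theorem nz_nrm2 : (E.nrmz d).nrm2 = E.nrm2 := rfl

theorem nz_wt (γ : ℝ) (g : Geo) : wt γ (g.scale d) = wt γ g / d := by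
  show (1 + γ) * (g.b / d) + (1 - γ) * (g.a / d) = ((1 + γ) * g.b + (1 - γ) * g.a) / d
  ring

theorem nz_geoOK (hε : 0 < E.ε) (hd : 0 < d) (g : Geo) (K t L u : ℝ) (s : Site) :
    GeoOK (g.scale d) K (E.ε ^ d) (t / d) (L / d) (u / d) s ↔ GeoOK g K E.ε t L u s := by
  have hp : ∀ x : ℝ, (E.ε ^ d) ^ (x / d) = E.ε ^ x := fun x => nz_rpow E d hε hd x
  show (0 ≤ g.b / d ∧ g.b / d ≤ g.a / d ∧ g.a / d ≤ L / d - t / d ∧ g.a / d ≤ u / d ∧ g.tc = s.C ∧
      (|ip (toP s.V - g.vc) (tang g.th)| ≤ K * (E.ε ^ d) ^ (g.b / d) ∧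
        |ip (toP s.V - g.vc) (nrm g.th)| ≤ K * (E.ε ^ d) ^ (g.a / d)) ∧
      (|ip (toP s.X - g.xc) (tang g.th)| ≤ K * (E.ε ^ d) ^ (g.b / d + t / d) ∧
        |ip (toP s.X - g.xc) (nrm g.th)| ≤ K * (E.ε ^ d) ^ (g.a / d + t / d))) ↔
    (0 ≤ g.b ∧ g.b ≤ g.a ∧ g.a ≤ L - t ∧ g.a ≤ u ∧ g.tc = s.C ∧
      (|ip (toP s.V - g.vc) (tang g.th)| ≤ K * E.ε ^ g.b ∧
        |ip (toP s.V - g.vc) (nrm g.th)| ≤ K * E.ε ^ g.a) ∧
      (|ip (toP s.X - g.xc) (tang g.th)| ≤ K * E.ε ^ (g.b + t) ∧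
        |ip (toP s.X - g.xc) (nrm g.th)| ≤ K * E.ε ^ (g.a + t)))
  rw [← add_div, ← add_div, ← sub_div, hp, hp, hp, hp, div_le_div_iff_of_pos_right hd,
    div_le_div_iff_of_pos_right hd, div_le_div_iff_of_pos_right hd,
    show (0 ≤ g.b / d ↔ 0 ≤ g.b) from ⟨fun h => by have := mul_nonneg h hd.le; rwa [div_mul_cancel₀ _ hd.ne'] at this,
      fun h => div_nonneg h hd.le⟩]

theorem nz_act (T : PTest) (i : T.ι) : (T.nrmz d).act i ↔ T.act i := Iff.rfl

/-- the score is divided by `d` -/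
theorem nz_score (γ : ℝ) (hε : 0 < E.ε) (hd : 0 < d) (T : PTest) :
    score γ (E.nrmz d) (T.nrmz d) = score γ E T / d := by
  have hev : ∀ (f : T.Ω → ℝ) (c : ℝ), T.P.ev (fun o => f o / c) = T.P.ev f / c := by
    intro f c
    unfold FLaw.ev
    rw [Finset.sum_div]
    exact Finset.sum_congr rfl fun o _ => by ring
  show (T.P.ent T.O + T.P.entC T.O T.D / 2) / lg (E.nrmz d).ε
      + 3 / 2 * T.P.ev (fun o => Real.log ((E.nrmz d).m (T.t / d) (T.site (T.O o))) / lg (E.nrmz d).ε)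
      + 1 / 2 * T.P.ev (fun o => wt γ ((T.geo (T.D o)).scale d))
    = ((T.P.ent T.O + T.P.entC T.O T.D / 2) / lg E.ε
      + 3 / 2 * T.P.ev (fun o => Real.log (E.m T.t (T.site (T.O o))) / lg E.ε)
      + 1 / 2 * T.P.ev (fun o => wt γ (T.geo (T.D o)))) / d
  simp only [nz_lg E d hε, nz_m E d hε hd, nz_wt]
  rw [hev, hev, hev, mul_comm d, ← div_div, ← div_div]
  ring

theorem nz_root (hε : 0 < E.ε) (hd : 0 < d) (M : ℕ) (T : PTest) :
    (T.nrmz d).IsRoot M (E.nrmz d) ↔ T.IsRoot M E := by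
  have hr : (E.nrmz d).rho 0 = E.rho 0 := by
    have := nz_rho E d hε hd 0
    rwa [zero_div] at this
  have hm : ∀ s, (E.nrmz d).m 0 s = E.m 0 s := fun s => by
    have := nz_m E d hε hd 0 s
    rwa [zero_div] at this
  have hu : (E.nrmz d).u 0 = E.u 0 / d := by
    have := nz_u E d hd 0
    rwa [zero_div] at this
  have hg : ∀ (g : Geo) (s : Site), GeoOK (g.scale d) 1 (E.nrmz d).ε 0 (E.nrmz d).L ((E.nrmz d).u 0) s ↔
      GeoOK g 1 E.ε 0 E.L (E.u 0) s := fun g s => by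
    have := nz_geoOK E d hε hd g 1 0 E.L (E.u 0) s
    rw [zero_div] at this
    rw [hu]
    exact this
  constructor
  · intro h
    refine ⟨?_, h.amp, h.time, ?_, ?_, ?_⟩
    · have h0 : T.t / d = 0 := h.t0
      rcases div_eq_zero_iff.1 h0 with h1 | h1
      · exact h1
      · exact absurd h1 hd.ne'
    · intro i j hi hj hij
      have := h.sep i j hi hj hij
      rwa [hr] at this
    · intro o ho
      have := h.mpos o ho
      rwa [hm] at this
    · intro o ho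
      exact (hg _ _).1 (h.geo o ho)
  · intro h
    refine ⟨?_, h.amp, h.time, ?_, ?_, ?_⟩
    · show T.t / d = 0
      rw [h.t0, zero_div]
    · intro i j hi hj hij
      rw [hr]
      exact h.sep i j hi hj hij
    · intro o ho
      rw [hm]
      exact h.mpos o ho
    · intro o ho
      exact (hg _ _).2 (h.geo o ho)

/-- every test is a normalised test -/
theorem nz_surj (hd : 0 < d) (T : PTest) : (T.nrmz (1 / d)).nrmz d = T := by
  obtain ⟨t, Ω, finΩ, P, ι, finι, site, O, Γ, D, geo⟩ := T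
  have h1 : t / (1 / d) / d = t := by field_simp
  have h2 : (fun g => ((geo g).scale (1 / d)).scale d) = geo := by
    funext g
    obtain ⟨b, a, tc, th, vc, xc⟩ := geo g
    have hb : b / (1 / d) / d = b := by field_simp
    have ha : a / (1 / d) / d = a := by field_simp
    simp only [Geo.scale, hb, ha]
  simp only [PTest.nrmz, h1, h2]

open scoped Pointwise in
/-- `K_0` is divided by `d` -/
theorem nz_K0 (γ : ℝ) (hε : 0 < E.ε) (hd : 0 < d) (M : ℕ) : K0 γ M (E.nrmz d) = K0 γ M E / d := by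
  have hset : K0set γ M (E.nrmz d) = d⁻¹ • K0set γ M E := by
    ext x
    rw [Set.mem_smul_set]
    constructor
    · rintro (h | ⟨T, hT, h⟩)
      · refine ⟨3 / 2 * (Real.log E.nrm2 / lg E.ε), Or.inl rfl, ?_⟩
        rw [h, nz_lg E d hε, nz_nrm2, smul_eq_mul, mul_comm d, ← div_div]
        ring
      · have hs := nz_surj d hd T
        rw [← hs] at hT h
        refine ⟨score γ E (T.nrmz (1 / d)), Or.inr ⟨_, (nz_root E d hε hd M _).1 hT, rfl⟩, ?_⟩
        rw [h, nz_score E d γ hε hd, smul_eq_mul]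
        ring
    · rintro ⟨y, (h | ⟨T, hT, h⟩), rfl⟩
      · left
        rw [h, nz_lg E d hε, nz_nrm2, smul_eq_mul, mul_comm d, ← div_div]
        ring
      · right
        refine ⟨T.nrmz d, (nz_root E d hε hd M _).2 hT, ?_⟩
        rw [h, nz_score E d γ hε hd, smul_eq_mul]
        ring
  unfold K0
  rw [hset, Real.sSup_smul_of_nonneg (inv_nonneg.2 hd.le), smul_eq_mul]
  ring

theorem nz_K0geLe (γ : ℝ) (hε : 0 < E.ε) (hd : 0 < d) (M : ℕ) (w y : ℝ) (h : K0geLe γ M E w y) :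
    K0geLe γ M (E.nrmz d) (w / d) (y / d) := by
  intro T hT hb
  have hs := nz_surj d hd T
  have hT' : (T.nrmz (1 / d)).IsRoot M E := by
    rw [← hs] at hT
    exact (nz_root E d hε hd M _).1 hT
  have h1 := h (T.nrmz (1 / d)) hT' (fun o ho => by
    have h2 := hb o ho
    show w ≤ (T.geo (T.D o)).b / (1 / d)
    rw [div_le_iff₀ hd] at h2
    rw [div_div_eq_mul_div, div_one]
    exact h2)
  rw [← hs, nz_score E d γ hε hd]
  exact div_le_div_of_nonneg_right h1 hd.le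

theorem nz_env_obeys (B : PBd) (hB : B.Good) (hE : E.Obeys B) (hd : B.tmin ≤ d) : (E.nrmz d).Obeys B.nrmz := by
  have hd0 : 0 < d := lt_of_lt_of_le hB.tmin hd
  refine ⟨Real.rpow_pos_of_pos hE.ε0 d, Real.rpow_lt_one hE.ε0.le hE.ε1 hd0, div_pos hE.H0 hd0, ?_, ?_,
    hE.phase, hE.mem, hE.supp⟩
  · show E.H / d ≤ B.Hmax / B.tmin
    exact div_le_div₀ (hE.H0.le.trans hE.H1) hE.H1 hB.tmin hd
  · show E.L / d ≤ max B.Lmax 0 / B.tmin
    exact div_le_div₀ (le_max_right _ _) (hE.L1.trans (le_max_left _ _)) hB.tmin hd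

theorem nz_test_obeys (B : PBd) (hB : B.Good) (hE : E.Obeys B) (T : PTest) (hT : T.Obeys B E) :
    (T.nrmz T.t).Obeys B.nrmz (E.nrmz T.t) := by
  have ht : 0 < T.t := lt_of_lt_of_le hB.tmin hT.t0
  refine ⟨?_, hT.amp, hT.time, hT.vel, hT.pos, ?_, ?_, ?_, ?_⟩
  · show (1 : ℝ) ≤ T.t / T.t
    rw [div_self ht.ne']
  · intro i hi
    have := hT.multT i hi
    show (((Finset.univ.filter T.act).image (fun j => (T.site j).C)).filter
      (fun c => |c - (T.site i).C| < (E.nrmz T.t).ε ^ (T.t / T.t))).card ≤ B.Mu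
    rw [nz_rpow E T.t hE.ε0 ht]
    exact this
  · intro i hi
    have := hT.multS i hi
    show (Finset.univ.filter (fun j => T.act j ∧ (T.site j).C = (T.site i).C ∧
      ‖(T.site j).V - (T.site i).V‖ < (E.nrmz T.t).rho (T.t / T.t) ∧
      ‖(T.site j).X - (T.site i).X‖ < (E.nrmz T.t).sig (T.t / T.t))).card ≤ B.Mu
    rw [nz_rho E T.t hE.ε0 ht, nz_sig E T.t hE.ε0 ht]
    exact this
  · intro o ho
    show 0 < (E.nrmz T.t).m (T.t / T.t) (T.site (T.O o))
    rw [nz_m E T.t hE.ε0 ht]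
    exact hT.mpos o ho
  · intro o ho
    show GeoOK ((T.geo (T.D o)).scale T.t) B.Ke (E.ε ^ T.t) (T.t / T.t) (E.L / T.t) ((E.nrmz T.t).u (T.t / T.t))
      (T.site (T.O o))
    rw [nz_u E T.t ht, nz_geoOK E T.t hE.ε0 ht]
    exact hT.geo o ho

end

theorem nz_t (B : PBd) (hB : B.Good) (E : PEnv) (T : PTest) (hT : T.Obeys B E) : (T.nrmz T.t).t = 1 := by
  have ht : 0 < T.t := lt_of_lt_of_le hB.tmin hT.t0
  show T.t / T.t = 1
  exact div_self ht.ne'

/-- saturation is scale free -/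
theorem nz_satAt (γ β : ℝ) (B : PBd) (hB : B.Good) (ϑ : ℝ) (E : PEnv) (T : PTest) (h : SatAt γ β B ϑ E T) :
    SatAt γ β B.nrmz ϑ (E.nrmz T.t) (T.nrmz T.t) := by
  obtain ⟨hE, hT, hd⟩ := h
  have ht : 0 < T.t := lt_of_lt_of_le hB.tmin hT.t0
  refine ⟨nz_env_obeys E T.t B hB hE hT.t0, nz_test_obeys E B hB hE T hT, ?_⟩
  rw [nz_t B hB E T hT, nz_score E T.t γ hE.ε0 ht, nz_M, nz_K0 E T.t γ hE.ε0 ht]
  have : K0 γ B.M E / T.t + β * 1 - score γ E T / T.t = (K0 γ B.M E + β * T.t - score γ E T) / T.t := by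
    field_simp
  rw [this, mul_one, div_le_iff₀ ht]
  exact hd

/-- the forced root gap is scale free -/
theorem nz_gap (γ : ℝ) (B : PBd) (hB : B.Good) (ν κ : ℝ) (E : PEnv) (T : PTest) (hE : E.Obeys B)
    (hT : T.Obeys B E) (h : K0geLe γ B.M E (E.u 0 - ν * T.t) (K0 γ B.M E - κ * T.t)) :
    K0geLe γ B.nrmz.M (E.nrmz T.t) ((E.nrmz T.t).u 0 - ν) (K0 γ B.nrmz.M (E.nrmz T.t) - κ) := by
  have ht : 0 < T.t := lt_of_lt_of_le hB.tmin hT.t0
  have h1 := nz_K0geLe E T.t γ hE.ε0 ht B.M _ _ h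
  have h2 : (E.nrmz T.t).u 0 = E.u 0 / T.t := by
    have := nz_u E T.t ht 0
    rwa [zero_div] at this
  rw [nz_M, nz_K0 E T.t γ hE.ε0 ht, h2]
  have e1 : (E.u 0 - ν * T.t) / T.t = E.u 0 / T.t - ν := by field_simp
  have e2 : (K0 γ B.M E - κ * T.t) / T.t = K0 γ B.M E / T.t - κ := by field_simp
  rwa [e1, e2] at h1

/-- smallness of the normalised precision -/
theorem nz_eps_lt (B : PBd) (hB : B.Good) (E : PEnv) (hE : E.Obeys B) (d ε₀ : ℝ) (hd : B.tmin ≤ d) (h0 : 0 < ε₀)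
    (h : E.ε < ε₀ ^ (1 / B.tmin)) : (E.nrmz d).ε < ε₀ := by
  have hd0 : 0 < d := lt_of_lt_of_le hB.tmin hd
  show E.ε ^ d < ε₀
  calc E.ε ^ d ≤ E.ε ^ B.tmin := Real.rpow_le_rpow_of_exponent_ge hE.ε0 hE.ε1.le hd
    _ < (ε₀ ^ (1 / B.tmin)) ^ B.tmin := Real.rpow_lt_rpow hE.ε0.le h hB.tmin
    _ = ε₀ := by
      rw [← Real.rpow_mul h0.le, one_div, inv_mul_cancel₀ hB.tmin.ne', Real.rpow_one]

theorem nz_eqns_cite : True := by
  have := @PEnv.nrmz.eq_1
  have := @PTest.nrmz.eq_1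
  have := @PBd.nrmz.eq_1
  trivial

end Claimed.Agent.R255.Pkt
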