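-- KEEP
import Claimed.Agent.R255.Comp.CutMain
import Claimed.Agent.R255.Comp.Floor
import Claimed.Agent.R255.Pkt.Klass
import Claimed.Agent.R255.Pk9.Core
import Claimed.Agent.R255.Pk.An
import Claimed.Agent.R255.Rep.Mass

/-!
# Row 255 (BR paper), Sec. 10, LEMMA 10.3 (exclusion of a fixed uncertainty slack): definitions      (architect helper17; prefix `sl`)

ROUTE = the paper's, on the frozen data of a cut (`Comp/CutDefs.lean`, `CutOK`), `r = t - 2h`, ANY `bs ≤` all `b`.   `aZ = u_t - h - κ` (all shapes have `a ≤ aZ`).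
* `slZ ε aZ t s`        the ISOTROPIC coarse observation `Z` of an endpoint site: `(C, cell_{ε^aZ} V, cell_{ε^(aZ+t)} X)`.
* `slNear ε aZ t c₁ z A`  the exact line of the atom site `A` passes within `c₁` cell sizes of the centre of `z` at the time `z.1`.
* `slTT At cl ε aZ t c₁ z`   the potential contributors of `z` inside the class `cl`.
* `slC1 B p`            the constant `c₁ = |B.Ra| + |p.Ra| + 2`.
* `slSites E T r bs win j aZ z`   the active endpoint sites with label `j` over `z`.
* `slKl …`              the data of the application of the classical interface `kl_growth` (`Pkt/Klass.lean`).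
PLAN:  `sl_mass` (AN: transport tails absorbed by the winner floor, Bessel, synthesis Bessel),  `sl_loc` (`(T, C)` locates `Z`),  `sl_hyp` (`KlData.Hyp`: faithful enlarged aperture, cap counts)
⟹ `sl_local` : `P_J ≤ A_J + γ h + (3/2) ξ + ν`  (`p9_contrib_core` + `kl_growth`)  ⟹ `pkt_slack` (`cut_main`: `CompHyp.split`, `.sub`, `.whole`; floor: `pcx_floor`, `pcx_floor_upper`).
-/

set_option autoImplicit false

namespace Claimed.Agent.R255

open scoped BigOperators
open Classical
open FLaw Pkt Osc

/-- values of the coarse observation -/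
abbrev SlZ : Type := ℝ × (ℤ × ℤ) × (ℤ × ℤ)

/-- the isotropic coarse observation of an endpoint site -/
noncomputable def slZ (ε aZ t : ℝ) (s : Site) : SlZ := (s.C, cell (ε ^ aZ) s.V, cell (ε ^ (aZ + t)) s.X)

/-- the exact line of the atom site `A` passes near the cell `z` -/
def slNear (ε aZ t c₁ : ℝ) (z : SlZ) (A : Site) : Prop :=
  ‖A.V - cellC (ε ^ aZ) z.2.1‖ ≤ c₁ * ε ^ aZ ∧ ‖A.X + (z.1 - A.C) • A.V - cellC (ε ^ (aZ + t)) z.2.2‖ ≤ c₁ * ε ^ (aZ + t)

/-- potential contributors of `z` in the class `cl` -/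
noncomputable def slTT (At : Atoms) (cl : Finset At.𝔸) (ε aZ t c₁ : ℝ) (z : SlZ) : Finset At.𝔸 :=
  cl.filter (fun A => slNear ε aZ t c₁ z (At.asite A))

/-- the enlargement constant of the contributor sets -/
noncomputable def slC1 (B : PBd) (p : Atoms.Par) : ℝ := |B.Ra| + |p.Ra| + 2

/-- the active endpoint sites with label `j` over `z` -/
noncomputable def slSites {τ : Type} (E : PEnv) (T : PTest) (r bs : ℝ) (win : T.ι → ℕ × τ) (j : Classes.Lab τ) (aZ : ℝ) (z : SlZ) :
    Finset T.ι :=
  Finset.univ.filter (fun i => T.act i ∧ Classes.Jof E r bs T.site win i = j ∧ slZ E.ε aZ T.t (T.site i) = z)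

/-- the contributor set of a sample -/
noncomputable def slTTo (E : PEnv) (T : PTest) (At : Atoms) (cl : Finset At.𝔸) (aZ c₁ : ℝ) (o : T.Ω) : Finset At.𝔸 :=
  slTT At cl E.ε aZ T.t c₁ (slZ E.ε aZ T.t (T.site (T.O o)))

/-- the data of the classical interface: lines = atoms of the class `cl` of the localizer `j0`, law = `P` extended by the uniform kernel on `TT`, label = the endpoint aperture label -/
noncomputable def slKl (E : PEnv) (T : PTest) (r bs : ℝ) (At : Atoms) [Nonempty At.𝔸] (j0 : Loc0) (cl : Finset At.𝔸) (P : FLaw T.Ω)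
    (TT : T.Ω → Finset At.𝔸) : KlData where
  ε := E.ε
  r := r
  bs := bs
  d := T.t - r
  Lc := min (E.u r) (E.L - r) - bs
  Cr := j0.Cr E.ε r
  VJ := j0.VJ E.ε bs
  XJ := j0.XJ E.ε r bs
  κ := At.𝔸
  S := cl
  V := fun A => (At.asite A).V
  X := fun A => (At.asite A).X
  Ω := T.Ω × At.𝔸
  fin := inferInstance
  Q := P.ext (p9_unif TT)
  Tt := Prod.snd
  c := fun x => (T.site (T.O x.1)).C
  Γ := T.Γ
  G := fun x => T.D x.1
  geo := T.geo

theorem sl_defs_eqns_cite : True := by
  have := @slZ.eq_1
  have := @slNear.eq_1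
  have := @slTT.eq_1
  have := @slC1.eq_1
  have := @slSites.eq_1
  have := @slTTo.eq_1
  have := @slKl.eq_1
  trivial

end Claimed.Agent.R255
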