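-- KEEP
import Claimed.Agent.R255.Comp.SlackDefs

/-!
# Row 255 (BR paper), Sec. 10, LEMMA 10.3, AN part: `m_Z ≤ K₁ ε^{-ξ} m #𝒯_Z`      (architect helper17; prefix `sl_`)

PAPER-FREE.   Tools (all on main): `Rep/Mass.lean` (`rm_cand`, `rm_mass_of_close`, `rm_tail_le`, `rm_agg`, `rm_coef_sum`, `rm_loc0_Cr`, `rm_siteOK`), `Pk/AtomsExist.lean` (`pk_cell_near`, `pk_loc0_near`), `Pk/An.lean` (`AnNear`, `an_scales`).
* `sl_near_of_an`  geometry: an atom `AnNear` (with `η = κ`) the endpoint site `s` is `slNear` the cell `slZ s`.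
* `sl_site`        one site: `m_s(h_J) ≤ 4 m_s(sup 𝒯_z)`   (transport tails absorbed by the winner floor).
* `sl_mass`        the fibre sum.
-/

set_option autoImplicit false

namespace Claimed.Agent.R255

open scoped BigOperators
open Classical
open FLaw Pkt Osc

/-- LEAF `L-SL-AN1` (~70 l.).   `aZ = u_t - h - κ`, `r + 2h = t`.   `ρ_t = ε^(u_t) ≤ ε^aZ` (`Real.rpow_le_rpow_of_exponent_ge`);   `ε^(-κ) σ_r = ε^(u_r + r - κ)` and `u_r + r - κ = aZ + t` EXACTLY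
(`u_r = (H - r)/2 = u_t + h`; `Real.rpow_add`);   `‖s.V - cellC w (cell w s.V)‖ ≤ w` (`pk_cell_near`);  triangle inequality; `Rn ≤ |B.Ra| + |p.Ra|`.
Note `A.X + (s.C - A.C) • A.V - c = -(s.X - A.X - (s.C - A.C) • A.V) + (s.X - c)`. -/
theorem sl_near_of_an (E : PEnv) (hε : 0 < E.ε) (hε1 : E.ε < 1) (t r h κ Rn c₁ : ℝ) (hh : 0 ≤ h) (hκ : 0 ≤ κ) (hrt : r + 2 * h = t)
    (hc : |Rn| + 2 ≤ c₁) (s A : Site) (hn : AnNear E t r κ Rn s A) :
    slNear E.ε (E.u t - h - κ) t c₁ (slZ E.ε (E.u t - h - κ) t s) A := by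
  obtain ⟨h1, h2⟩ := hn
  have hw1 : 0 < E.ε ^ (E.u t - h - κ) := Real.rpow_pos_of_pos hε _
  have hw2 : 0 < E.ε ^ (E.u t - h - κ + t) := Real.rpow_pos_of_pos hε _
  have hR := abs_nonneg Rn
  constructor
  · show ‖A.V - cellC (E.ε ^ (E.u t - h - κ)) (cell (E.ε ^ (E.u t - h - κ)) s.V)‖ ≤ c₁ * E.ε ^ (E.u t - h - κ)
    have e1 : E.rho t ≤ E.ε ^ (E.u t - h - κ) :=
      Real.rpow_le_rpow_of_exponent_ge hε hε1.le (by linarith)
    have e0 : 0 < E.rho t := Real.rpow_pos_of_pos hε _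
    have e2 : Rn * E.rho t ≤ |Rn| * E.ε ^ (E.u t - h - κ) :=
      (mul_le_mul_of_nonneg_right (le_abs_self Rn) e0.le).trans (mul_le_mul_of_nonneg_left e1 hR)
    have e3 := pk_cell_near hw1 s.V
    have e4 : A.V - cellC (E.ε ^ (E.u t - h - κ)) (cell (E.ε ^ (E.u t - h - κ)) s.V)
        = (A.V - s.V) + (s.V - cellC (E.ε ^ (E.u t - h - κ)) (cell (E.ε ^ (E.u t - h - κ)) s.V)) := by abel
    rw [e4]
    refine (norm_add_le _ _).trans ?_
    nlinarith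
  · show ‖A.X + (s.C - A.C) • A.V - cellC (E.ε ^ (E.u t - h - κ + t)) (cell (E.ε ^ (E.u t - h - κ + t)) s.X)‖
      ≤ c₁ * E.ε ^ (E.u t - h - κ + t)
    have e1 : E.ε ^ (-κ) * E.sig r = E.ε ^ (E.u t - h - κ + t) := by
      unfold PEnv.sig
      rw [← Real.rpow_add hε]
      congr 1
      unfold PEnv.u
      rw [← hrt]
      ring
    rw [e1] at h2
    have e3 := pk_cell_near hw2 s.X
    have e4 : A.X + (s.C - A.C) • A.V - cellC (E.ε ^ (E.u t - h - κ + t)) (cell (E.ε ^ (E.u t - h - κ + t)) s.X)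
        = -(s.X - A.X - (s.C - A.C) • A.V)
          + (s.X - cellC (E.ε ^ (E.u t - h - κ + t)) (cell (E.ε ^ (E.u t - h - κ + t)) s.X)) := by abel
    rw [e4]
    refine (norm_add_le _ _).trans ?_
    rw [norm_neg]
    nlinarith

/-- LEAF `L-SL-AN2` (~150 l.).   `i ∈ slSites` : `T.act i` (so `∃ o` charged with `T.O o = i`), `Jof i = j`, `slZ (site i) = z`.   `H.floor o`, `hW o` (`ctJ … o = Jof … (T.O o)` by `rfl`): `ε^A0 nrm2 ≤ m_i(f) ≤ 4 S² m_i(h_J)`.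
`rm_cand` with `η = κ`, `Atr = |A0|/2 + 1`, `S := fun A => Cl.lab tag A = j` (`hJ = At.sup E r S` by `rfl`; `loc A = j.1 = loc0 (site i)`), `Cand := fun A => A ∈ slTT …` (`sl_near_of_an`, `slC1`):
`‖a(h_J) - a(sup Cand)‖ ≤ 2 ε^Atr √nrm2`.   `rm_tail_le` with `x = 2 |S| ‖a(h_J)‖`, `q = 1/(8 (|S| + 1))` : `ε^Atr √nrm2 ≤ q x ≤ ‖a(h_J)‖ / 4`;   `rm_mass_of_close`.
`ε₀ = min (ε₀ of rm_cand) (1/(8 (|S| + 1)))` : `ε^(Atr - A0/2) ≤ ε^1 = ε` as `Atr - A0/2 ≥ 1`, `ε < 1`.   `bs ≤ E.u T.t` : `ct_bs_le H`.   `(E.withInput g).m t s = mass E.lam (E.rho t) E.Φ g s` by `rfl`. -/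
theorem sl_site (B : PBd) (hB : B.Good) (p : Atoms.Par) (A0 S h κ : ℝ) (hh : 0 < h) (hκ : 0 < κ) :
    ∃ ε₀ : ℝ, 0 < ε₀ ∧ ∀ (γ : ℝ) (E : PEnv) (T : PTest) (r bs ξ : ℝ) (S0 : ℕ) (At : Atoms) (Cl : Classes At) (τ : Type)
      (tag : At.𝔸 → τ) (win : T.ι → ℕ × τ), E.ε < ε₀ → CutOK γ E B T r bs p ξ S0 A0 At Cl tag win →
      WinOK E r bs T Cl tag win S → r + 2 * h = T.t → ∀ (j : Classes.Lab τ) (z : SlZ),
      ∀ i ∈ slSites E T r bs win j (E.u T.t - h - κ) z,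
        (E.withInput (Cl.hJ E r tag j)).m T.t (T.site i)
          ≤ 4 * mass E.lam (E.rho T.t) E.Φ
              (At.sup E r (fun A => A ∈ slTT At (Cl.clsOf tag j) E.ε (E.u T.t - h - κ) T.t (slC1 B p) z)) (T.site i) := by
  have hA : 0 < |A0| / 2 + 1 := by positivity
  obtain ⟨ε₁, hε₁, hc⟩ := rm_cand B hB p.Ra p.Bb p.Mu p.Ca κ (|A0| / 2 + 1) hκ hA
  have hS0 : 0 ≤ |S| := abs_nonneg S
  refine ⟨min ε₁ (1 / (8 * (|S| + 1))), lt_min hε₁ (by positivity), ?_⟩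
  intro γ E T r bs ξ S0 At Cl τ tag win hε H hW hrt j z i hi
  obtain ⟨-, ⟨o, ho, hoi⟩, hJ, hz⟩ := Finset.mem_filter.1 hi
  have hact : T.act i := ⟨o, ho, hoi⟩
  have hε0 := H.obE.ε0
  have hε1 := H.obE.ε1
  have hloc : j.1 = loc0 E.ε r bs (T.site i) := by rw [← hJ]; rfl
  have key := hc E T.t r bs p At rfl rfl rfl rfl H.obE (lt_of_lt_of_le hε (min_le_left _ _)) H.r0 H.rt H.bs0
    (ct_bs_le H).1 H.goodA (T.site i) (H.obT.amp i hact) (H.obT.time i hact).1 (H.obT.time i hact).2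
    (fun A => Cl.lab tag A = j)
    (fun A => A ∈ slTT At (Cl.clsOf tag j) E.ε (E.u T.t - h - κ) T.t (slC1 B p) z)
    (fun A hA => by
      rw [← hloc, ← hA]
      rfl)
    (fun A hA => (Finset.mem_filter.1 (Finset.mem_filter.1 hA).1).2)
    (fun A hA hn => by
      refine Finset.mem_filter.2 ⟨Finset.mem_filter.2 ⟨Finset.mem_univ _, hA⟩, ?_⟩
      rw [← hz]
      refine sl_near_of_an E hε0 hε1 T.t r h κ (B.Ra + p.Ra) (slC1 B p) hh.le hκ.le hrt ?_ (T.site i) (At.asite A) hn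
      unfold slC1
      linarith [abs_add_le B.Ra p.Ra])
  -- the floor
  have hfl := H.floor o ho
  have hw := hW o ho
  rw [hoi] at hfl hw
  have hJo : ctJ E r bs T win o = j := by
    rw [← hJ, ← hoi]
    rfl
  rw [hJo] at hw
  have hm : (E.withInput (Cl.hJ E r tag j)).m T.t (T.site i)
      = ‖pairing E.lam (E.rho T.t) E.Φ (At.sup E r (fun A => Cl.lab tag A = j)) (T.site i)‖ ^ 2 := rfl
  rw [hm] at hw ⊢
  have hx : E.ε ^ A0 * E.nrm2
      ≤ (2 * |S| * ‖pairing E.lam (E.rho T.t) E.Φ (At.sup E r (fun A => Cl.lab tag A = j)) (T.site i)‖) ^ 2 := by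
    refine (hfl.trans hw).trans (le_of_eq ?_)
    rw [mul_pow, mul_pow, sq_abs]
    ring
  have hq : E.ε ^ (|A0| / 2 + 1 - A0 / 2) ≤ 1 / (8 * (|S| + 1)) := by
    have h1 : E.ε ^ (|A0| / 2 + 1 - A0 / 2) ≤ E.ε ^ (1 : ℝ) :=
      Real.rpow_le_rpow_of_exponent_ge hε0 hε1.le (by linarith [le_abs_self A0])
    rw [Real.rpow_one] at h1
    exact h1.trans (hε.le.trans (min_le_right _ _))
  have ht := rm_tail_le (A := |A0| / 2 + 1) hε0 (rm_nrm2_nonneg E) (by positivity) hx hq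
  have hq2 : 1 / (8 * (|S| + 1))
      * (2 * |S| * ‖pairing E.lam (E.rho T.t) E.Φ (At.sup E r (fun A => Cl.lab tag A = j)) (T.site i)‖)
      ≤ ‖pairing E.lam (E.rho T.t) E.Φ (At.sup E r (fun A => Cl.lab tag A = j)) (T.site i)‖ / 4 := by
    have hn := norm_nonneg (pairing E.lam (E.rho T.t) E.Φ (At.sup E r (fun A => Cl.lab tag A = j)) (T.site i))
    rw [div_mul_eq_mul_div, one_mul, div_le_div_iff₀ (by positivity) (by norm_num)]
    nlinarith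
  exact rm_mass_of_close key (by linarith)

/-- LEAF `L-SL-AN3` (~100 l.).   `sl_site` termwise, then `rm_agg` (`Cand := fun A => A ∈ slTT …`, `c = z.1`, `sO = slSites …`; if `slSites` is empty the sum is `0`; otherwise `j.1 = loc0 (site i)` for an active site: `rm_loc0_Cr`;
`r ≤ E.H` : `r ≤ t` and `0 ≤ u_t` from `geo` of a charged sample, cf. the proof of `an_bessel`), then `rm_coef_sum` (`A ∈ clsOf tag j → loc A = j.1 ∧ cls A = j.2.1`; `univ.filter (· ∈ F) = F`).   `K₁ = 4 C B.Mu p.Mu + 1`.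
`0 ≤ mB ε^(-ξ)` where needed: `massHi` of an element of the class (if the class is empty everything vanishes). -/
theorem sl_mass (B : PBd) (hB : B.Good) (p : Atoms.Par) (A0 S h κ : ℝ) (hh : 0 < h) (hκ : 0 < κ) :
    ∃ K₁ ε₀ : ℝ, 0 < K₁ ∧ 0 < ε₀ ∧ ∀ (γ : ℝ) (E : PEnv) (T : PTest) (r bs ξ : ℝ) (S0 : ℕ) (At : Atoms) (Cl : Classes At)
      (τ : Type) (tag : At.𝔸 → τ) (win : T.ι → ℕ × τ), E.ε < ε₀ → CutOK γ E B T r bs p ξ S0 A0 At Cl tag win →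
      WinOK E r bs T Cl tag win S → r + 2 * h = T.t → ∀ (j : Classes.Lab τ) (z : SlZ),
      ∑ i ∈ slSites E T r bs win j (E.u T.t - h - κ) z, (E.withInput (Cl.hJ E r tag j)).m T.t (T.site i)
        ≤ K₁ * (Cl.mB j.1 j.2.1 * E.ε ^ (-ξ))
          * ((slTT At (Cl.clsOf tag j) E.ε (E.u T.t - h - κ) T.t (slC1 B p) z).card : ℝ) := by
  obtain ⟨C, hC, hagg⟩ := rm_agg B hB p.Ra p.Bb
  obtain ⟨ε₀, hε₀, hsite⟩ := sl_site B hB p A0 S h κ hh hκ
  refine ⟨4 * (C * B.Mu * p.Mu) + 1, ε₀, by positivity, hε₀, ?_⟩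
  intro γ E T r bs ξ S0 At Cl τ tag win hε H hW hrt j z
  have hcl : ∀ A, A ∈ slTT At (Cl.clsOf tag j) E.ε (E.u T.t - h - κ) T.t (slC1 B p) z →
      At.loc A = j.1 ∧ Cl.cls A = j.2.1 := by
    intro A hA
    have h1 : Cl.lab tag A = j := (Finset.mem_filter.1 (Finset.mem_filter.1 hA).1).2
    rw [← h1]
    exact ⟨rfl, rfl⟩
  -- nonnegativity of the right side
  have hR : 0 ≤ (Cl.mB j.1 j.2.1 * E.ε ^ (-ξ))
      * ((slTT At (Cl.clsOf tag j) E.ε (E.u T.t - h - κ) T.t (slC1 B p) z).card : ℝ) := by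
    rcases (slTT At (Cl.clsOf tag j) E.ε (E.u T.t - h - κ) T.t (slC1 B p) z).eq_empty_or_nonempty with he | ⟨A, hA⟩
    · rw [he]
      simp
    · have h1 := H.goodC.massHi A
      rw [(hcl A hA).1, (hcl A hA).2] at h1
      have h2 : 0 ≤ Cl.mB j.1 j.2.1 * E.ε ^ (-ξ) := le_trans (by positivity) h1
      positivity
  rcases (slSites E T r bs win j (E.u T.t - h - κ) z).eq_empty_or_nonempty with he | ⟨i₀, hi₀⟩
  · rw [he, Finset.sum_empty, mul_assoc]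
    positivity
  obtain ⟨-, hact₀, hJ₀, hz₀⟩ := Finset.mem_filter.1 hi₀
  have hloc : j.1 = loc0 E.ε r bs (T.site i₀) := by rw [← hJ₀]; rfl
  have hCr := rm_loc0_Cr (E := E) (r := r) (bs := bs) H.obE.ε0 (T.site i₀) (H.obT.time i₀ hact₀).1 (H.obT.time i₀ hact₀).2
  rw [← hloc] at hCr
  have a1 := hagg E T r bs p At rfl rfl H.obE H.obT H.goodA (H.rt.trans (rm_test_H H.obT i₀ hact₀)) j.1 hCr.1 hCr.2
    (fun A => A ∈ slTT At (Cl.clsOf tag j) E.ε (E.u T.t - h - κ) T.t (slC1 B p) z) (fun A hA => (hcl A hA).1) z.1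
    (slSites E T r bs win j (E.u T.t - h - κ) z) (fun i hi => by
      obtain ⟨-, hact, -, hz⟩ := Finset.mem_filter.1 hi
      refine ⟨hact, ?_⟩
      rw [← hz]
      rfl)
  have a2 := rm_coef_sum γ ξ S0 Cl H.goodC j.1 j.2.1
    (fun A => A ∈ slTT At (Cl.clsOf tag j) E.ε (E.u T.t - h - κ) T.t (slC1 B p) z) hcl
  have e : ∀ (F : Finset At.𝔸) (inst : DecidablePred fun A => A ∈ F),
      (@Finset.filter _ (fun A => A ∈ F) inst Finset.univ).card = F.card := by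
    intro F inst
    congr 1
    ext A
    simp
  rw [e] at a2
  have a3 : ∑ i ∈ slSites E T r bs win j (E.u T.t - h - κ) z, (E.withInput (Cl.hJ E r tag j)).m T.t (T.site i)
      ≤ ∑ i ∈ slSites E T r bs win j (E.u T.t - h - κ) z, 4 * mass E.lam (E.rho T.t) E.Φ
        (At.sup E r (fun A => A ∈ slTT At (Cl.clsOf tag j) E.ε (E.u T.t - h - κ) T.t (slC1 B p) z)) (T.site i) :=
    Finset.sum_le_sum fun i hi => hsite γ E T r bs ξ S0 At Cl τ tag win hε H hW hrt j z i hi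
  rw [← Finset.mul_sum] at a3
  have hK : 0 ≤ C * B.Mu * p.Mu := by positivity
  have a4 := a1.trans (mul_le_mul_of_nonneg_left a2 hK)
  nlinarith

end Claimed.Agent.R255
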