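-- KEEP
import Claimed.Agent.R255.Comp.SlackDefs

/-!
# Row 255 (BR paper), Sec. 10, LEMMA 10.3, geometry: a contributor and the time locate `Z`      (architect helper17; prefix `sl_`)

PAPER-FREE.
-/

set_option autoImplicit false

namespace Claimed.Agent.R255

open scoped BigOperators
open Classical
open FLaw Pkt Osc

/-- LEAF `L-SL-GEO1` (~70 l.).   The cells whose centre lies within `c₁ w` of a point.   `cellC w k = !₂[w (k.1 + 1/2), w (k.2 + 1/2)]`; `|y i| ≤ ‖y‖` (`pk_e2_abs_le`), so `|x i / w - 1/2 - k_i| ≤ c₁`, i.e. `k_i ∈ Finset.Icc ⌈x i / w - 1/2 - c₁⌉ ⌊x i / w - 1/2 + c₁⌋`,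
of cardinality `≤ 2 c₁ + 1` (`Int.card_Icc`, `Int.toNat`, `Int.floor_le`, `Int.le_ceil`). -/
theorem sl_cells_near (c₁ : ℝ) (hc : 0 ≤ c₁) (w : ℝ) (hw : 0 < w) (x : E2) :
    ∃ Ks : Finset (ℤ × ℤ), (Ks.card : ℝ) ≤ (2 * c₁ + 1) ^ 2 ∧ ∀ k : ℤ × ℤ, ‖x - cellC w k‖ ≤ c₁ * w → k ∈ Ks := by
  refine ⟨Finset.Icc ⌈(x 0 / w - 1 / 2) - c₁⌉ ⌊(x 0 / w - 1 / 2) + c₁⌋ ×ˢ
    Finset.Icc ⌈(x 1 / w - 1 / 2) - c₁⌉ ⌊(x 1 / w - 1 / 2) + c₁⌋, ?_, ?_⟩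
  · rw [Finset.card_product]
    push_cast
    rw [sq]
    exact mul_le_mul (pk_int_count _ _ hc) (pk_int_count _ _ hc) (by positivity) (by positivity)
  · intro k hk
    have key : ∀ (t : ℝ) (n : ℤ), |t - w * ((n : ℝ) + 1 / 2)| ≤ c₁ * w →
        n ∈ Finset.Icc ⌈(t / w - 1 / 2) - c₁⌉ ⌊(t / w - 1 / 2) + c₁⌋ := by
      intro t n h
      obtain ⟨a, b⟩ := abs_le.1 h
      rw [Finset.mem_Icc]
      refine ⟨Int.ceil_le.2 ?_, Int.le_floor.2 ?_⟩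
      · have : t / w ≤ (n : ℝ) + 1 / 2 + c₁ := by
          rw [div_le_iff₀ hw]
          nlinarith
        linarith
      · have : (n : ℝ) + 1 / 2 - c₁ ≤ t / w := by
          rw [le_div_iff₀ hw]
          nlinarith
        linarith
    have h0 := (pk_e2_abs_le (x - cellC w k) 0).trans hk
    have h1 := (pk_e2_abs_le (x - cellC w k) 1).trans hk
    have e0 : (x - cellC w k) 0 = x 0 - w * ((k.1 : ℝ) + 1 / 2) := by simp [cellC]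
    have e1 : (x - cellC w k) 1 = x 1 - w * ((k.2 : ℝ) + 1 / 2) := by simp [cellC]
    rw [e0] at h0
    rw [e1] at h1
    exact Finset.mem_product.2 ⟨key _ _ h0, key _ _ h1⟩

/-- LEAF `L-SL-GEO2` (~40 l.).   `Zs = ({c} ×ˢ (Ks_V ×ˢ Ks_X))` with `sl_cells_near` at `(ε^aZ, A.V)` and `(ε^(aZ+t), A.X + (c - A.C) • A.V)`. -/
theorem sl_loc (c₁ : ℝ) (hc : 0 ≤ c₁) (ε aZ t : ℝ) (hε : 0 < ε) (A : Site) (c : ℝ) :
    ∃ Zs : Finset SlZ, (Zs.card : ℝ) ≤ (2 * c₁ + 1) ^ 4 ∧ ∀ z : SlZ, z.1 = c → slNear ε aZ t c₁ z A → z ∈ Zs := by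
  obtain ⟨K1, hK1, hm1⟩ := sl_cells_near c₁ hc (ε ^ aZ) (Real.rpow_pos_of_pos hε _) A.V
  obtain ⟨K2, hK2, hm2⟩ := sl_cells_near c₁ hc (ε ^ (aZ + t)) (Real.rpow_pos_of_pos hε _) (A.X + (c - A.C) • A.V)
  refine ⟨({c} : Finset ℝ) ×ˢ (K1 ×ˢ K2), ?_, ?_⟩
  · rw [Finset.card_product, Finset.card_product, Finset.card_singleton]
    push_cast
    rw [one_mul]
    have e : (2 * c₁ + 1) ^ 4 = (2 * c₁ + 1) ^ 2 * (2 * c₁ + 1) ^ 2 := by ring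
    rw [e]
    exact mul_le_mul hK1 hK2 (by positivity) (by positivity)
  · intro z hz hn
    obtain ⟨n1, n2⟩ := hn
    rw [hz] at n2
    exact Finset.mem_product.2 ⟨Finset.mem_singleton.2 hz, Finset.mem_product.2 ⟨hm1 _ n1, hm2 _ n2⟩⟩

end Claimed.Agent.R255
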