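-- KEEP
import Claimed.Agent.R255.Comp.SlackDefs

/-!
# Row 255 (BR paper), Sec. 10, LEMMA 10.3, the hypotheses of the classical interface `kl_growth`      (architect helper17; prefix `sl_`)

PAPER-FREE, EXACT GEOMETRY (no smallness of `ε`).   Data `slKl` (`Comp/SlackDefs.lean`): lines = atoms of the class `clsOf tag j`; law `Q = P.ext (p9_unif TT)`, `P` = any law on `T.Ω` supported on charged samples with label `j`,
`TT o = slTTo … o` = atoms of the class near the cell `slZ (site (O o))`;   label = the endpoint aperture label `T.D`, read-out `T.geo`.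
On the support of `Q` (`p9_unif_supp`, needs `hne`): `P.p x.1 ≠ 0`, `x.2 ∈ TT x.1`.   All fields of `slKl` unfold by `rfl` / `show`.
-/

set_option autoImplicit false

namespace Claimed.Agent.R255

open scoped BigOperators
open Classical
open FLaw Pkt Osc

/-- the standing assumptions of this file -/
structure SlCtx {τ : Type} (γ : ℝ) (E : PEnv) (B : PBd) (T : PTest) (r bs : ℝ) (p : Atoms.Par) (ξ : ℝ) (S0 : ℕ) (A0 : ℝ)
    (At : Atoms) (Cl : Classes At) (tag : At.𝔸 → τ) (win : T.ι → ℕ × τ) (h κ c₁ : ℝ) (j : Classes.Lab τ) (P : FLaw T.Ω) : Prop where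
  cut : CutOK γ E B T r bs p ξ S0 A0 At Cl tag win
  h0 : 0 < h
  κ0 : 0 < κ
  c0 : 0 ≤ c₁
  rt : r + 2 * h = T.t
  /-- the uncertainty slack -/
  slack : ∀ o, 0 < T.P.p o → (T.geo (T.D o)).a + h + κ ≤ E.u T.t
  /-- `P` lives on the charged samples with label `j` -/
  sub : ∀ o, P.p o ≠ 0 → 0 < T.P.p o ∧ ctJ E r bs T win o = j
  /-- contributors exist -/
  ne : ∀ o, P.p o ≠ 0 → (slTTo E T At (Cl.clsOf tag j) (E.u T.t - h - κ) c₁ o).Nonempty

section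
variable {τ : Type} {γ : ℝ} {E : PEnv} {B : PBd} {T : PTest} {r bs : ℝ} {p : Atoms.Par} {ξ : ℝ} {S0 : ℕ} {A0 : ℝ}
  {At : Atoms} {Cl : Classes At} {tag : At.𝔸 → τ} {win : T.ι → ℕ × τ} {h κ c₁ : ℝ} {j : Classes.Lab τ} {P : FLaw T.Ω}

/-- the support of the contributor law -/
theorem sl_supp [Nonempty At.𝔸] (X : SlCtx γ E B T r bs p ξ S0 A0 At Cl tag win h κ c₁ j P) (x : T.Ω × At.𝔸)
    (hx : 0 < (P.ext (p9_unif (slTTo E T At (Cl.clsOf tag j) (E.u T.t - h - κ) c₁))).p x) :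
    0 < T.P.p x.1 ∧ ctJ E r bs T win x.1 = j ∧ x.2 ∈ Cl.clsOf tag j ∧
      slNear E.ε (E.u T.t - h - κ) T.t c₁ (slZ E.ε (E.u T.t - h - κ) T.t (T.site (T.O x.1))) (At.asite x.2) := by
  obtain ⟨h1, h2⟩ := p9_unif_supp P _ X.ne x hx.ne'
  obtain ⟨h3, h4⟩ := X.sub x.1 h1
  have h5 := Finset.mem_filter.1 h2
  exact ⟨h3, h4, h5.1, h5.2⟩

theorem sl_ip_le (y : E2) (c s : ℝ) (hcs : c ^ 2 + s ^ 2 = 1) : |ip (toP y) (c, s)| ≤ ‖y‖ := by
  rw [EuclideanSpace.norm_eq, Fin.sum_univ_two]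
  apply Real.abs_le_sqrt
  simp only [ip, toP, Real.norm_eq_abs, sq_abs]
  nlinarith [sq_nonneg (y 0 * s - y 1 * c)]

/-- LEAF `L-SL-HYP1` (~40 l.).   `|ip (toP x) (tang th)| ≤ ‖x‖`, `|ip (toP x) (nrm th)| ≤ ‖x‖` (Cauchy-Schwarz by hand: `(x₀ c + x₁ s)² ≤ (x₀² + x₁²)(c² + s²)`, `Real.cos_sq_add_sin_sq`, `EuclideanSpace.norm_eq`, `Fin.sum_univ_two`, `Real.sqrt_le_sqrt`/`abs_le_of_sq_le`);
`ip` is additive in the first argument, `toP (x + y) = toP x + toP y`. -/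
theorem sl_rect_add {K ε b a th δ c : ℝ} {z : ℝ × ℝ} {y : E2} (hz : InRect K ε b a th z) (hy : ‖y‖ ≤ c * δ) (hc : 0 ≤ c)
    (hb : δ ≤ ε ^ b) (ha : δ ≤ ε ^ a) : InRect (K + c) ε b a th (z + toP y) := by
  have h1 : |ip (toP y) (tang th)| ≤ ‖y‖ := sl_ip_le y _ _ (Real.cos_sq_add_sin_sq th)
  have h2 : |ip (toP y) (nrm th)| ≤ ‖y‖ := sl_ip_le y _ _ (by
    have := Real.cos_sq_add_sin_sq th
    nlinarith)
  have add : ∀ w : ℝ × ℝ, ip (z + toP y) w = ip z w + ip (toP y) w := by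
    intro w
    simp only [ip, Prod.fst_add, Prod.snd_add]
    ring
  constructor
  · rw [add]
    calc |ip z (tang th) + ip (toP y) (tang th)| ≤ |ip z (tang th)| + |ip (toP y) (tang th)| := abs_add_le _ _
      _ ≤ K * ε ^ b + c * ε ^ b := add_le_add hz.1 (h1.trans (hy.trans (mul_le_mul_of_nonneg_left hb hc)))
      _ = (K + c) * ε ^ b := by ring
  · rw [add]
    calc |ip z (nrm th) + ip (toP y) (nrm th)| ≤ |ip z (nrm th)| + |ip (toP y) (nrm th)| := abs_add_le _ _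
      _ ≤ K * ε ^ a + c * ε ^ a := add_le_add hz.2 (h2.trans (hy.trans (mul_le_mul_of_nonneg_left ha hc)))
      _ = (K + c) * ε ^ a := by ring

/-- LEAF `L-SL-HYP2` (~120 l.): the easy fields.   `mem`: `sl_supp`.   `nearV`, `nearX`: `X.cut.goodA.nearV/nearX` with `At.loc k = j.1` (`k ∈ clsOf tag j` means `Cl.lab tag k = j`, `congrArg Prod.fst`).
`time`: `j.1 = loc0 E.ε r bs (T.site (T.O x.1))` (`congrArg Prod.fst` of `ctJ … = j`, `rfl`), `pk_loc0_near`.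
`multT`: `r + (T.t - r) = T.t`; the filtered image is a subset of the one in `X.cut.obT.multT (T.O x.1) ⟨x.1, _, rfl⟩` (`Finset.card_le_card`; a charged `x'` gives the active site `T.O x'.1`). -/
theorem sl_hyp_easy [Nonempty At.𝔸] (X : SlCtx γ E B T r bs p ξ S0 A0 At Cl tag win h κ c₁ j P) :
    let D := slKl E T r bs At j.1 (Cl.clsOf tag j) P (slTTo E T At (Cl.clsOf tag j) (E.u T.t - h - κ) c₁)
    (∀ o, 0 < D.Q.p o → D.Tt o ∈ D.S) ∧
    (∀ k ∈ D.S, ‖D.V k - D.VJ‖ ≤ p.Ca * D.ε ^ D.bs) ∧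
    (∀ k ∈ D.S, ‖D.X k - D.XJ‖ ≤ p.Ca * (D.ε ^ D.r * D.ε ^ D.bs)) ∧
    (∀ o, 0 < D.Q.p o → D.Cr ≤ D.c o ∧ D.c o < D.Cr + D.ε ^ D.r) ∧
    (∀ o, 0 < D.Q.p o → (((Finset.univ.filter (fun o' => 0 < D.Q.p o')).image D.c).filter
      (fun x => |x - D.c o| < D.ε ^ (D.r + D.d))).card ≤ B.Mu) := by
  intro D
  have hε := X.cut.obE.ε0
  have hloc : ∀ k ∈ Cl.clsOf tag j, At.loc k = j.1 := by
    intro k hk
    exact congrArg Prod.fst (Finset.mem_filter.1 hk).2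
  refine ⟨fun o ho => (sl_supp X o ho).2.2.1, ?_, ?_, ?_, ?_⟩
  · intro k hk
    have h1 := X.cut.goodA.nearV k
    rw [hloc k hk] at h1
    exact h1
  · intro k hk
    have h1 := X.cut.goodA.nearX k
    rw [hloc k hk] at h1
    exact h1
  · intro o ho
    have h1 : loc0 E.ε r bs (T.site (T.O o.1)) = j.1 := congrArg Prod.fst (sl_supp X o ho).2.1
    obtain ⟨-, -, n3, n4, -⟩ := pk_loc0_near hε r bs (T.site (T.O o.1))
    rw [h1] at n3 n4
    exact ⟨n3, n4⟩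
  · intro o ho
    have hpos := (sl_supp X o ho).1
    refine le_trans (Finset.card_le_card ?_) (X.cut.obT.multT (T.O o.1) ⟨o.1, hpos, rfl⟩)
    intro x hx
    simp only [Finset.mem_filter, Finset.mem_image, Finset.mem_univ, true_and] at hx ⊢
    obtain ⟨⟨o', ho', rfl⟩, hlt⟩ := hx
    refine ⟨⟨T.O o'.1, ⟨o'.1, (sl_supp X o' ho').1, rfl⟩, rfl⟩, ?_⟩
    have e : E.ε ^ (r + (T.t - r)) = E.ε ^ T.t := by
      congr 1
      ring
    rw [← e]
    exact hlt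

/-- LEAF `L-SL-HYP3` (~150 l.): FAITHFULNESS of the enlarged aperture.   `x` charged, `s = T.site (T.O x.1)`, `g = T.geo (T.D x.1)`, `A = At.asite x.2`, `aZ = u_t - h - κ`.   `X.cut.obT.geo x.1 _ : GeoOK g B.Ke ε t L u_t s`, `X.cut.bsb`, `X.slack` (`g.a ≤ aZ`).
Widths: `g.a - bs + (t - r) ≤ min (u_r) (L - r) - bs` : `u_r = u_t + h`, `t - r = 2h`, `g.a + h + κ ≤ u_t`; `g.a ≤ L - t`.   `|s.C - g.tc| = 0`.
Velocity: `toP A.V - g.vc = (toP s.V - g.vc) + toP (A.V - s.V)`, `‖A.V - s.V‖ ≤ ‖A.V - cellC‖ + ‖cellC - s.V‖ ≤ (c₁ + 1) ε^aZ` (`slNear`, `pk_cell_near`), `ε^aZ ≤ ε^(g.a) ≤ ε^(g.b)`; `sl_rect_add` with `δ = ε^aZ`.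
Position: `A.C = j.1.Cr` (`goodA.time`, `loc = j.1`), `g.tc = s.C`, `r + (t - r) = t`; `toP (A.X + (s.C - A.C) • A.V) - g.xc = (toP s.X - g.xc) + toP (A.X + (s.C - A.C) • A.V - s.X)`, norm `≤ (c₁ + 1) ε^(aZ + t)`; `sl_rect_add` with `δ = ε^(aZ+t)`. -/
theorem sl_hyp_faith [Nonempty At.𝔸] (X : SlCtx γ E B T r bs p ξ S0 A0 At Cl tag win h κ c₁ j P) :
    let D := slKl E T r bs At j.1 (Cl.clsOf tag j) P (slTTo E T At (Cl.clsOf tag j) (E.u T.t - h - κ) c₁)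
    ∀ o, 0 < D.Q.p o → D.bs ≤ (D.geo (D.G o)).b ∧ (D.geo (D.G o)).b ≤ (D.geo (D.G o)).a ∧
    (D.geo (D.G o)).a - D.bs + D.d ≤ D.Lc ∧ |D.c o - (D.geo (D.G o)).tc| ≤ (B.Ke + (c₁ + 1)) * D.ε ^ (D.r + D.d) ∧
    InRect (B.Ke + (c₁ + 1)) D.ε (D.geo (D.G o)).b (D.geo (D.G o)).a (D.geo (D.G o)).th (toP (D.V (D.Tt o)) - (D.geo (D.G o)).vc) ∧
    InRect (B.Ke + (c₁ + 1)) D.ε ((D.geo (D.G o)).b + (D.r + D.d)) ((D.geo (D.G o)).a + (D.r + D.d)) (D.geo (D.G o)).th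
      (toP (D.X (D.Tt o) + ((D.geo (D.G o)).tc - D.Cr) • D.V (D.Tt o)) - (D.geo (D.G o)).xc) := by
  intro D x hx
  obtain ⟨hch, -, hcl, hnV, hnX⟩ := sl_supp X x hx
  obtain ⟨g0, gba, gL, -, gtc, gV, gX⟩ := X.cut.obT.geo x.1 hch
  have hbs := X.cut.bsb x.1 hch
  have hsl := X.slack x.1 hch
  have hε0 : 0 < E.ε := X.cut.obE.ε0
  have hε1 : E.ε < 1 := X.cut.obE.ε1
  have hh := X.h0
  have hκ := X.κ0
  have hrt := X.rt
  have hc1 : 0 ≤ c₁ + 1 := by linarith [X.c0]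
  have hKe : 0 ≤ B.Ke := by
    have h1 : 0 ≤ B.Ke * E.ε ^ (T.geo (T.D x.1)).b := le_trans (abs_nonneg _) gV.1
    exact nonneg_of_mul_nonneg_left h1 (Real.rpow_pos_of_pos hε0 _)
  have hur : E.u r = E.u T.t + h := by
    unfold PEnv.u
    rw [← hrt]
    ring
  have hloc : At.loc x.2 = j.1 := congrArg Prod.fst (Finset.mem_filter.1 hcl).2
  have hAC : (At.asite x.2).C = j.1.Cr E.ε r := by rw [X.cut.goodA.time x.2, hloc]
  have hmono : ∀ {p q : ℝ}, p ≤ q → E.ε ^ q ≤ E.ε ^ p := fun {p q} hpq =>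
    Real.rpow_le_rpow_of_exponent_ge hε0 hε1.le hpq
  have erd : r + (T.t - r) = T.t := by ring
  refine ⟨hbs, gba, ?_, ?_, ?_, ?_⟩
  · show (T.geo (T.D x.1)).a - bs + (T.t - r) ≤ min (E.u r) (E.L - r) - bs
    have : (T.geo (T.D x.1)).a + (T.t - r) ≤ min (E.u r) (E.L - r) := by
      apply le_min
      · rw [hur]; linarith
      · linarith
    linarith
  · show |(T.site (T.O x.1)).C - (T.geo (T.D x.1)).tc| ≤ (B.Ke + (c₁ + 1)) * E.ε ^ (r + (T.t - r))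
    rw [gtc, sub_self, abs_zero]
    exact mul_nonneg (by linarith) (Real.rpow_pos_of_pos hε0 _).le
  · show InRect (B.Ke + (c₁ + 1)) E.ε (T.geo (T.D x.1)).b (T.geo (T.D x.1)).a (T.geo (T.D x.1)).th
      (toP (At.asite x.2).V - (T.geo (T.D x.1)).vc)
    have e : toP (At.asite x.2).V - (T.geo (T.D x.1)).vc
        = (toP (T.site (T.O x.1)).V - (T.geo (T.D x.1)).vc) + toP ((At.asite x.2).V - (T.site (T.O x.1)).V) := by
      ext <;> simp [toP]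
    rw [e]
    have hw : 0 < E.ε ^ (E.u T.t - h - κ) := Real.rpow_pos_of_pos hε0 _
    have hn : ‖(At.asite x.2).V - (T.site (T.O x.1)).V‖ ≤ (c₁ + 1) * E.ε ^ (E.u T.t - h - κ) := by
      have h1 := pk_cell_near hw (T.site (T.O x.1)).V
      have h2 : ‖(At.asite x.2).V - cellC (E.ε ^ (E.u T.t - h - κ)) (cell (E.ε ^ (E.u T.t - h - κ)) (T.site (T.O x.1)).V)‖
          ≤ c₁ * E.ε ^ (E.u T.t - h - κ) := hnV
      calc ‖(At.asite x.2).V - (T.site (T.O x.1)).V‖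
          = ‖((At.asite x.2).V - cellC (E.ε ^ (E.u T.t - h - κ)) (cell (E.ε ^ (E.u T.t - h - κ)) (T.site (T.O x.1)).V))
            - ((T.site (T.O x.1)).V - cellC (E.ε ^ (E.u T.t - h - κ)) (cell (E.ε ^ (E.u T.t - h - κ)) (T.site (T.O x.1)).V))‖ := by
            congr 1; abel
        _ ≤ _ := norm_sub_le _ _
        _ ≤ c₁ * E.ε ^ (E.u T.t - h - κ) + E.ε ^ (E.u T.t - h - κ) := add_le_add h2 h1
        _ = _ := by ring
    exact sl_rect_add gV hn hc1 (hmono (by linarith)) (hmono (by linarith))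
  · show InRect (B.Ke + (c₁ + 1)) E.ε ((T.geo (T.D x.1)).b + (r + (T.t - r))) ((T.geo (T.D x.1)).a + (r + (T.t - r)))
      (T.geo (T.D x.1)).th
      (toP ((At.asite x.2).X + ((T.geo (T.D x.1)).tc - j.1.Cr E.ε r) • (At.asite x.2).V) - (T.geo (T.D x.1)).xc)
    rw [erd, gtc, ← hAC]
    have e : toP ((At.asite x.2).X + ((T.site (T.O x.1)).C - (At.asite x.2).C) • (At.asite x.2).V) - (T.geo (T.D x.1)).xc
        = (toP (T.site (T.O x.1)).X - (T.geo (T.D x.1)).xc)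
          + toP ((At.asite x.2).X + ((T.site (T.O x.1)).C - (At.asite x.2).C) • (At.asite x.2).V - (T.site (T.O x.1)).X) := by
      ext <;> simp [toP]
    rw [e]
    have hw : 0 < E.ε ^ (E.u T.t - h - κ + T.t) := Real.rpow_pos_of_pos hε0 _
    have hn : ‖(At.asite x.2).X + ((T.site (T.O x.1)).C - (At.asite x.2).C) • (At.asite x.2).V - (T.site (T.O x.1)).X‖
        ≤ (c₁ + 1) * E.ε ^ (E.u T.t - h - κ + T.t) := by
      have h1 := pk_cell_near hw (T.site (T.O x.1)).X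
      have h2 : ‖(At.asite x.2).X + ((T.site (T.O x.1)).C - (At.asite x.2).C) • (At.asite x.2).V
          - cellC (E.ε ^ (E.u T.t - h - κ + T.t)) (cell (E.ε ^ (E.u T.t - h - κ + T.t)) (T.site (T.O x.1)).X)‖
          ≤ c₁ * E.ε ^ (E.u T.t - h - κ + T.t) := hnX
      calc ‖(At.asite x.2).X + ((T.site (T.O x.1)).C - (At.asite x.2).C) • (At.asite x.2).V - (T.site (T.O x.1)).X‖
          = ‖((At.asite x.2).X + ((T.site (T.O x.1)).C - (At.asite x.2).C) • (At.asite x.2).V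
              - cellC (E.ε ^ (E.u T.t - h - κ + T.t)) (cell (E.ε ^ (E.u T.t - h - κ + T.t)) (T.site (T.O x.1)).X))
            - ((T.site (T.O x.1)).X - cellC (E.ε ^ (E.u T.t - h - κ + T.t)) (cell (E.ε ^ (E.u T.t - h - κ + T.t)) (T.site (T.O x.1)).X))‖ := by
            congr 1; abel
        _ ≤ _ := norm_sub_le _ _
        _ ≤ c₁ * E.ε ^ (E.u T.t - h - κ + T.t) + E.ε ^ (E.u T.t - h - κ + T.t) := add_le_add h2 h1
        _ = _ := by ring
    exact sl_rect_add gX hn hc1 (hmono (by linarith)) (hmono (by linarith))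

/-- LEAF `L-SL-HYP4` (~50 l.): CAP COUNTS.   `X.cut.goodC.capcount j.1 j.2.1 F` (`F.a ≤ min (u_r) (L - r) - bs + bs`); the filtered class is a subset of `univ.filter (loc = j.1 ∧ cls = j.2.1 ∧ InCap 1 ε r F (asite ·))` (`InCap` unfolds to the two rectangles; `Nat.cast_le`, `Finset.card_le_card`). -/
theorem sl_hyp_cap [Nonempty At.𝔸] (X : SlCtx γ E B T r bs p ξ S0 A0 At Cl tag win h κ c₁ j P) :
    let D := slKl E T r bs At j.1 (Cl.clsOf tag j) P (slTTo E T At (Cl.clsOf tag j) (E.u T.t - h - κ) c₁)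
    ∀ F : Geo, D.bs ≤ F.b → F.b ≤ F.a → F.a ≤ D.Lc + D.bs →
    ((D.S.filter (fun k => InRect 1 D.ε F.b F.a F.th (toP (D.V k) - F.vc) ∧
      InRect 1 D.ε (F.b + D.r) (F.a + D.r) F.th (toP (D.X k) - F.xc))).card : ℝ)
      ≤ D.ε ^ (-(Cl.gB j.1 j.2.1 - (wt γ F - 2 * D.bs))) := by
  intro D F h1 h2 h3
  have h3' : F.a ≤ min (E.u r) (E.L - r) - bs + bs := h3
  rw [sub_add_cancel] at h3'
  have hc := X.cut.goodC.capcount j.1 j.2.1 F h1 h2 (h3'.trans (min_le_right _ _)) (h3'.trans (min_le_left _ _))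
  show (((Cl.clsOf tag j).filter (fun k => InRect 1 E.ε F.b F.a F.th (toP (At.asite k).V - F.vc) ∧
      InRect 1 E.ε (F.b + r) (F.a + r) F.th (toP (At.asite k).X - F.xc))).card : ℝ)
      ≤ E.ε ^ (-(Cl.gB j.1 j.2.1 - (wt γ F - 2 * bs)))
  refine le_trans ?_ hc
  refine Nat.cast_le.2 (Finset.card_le_card ?_)
  intro k hk
  have hk' := Finset.mem_filter.1 hk
  have hkS : k ∈ Cl.clsOf tag j := hk'.1
  unfold Classes.clsOf at hkS
  simp only [Finset.mem_filter, Finset.mem_univ, true_and] at hkS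
  simp only [Finset.mem_filter, Finset.mem_univ, true_and]
  exact ⟨congrArg Prod.fst hkS, congrArg (fun y => y.2.1) hkS, hk'.2⟩

/-- the hypotheses of `kl_growth` -/
theorem sl_hyp [Nonempty At.𝔸] (X : SlCtx γ E B T r bs p ξ S0 A0 At Cl tag win h κ c₁ j P) :
    (slKl E T r bs At j.1 (Cl.clsOf tag j) P (slTTo E T At (Cl.clsOf tag j) (E.u T.t - h - κ) c₁)).Hyp γ
      (B.Ke + (c₁ + 1)) p.Ca B.Mu (Cl.gB j.1 j.2.1) := by
  obtain ⟨e1, e2, e3, e4, e5⟩ := sl_hyp_easy X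
  exact ⟨e1, e2, e3, e4, e5, sl_hyp_faith X, sl_hyp_cap X⟩

end

end Claimed.Agent.R255
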