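-- KEEP
import Claimed.Agent.R255.Comp.SlackAn
import Claimed.Agent.R255.Comp.SlackGeo
import Claimed.Agent.R255.Comp.SlackHyp

/-!
# Row 255 (BR paper), Sec. 10, LEMMA 10.3, THE LOCAL STEP  `P_J ≤ A_J + γ h + (3/2) ξ + ν`      (architect helper17; prefix `sl_`)

GLUE: `p9_contrib_core` (`Pk9/Core.lean`) with `sl_mass`, `sl_loc`;  `kl_growth` (`Pkt/Klass.lean`) with `sl_hyp`;  `H(T) ≤ log N`.
-/

set_option autoImplicit false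

namespace Claimed.Agent.R255

open scoped BigOperators
open Classical
open FLaw Pkt Osc

theorem sl_c1_nonneg (B : PBd) (p : Atoms.Par) : 0 ≤ slC1 B p := by
  unfold slC1
  positivity

theorem sl_log_rpow_neg {ε : ℝ} (hε : 0 < ε) (ξ : ℝ) : Real.log (ε ^ (-ξ)) = ξ * lg ε := by
  rw [Real.log_rpow hε]
  unfold lg
  rw [one_div, Real.log_inv]
  ring

/-- **the local step of Lemma 10.3** -/
theorem sl_local (γ : ℝ) (h0 : 0 < γ) (h1 : γ < 1) (hcl : UnivBound γ γ) (B : PBd) (hB : B.Good) (p : Atoms.Par)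
    (A0 S h κ ν : ℝ) (hh : 0 < h) (hκ : 0 < κ) (hν : 0 < ν) :
    ∃ ε₀ : ℝ, 0 < ε₀ ∧ ∀ (E : PEnv) (T : PTest) (r bs ξ : ℝ) (S0 : ℕ) (At : Atoms) (Cl : Classes At) (τ : Type)
      (tag : At.𝔸 → τ) (win : T.ι → ℕ × τ), E.ε < ε₀ → CutOK γ E B T r bs p ξ S0 A0 At Cl tag win →
      WinOK E r bs T Cl tag win S → r + 2 * h = T.t →
      (∀ o, 0 < T.P.p o → (T.geo (T.D o)).a + h + κ ≤ E.u T.t) → ∀ o, T.P.p o ≠ 0 →
      pcPJ (lg E.ε) T.P T.O T.D (ctJ E r bs T win) (Cl.LmW E r bs tag T win) (ctW γ T) bs o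
        ≤ pcA (Cl.LN E tag) (Cl.Lm E) Cl.gJ (ctJ E r bs T win o) + γ * h + 3 / 2 * ξ + ν := by
  obtain ⟨K₁, εM, hK₁, hεM, HM⟩ := sl_mass B hB p A0 S h κ hh hκ
  have hc₁ := sl_c1_nonneg B p
  obtain ⟨c₁, hc₁def⟩ : ∃ c, c = slC1 B p := ⟨_, rfl⟩
  rw [← hc₁def] at hc₁ HM
  obtain ⟨εK, hεK, -, HK⟩ := kl_growth γ h0 h1 hcl (B.Ke + (c₁ + 1)) p.Ca (B.Hmax / 2) (2 * h) ν B.Mu (by positivity) hν
  obtain ⟨εS, hεS, HS⟩ := ct_small (3 / 2 * Real.log K₁ + 3 / 2 * Real.log ((2 * c₁ + 1) ^ 4)) (ν / 2) (by positivity)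
  refine ⟨min εM (min εK εS), lt_min hεM (lt_min hεK hεS), ?_⟩
  intro E T r bs ξ S0 At Cl τ tag win hε H hW hrt hsl o ho
  have hεM' : E.ε < εM := lt_of_lt_of_le hε (min_le_left _ _)
  have hεK' : E.ε < εK := lt_of_lt_of_le hε ((min_le_right _ _).trans (min_le_left _ _))
  have hεS' : E.ε < εS := lt_of_lt_of_le hε ((min_le_right _ _).trans (min_le_right _ _))
  have hε0 := H.obE.ε0
  have hε1 := H.obE.ε1
  have hl : 0 < lg E.ε := p9_lg_pos hε0 hε1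
  obtain ⟨j, hj⟩ : ∃ j, j = ctJ E r bs T win o := ⟨_, rfl⟩
  obtain ⟨aZ, haZ⟩ : ∃ a, a = E.u T.t - h - κ := ⟨_, rfl⟩
  obtain ⟨P, hP⟩ : ∃ P, P = T.P.cfib (ctJ E r bs T win) o := ⟨_, rfl⟩
  have hfib : 0 < T.P.pr (fun o' => ctJ E r bs T win o' = ctJ E r bs T win o) := ent_fib_pos T.P _ ho
  have hsupp : ∀ o', P.p o' ≠ 0 → 0 < T.P.p o' ∧ ctJ E r bs T win o' = j := by
    intro o' ho'
    rw [hP] at ho'
    obtain ⟨a1, a2⟩ := (ent_cnd_supp T.P _ hfib).1 ho'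
    exact ⟨ct_pos_of_ne _ a2, by rw [hj]; exact a1⟩
  obtain ⟨A₀, hA₀⟩ := ct_cls_nonempty H hW o ho
  rw [← hj] at hA₀
  have : Nonempty At.𝔸 := ⟨A₀⟩
  -- the mass bin
  have hlab : ∀ A ∈ Cl.clsOf tag j, At.loc A = j.1 ∧ Cl.cls A = j.2.1 := by
    intro A hA
    have e := (Finset.mem_filter.1 hA).2
    exact ⟨congrArg Prod.fst e, congrArg (fun x => x.2.1) e⟩
  have hmB : 0 < Cl.mB j.1 j.2.1 := by
    have := ct_mB_pos hε0 H.nrm H.goodA H.goodC A₀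
    rwa [(hlab A₀ hA₀).1, (hlab A₀ hA₀).2] at this
  obtain ⟨m0, hm0def⟩ : ∃ m, m = Cl.mB j.1 j.2.1 * E.ε ^ (-ξ) := ⟨_, rfl⟩
  have hm0 : 0 < m0 := by
    rw [hm0def]
    exact mul_pos hmB (Real.rpow_pos_of_pos hε0 _)
  -- the objects of the contributor core
  obtain ⟨m, hm⟩ : ∃ m : T.ι → ℝ, m = fun i => (E.withInput (Cl.hJ E r tag j)).m T.t (T.site i) := ⟨_, rfl⟩
  have hmnn : ∀ i, 0 ≤ m i := fun i => by
    rw [hm]
    exact sq_nonneg _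
  have hmpos : ∀ o', P.p o' ≠ 0 → 0 < m (T.O o') := by
    intro o' ho'
    obtain ⟨a1, a2⟩ := hsupp o' ho'
    have := ct_mW_pos H hW o' a1
    rw [a2] at this
    rw [hm]
    exact this
  obtain ⟨Z, hZ⟩ : ∃ Z : T.Ω → SlZ, Z = fun o' => slZ E.ε aZ T.t (T.site (T.O o')) := ⟨_, rfl⟩
  obtain ⟨C, hC⟩ : ∃ C : T.Ω → ℝ, C = fun o' => (T.site (T.O o')).C := ⟨_, rfl⟩
  obtain ⟨SS, hSS⟩ : ∃ SS : SlZ → Finset T.ι, SS = fun z => slSites E T r bs win j aZ z := ⟨_, rfl⟩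
  obtain ⟨TT, hTT⟩ : ∃ TT : SlZ → Finset At.𝔸, TT = fun z => slTT At (Cl.clsOf tag j) E.ε aZ T.t c₁ z := ⟨_, rfl⟩
  have hSmem : ∀ o', P.p o' ≠ 0 → T.O o' ∈ SS (Z o') := by
    intro o' ho'
    obtain ⟨a1, a2⟩ := hsupp o' ho'
    rw [hSS, hZ]
    exact Finset.mem_filter.2 ⟨Finset.mem_univ _, ⟨o', a1, rfl⟩, a2, rfl⟩
  have hmass : ∀ o', P.p o' ≠ 0 → ∑ i ∈ SS (Z o'), m i ≤ K₁ * m0 * ((TT (Z o')).card : ℝ) := by
    intro o' _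
    have := HM γ E T r bs ξ S0 At Cl τ tag win hεM' H hW hrt j (Z o')
    rw [← haZ] at this
    rw [hSS, hTT, hm, hm0def]
    exact this
  have hloc : ∀ (A : At.𝔸) (c : ℝ), ∃ Zs : Finset SlZ, (Zs.card : ℝ) ≤ (2 * c₁ + 1) ^ 4 ∧
      ∀ o', P.p o' ≠ 0 → A ∈ TT (Z o') → C o' = c → Z o' ∈ Zs := by
    intro A c
    obtain ⟨Zs, hZs, hmem⟩ := sl_loc c₁ hc₁ E.ε aZ T.t hε0 (At.asite A) c
    refine ⟨Zs, hZs, fun o' _ hA hc => hmem _ ?_ ?_⟩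
    · rw [hZ]
      rw [hC] at hc
      exact hc
    · rw [hTT] at hA
      exact (Finset.mem_filter.1 hA).2
  have hne : ∀ o', P.p o' ≠ 0 → (TT (Z o')).Nonempty := by
    intro o' ho'
    have a1 : 0 < ∑ i ∈ SS (Z o'), m i :=
      lt_of_lt_of_le (hmpos o' ho') (Finset.single_le_sum (fun i _ => hmnn i) (hSmem o' ho'))
    have a2 := lt_of_lt_of_le a1 (hmass o' ho')
    by_contra hcon
    rw [Finset.not_nonempty_iff_eq_empty] at hcon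
    rw [hcon] at a2
    simp at a2
  have hcore := p9_contrib_core P T.O T.D Z C
    (fun a b _ _ e => by rw [hZ]; show slZ _ _ _ (T.site (T.O a)) = slZ _ _ _ (T.site (T.O b)); rw [e])
    (fun a b _ _ e => by
      rw [hZ] at e
      rw [hC]
      exact congrArg Prod.fst e)
    (fun a b ha hb e => by
      have g1 := (H.obT.geo a (hsupp a ha).1).2.2.2.2.1
      have g2 := (H.obT.geo b (hsupp b hb).1).2.2.2.2.1
      rw [hC]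
      show (T.site (T.O a)).C = (T.site (T.O b)).C
      rw [← g1, ← g2, e])
    m hmnn hmpos SS hSmem TT m0 K₁ ((2 * c₁ + 1) ^ 4) hm0 hK₁ hmass hloc
  -- the classical interface
  have hTTo : (fun o' => TT (Z o')) = slTTo E T At (Cl.clsOf tag j) (E.u T.t - h - κ) c₁ := by
    rw [hTT, hZ, ← haZ]
    rfl
  have X : SlCtx γ E B T r bs p ξ S0 A0 At Cl tag win h κ c₁ j P :=
    ⟨H, hh, hκ, hc₁, hrt, hsl, hsupp, fun o' ho' => by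
      have := hne o' ho'
      rw [← hTTo]
      exact this⟩
  have hyp := sl_hyp X
  rw [← hTTo] at hyp
  obtain ⟨D, hD⟩ : ∃ D, D = slKl E T r bs At j.1 (Cl.clsOf tag j) P (fun o' => TT (Z o')) := ⟨_, rfl⟩
  rw [← hD] at hyp
  obtain ⟨Q, hQ⟩ : ∃ Q, Q = P.ext (p9_unif fun o' => TT (Z o')) := ⟨_, rfl⟩
  rw [← hQ] at hcore
  have hd : D.d = 2 * h := by
    rw [hD]
    show T.t - r = 2 * h
    linarith
  have hdL : D.d ≤ D.Lc := by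
    obtain ⟨x, hx⟩ := ent_exists_supp D.Q
    obtain ⟨f1, f2, f3, -⟩ := hyp.faith x (ct_pos_of_ne _ hx)
    linarith
  have hLm : D.Lc ≤ B.Hmax / 2 := by
    rw [hD]
    show min (E.u r) (E.L - r) - bs ≤ B.Hmax / 2
    have a1 : min (E.u r) (E.L - r) ≤ E.u r := min_le_left _ _
    have a2 : E.u r = (E.H - r) / 2 := rfl
    have a3 := H.obE.H1
    have a4 := H.r0
    have a5 := H.bs0
    linarith
  have hkl := HK D (Cl.gB j.1 j.2.1) (by rw [hD]; exact hε0) (by rw [hD]; exact hεK') (by rw [hd]) hdL hLm hyp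
  rw [hd] at hkl
  have hkl' : P.ev (fun o' => ctW γ T o' - 2 * bs)
      + (Q.entC (fun x => x.2) (fun x => T.D x.1) + 2 * Q.entC (fun x => C x.1) (fun x => x.2)) / lg E.ε
      ≤ Cl.gB j.1 j.2.1 + γ * (2 * h) + ν := by
    rw [← p9_ext_ev P (p9_unif fun o' => TT (Z o')) (fun o' => ctW γ T o' - 2 * bs), ← hQ]
    rw [hD] at hkl
    rw [hC, hQ]
    exact hkl
  -- `H(T) ≤ log N`
  have hQsupp : ∀ x, Q.p x ≠ 0 → x.2 ∈ Cl.clsOf tag j := by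
    intro x hx
    rw [hQ] at hx
    have := (p9_unif_supp P _ hne x hx).2
    rw [hTT] at this
    exact (Finset.mem_filter.1 this).1
  have hentT : Q.ent (fun x => x.2) ≤ Real.log ((Cl.clsOf tag j).card : ℝ) := ent_le_log_card Q _ _ hQsupp
  -- the left side
  have hev : P.ev (Cl.LmW E r bs tag T win) = P.ev (fun o' => Real.log (m (T.O o'))) / lg E.ε := by
    rw [← pc_ev_div]
    apply ent_ev_congr
    intro o' ho'
    unfold Classes.LmW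
    rw [(hsupp o' ho').2, hm]
  have hlogm0 : Real.log m0 = Real.log (Cl.mB j.1 j.2.1) + ξ * lg E.ε := by
    rw [hm0def, Real.log_mul hmB.ne' (Real.rpow_pos_of_pos hε0 _).ne', sl_log_rpow_neg hε0]
  have hsmall := HS E.ε hε0 hεS'
  rw [← hj]
  unfold pcPJ pscore
  rw [← hP, hev]
  unfold pcA Classes.LN Classes.Lm Classes.gJ pcLN
  rw [hlogm0] at hcore
  -- arithmetic
  obtain ⟨x1, hx1⟩ : ∃ x, x = P.ent T.O := ⟨_, rfl⟩
  obtain ⟨x2, hx2⟩ : ∃ x, x = P.entC T.O T.D := ⟨_, rfl⟩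
  obtain ⟨x3, hx3⟩ : ∃ x, x = P.ev (fun o' => Real.log (m (T.O o'))) := ⟨_, rfl⟩
  obtain ⟨x4, hx4⟩ : ∃ x, x = P.ev (fun o' => ctW γ T o' - 2 * bs) := ⟨_, rfl⟩
  obtain ⟨y1, hy1⟩ : ∃ x, x = Q.ent (fun x => x.2) := ⟨_, rfl⟩
  obtain ⟨y2, hy2⟩ : ∃ x, x = Q.entC (fun x => x.2) (fun x => T.D x.1) := ⟨_, rfl⟩
  obtain ⟨y3, hy3⟩ : ∃ x, x = Q.entC (fun x => C x.1) (fun x => x.2) := ⟨_, rfl⟩
  obtain ⟨n1, hn1⟩ : ∃ x, x = Real.log ((Cl.clsOf tag j).card : ℝ) := ⟨_, rfl⟩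
  obtain ⟨n2, hn2⟩ : ∃ x, x = Real.log (Cl.mB j.1 j.2.1) := ⟨_, rfl⟩
  obtain ⟨k1, hk1⟩ : ∃ x, x = 3 / 2 * Real.log K₁ + 3 / 2 * Real.log ((2 * c₁ + 1) ^ 4) := ⟨_, rfl⟩
  obtain ⟨l, hldef⟩ : ∃ x, x = lg E.ε := ⟨_, rfl⟩
  rw [← hx1, ← hx2, ← hx3, ← hy1, ← hy2, ← hy3, ← hn2, ← hldef] at hcore
  rw [← hx4, ← hy2, ← hy3, ← hldef] at hkl'
  rw [← hy1, ← hn1] at hentT
  rw [← hk1, ← hldef] at hsmall
  rw [← hx1, ← hx2, ← hx3, ← hx4, ← hn1, ← hn2, ← hldef]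
  rw [← hldef] at hl
  have e1 : (x1 + x2 / 2) / l + 3 / 2 * (x3 / l) = (x1 + 1 / 2 * x2 + 3 / 2 * x3) / l := by ring
  have e2 : (x1 + 1 / 2 * x2 + 3 / 2 * x3) / l ≤ (n1 + 3 / 2 * (n2 + ξ * l) + 1 / 2 * y2 + y3 + k1) / l := by
    apply div_le_div_of_nonneg_right _ hl.le
    linarith
  have e3 : (n1 + 3 / 2 * (n2 + ξ * l) + 1 / 2 * y2 + y3 + k1) / l
      = n1 / l + 3 / 2 * (n2 / l) + 3 / 2 * ξ + 1 / 2 * ((y2 + 2 * y3) / l) + k1 / l := by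
    field_simp
    ring
  linarith

end Claimed.Agent.R255
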