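-- KEEP
import Claimed.Agent.R255.Comp.SlackLoc
import Claimed.Agent.R255.Comp.ExpDefs

/-!
# Row 255 (BR paper), Sec. 10, LEMMA 10.3: EXCLUSION OF A FIXED UNCERTAINTY SLACK      (architect helper17; prefix `sl_`, exits `pkt_slack`, `pkt_slack_gap`)

* `sl_cut`         (10.off-boundary-finite-growth) for tests with the output floor:  `cut_main` (`CompHyp.split`, `.sub`, `.whole`; trivial tags, `r = t - 2h`, `b_* = 0`) + `sl_local`.
* `pkt_slack`      the same for all tests (`pcx_floor`, `pcx_floor_upper` of `Comp/Floor.lean`):   `a + h + κ ≤ u_t` on the support  ⟹  `P_t ≤ K₀ + β (t - 2h) + γ h + ν`.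
* `pkt_slack_gap`  the form consumed by P10.4 (helper95):  `γ/2 < β`, `a ≤ u_t - κ₁` on the support, `κ₁ ≤ t`  ⟹  deficit `≥ c₁ = (2β - γ) κ₁ / 8`.
-/

set_option autoImplicit false

namespace Claimed.Agent.R255

open scoped BigOperators
open Classical
open FLaw Pkt Osc

/-- (10.off-boundary-finite-growth) under the output floor -/
theorem sl_cut (γ β : ℝ) (h0 : 0 < γ) (h1 : γ < 1) (hrate : PRate γ β) (hcl : UnivBound γ γ) (B : PBd) (hB : B.Good)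
    (A0 h κ rmin ν : ℝ) (hh : 0 < h) (hκ : 0 < κ) (hr : 0 < rmin) (hν : 0 < ν) :
    ∃ ε₀ : ℝ, 0 < ε₀ ∧ ∀ (E : PEnv) (T : PTest), E.ε < ε₀ → E.Obeys B → T.Obeys B E → rmin + 2 * h ≤ T.t →
      (∀ o, 0 < T.P.p o → (T.geo (T.D o)).a + h + κ ≤ E.u T.t) →
      (∀ o, 0 < T.P.p o → E.ε ^ A0 * E.nrm2 ≤ E.m T.t (T.site (T.O o))) →
      score γ E T ≤ K0 γ B.M E + β * (T.t - 2 * h) + γ * h + ν := by
  obtain ⟨c, εC, hεC, -, hξR, -, -, -, HA, HB, -⟩ :=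
    cut_main γ β h0 h1 hrate B hB (2 * h) rmin (ν / 8) A0 (by positivity) hr (by positivity) 1
  obtain ⟨εL, hεL, HL⟩ := sl_local γ h0 h1 hcl B hB c.p A0 ((c.S0 : ℝ) * (Fintype.card Unit : ℝ)) h κ (ν / 8) hh hκ
    (by positivity)
  refine ⟨min εC εL, lt_min hεC hεL, ?_⟩
  intro E T hε hE hT hrt hsl hfl
  have hεC' : E.ε < εC := lt_of_lt_of_le hε (min_le_left _ _)
  have hεL' : E.ε < εL := lt_of_lt_of_le hε (min_le_right _ _)
  obtain ⟨r, hrdef⟩ : ∃ r, r = T.t - 2 * h := ⟨_, rfl⟩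
  have hr0 : 0 ≤ r := by linarith
  have hn : 0 < E.nrm2 := pcx_nrm2_pos hE hT
  obtain ⟨o₀, ho₀⟩ := ct_exists_supp T.P
  obtain ⟨g1, g2, g3, g4, -⟩ := hT.geo o₀ ho₀
  obtain ⟨At, Cl, hAt, hCl⟩ := HA E hE hεC' hn T.t r 0 hr0 (by linarith) le_rfl (by linarith) (by linarith)
  obtain ⟨win, hwin⟩ := ct_win_exists E T.t r 0 c.ξ c.S0 Cl hCl (fun _ => ()) T.site
  have H : CutOK γ E B T r 0 c.p c.ξ c.S0 A0 At Cl (fun _ => ()) win :=
    ⟨hE, hT, hn, hr0, by linarith, le_rfl, hAt, hCl, hwin, hfl, fun o ho => (hT.geo o ho).1⟩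
  obtain ⟨hW, hC⟩ := HB E T r 0 At Cl Unit (fun _ => ()) win hεC' (by simp) H (by linarith) (Or.inr (by linarith))
  have hloc := HL E T r 0 c.ξ c.S0 At Cl Unit (fun _ => ()) win hεL' H hW (by linarith) hsl
  have h2 : T.P.ev (pcPJ (lg E.ε) T.P T.O T.D (ctJ E r 0 T win) (Cl.LmW E r 0 (fun _ => ()) T win) (ctW γ T) 0)
      ≤ T.P.ev (fun o => pcA (Cl.LA E) (Cl.Lm E) Cl.gJ (ctJ E r 0 T win o) + (γ * h + 3 / 2 * c.ξ + ν / 8)) := by
    refine ent_ev_mono T.P fun o ho => ?_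
    have a1 := hloc o ho
    have a2 := hC.sub o ho
    unfold pcA at a1 ⊢
    linarith
  rw [ent_ev_add, ent_ev_const] at h2
  have h3 := hC.split
  have h4 := hC.whole
  unfold pcKstar at h4
  rw [ct_score_eq, ← hrdef]
  linarith

/-- **Lemma 10.3**, (10.off-boundary-finite-growth) -/
theorem pkt_slack (γ β : ℝ) (h0 : 0 < γ) (h1 : γ < 1) (hβ : 0 ≤ β) (hrate : PRate γ β) (hcl : UnivBound γ γ) (B : PBd)
    (hB : B.Good) (h κ rmin ν : ℝ) (hh : 0 < h) (hκ : 0 < κ) (hr : 0 < rmin) (hν : 0 < ν) :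
    ∃ ε₀ : ℝ, 0 < ε₀ ∧ ∀ (E : PEnv) (T : PTest), E.ε < ε₀ → E.Obeys B → T.Obeys B E → rmin + 2 * h ≤ T.t →
      (∀ o, 0 < T.P.p o → (T.geo (T.D o)).a + h + κ ≤ E.u T.t) →
      score γ E T ≤ K0 γ B.M E + β * (T.t - 2 * h) + γ * h + ν := by
  obtain ⟨A0, εF, -, hεF, HF⟩ := pcx_floor γ h0 h1 B hB 0
  obtain ⟨εC, hεC, HC⟩ := sl_cut γ β h0 h1 hrate hcl B hB A0 h κ rmin (ν / 2) hh hκ hr (by positivity)
  obtain ⟨εS, hεS, HS⟩ := ct_small (3 / 2 * Real.log 2) (ν / 2) (by positivity)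
  refine ⟨min εF (min εC εS), lt_min hεF (lt_min hεC hεS), ?_⟩
  intro E T hε hE hT hrt hsl
  have hεF' : E.ε < εF := lt_of_lt_of_le hε (min_le_left _ _)
  have hεC' : E.ε < εC := lt_of_lt_of_le hε ((min_le_right _ _).trans (min_le_left _ _))
  have hεS' : E.ε < εS := lt_of_lt_of_le hε ((min_le_right _ _).trans (min_le_right _ _))
  have hup := pcx_floor_upper γ E T hE.ε0 hE.ε1 (pcxFl A0 E T)
    (K0 γ B.M E + β * (T.t - 2 * h) + γ * h + ν / 2) ?_ ?_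
  · have := HS E.ε hE.ε0 hεS'
    linarith
  · intro hpos
    have a1 := HF E T hεF' hE hT (T.P.cnd fun o => ¬ pcxFl A0 E T o) (pcx_sub_cnd T T.P (pcx_sub_self T) _)
      (fun o ho => ((ent_cnd_supp T.P _ hpos).1 ho).1)
    have a2 : 0 ≤ β * (T.t - 2 * h) := mul_nonneg hβ (by linarith)
    have a3 : 0 ≤ γ * h := by positivity
    linarith
  · intro hpos
    have hsub := pcx_sub_cnd T T.P (pcx_sub_self T) (pcxFl A0 E T)
    exact HC E (T.withLaw (T.P.cnd (pcxFl A0 E T))) hεC' hE (pcx_obeys_withLaw hT _ hsub) hrt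
      (fun o ho => hsl o (hsub o (ne_of_gt ho)))
      (fun o ho => ((ent_cnd_supp T.P _ hpos).1 (ne_of_gt ho)).1)

/-- **Lemma 10.3**, the form consumed by Proposition 10.4: a fixed uncertainty slack costs a fixed deficit -/
theorem pkt_slack_gap (γ β : ℝ) (h0 : 0 < γ) (h1 : γ < 1) (hβ : γ / 2 < β) (hrate : PRate γ β) (hcl : UnivBound γ γ)
    (κ₁ : ℝ) (hκ : 0 < κ₁) :
    ∃ c₁ : ℝ, 0 < c₁ ∧ ∀ B : PBd, B.Good → ∃ ε₀ : ℝ, 0 < ε₀ ∧ ∀ (E : PEnv) (T : PTest), E.ε < ε₀ → E.Obeys B →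
      T.Obeys B E → κ₁ ≤ T.t → (∀ o, 0 < T.P.p o → (T.geo (T.D o)).a ≤ E.u T.t - κ₁) →
      c₁ ≤ K0 γ B.M E + β * T.t - score γ E T := by
  have hgap : 0 < 2 * β - γ := by linarith
  refine ⟨(2 * β - γ) * κ₁ / 8, by positivity, fun B hB => ?_⟩
  obtain ⟨ε₀, hε₀, H⟩ := pkt_slack γ β h0 h1 (by linarith) hrate hcl B hB (κ₁ / 4) (κ₁ / 4) (κ₁ / 2)
    ((2 * β - γ) * κ₁ / 8) (by positivity) (by positivity) (by positivity) (by positivity)
  refine ⟨ε₀, hε₀, fun E T hε hE hT ht hsl => ?_⟩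
  have := H E T hε hE hT (by linarith) (fun o ho => by linarith [hsl o ho])
  nlinarith

/-- **(X1)** in the interface of `Comp/ExpDefs.lean` -/
theorem pcx_slack (γ β : ℝ) (h0 : 0 < γ) (h1 : γ < 1) (hβ : γ / 2 < β) (hrate : PRate γ β) (hcl : UnivBound γ γ) :
    PcxSlack γ β := fun κ₁ hκ => pkt_slack_gap γ β h0 h1 hβ hrate hcl κ₁ hκ

end Claimed.Agent.R255
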