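-- KEEP
import Claimed.Agent.R255.Comp.BackIso

/-!
# Row 255 (BR paper), P10.4: `start_el`, `start_iso` FROM THE THREE EXPORTS      (architect helper95; prefix `pcx_`)

GLUE ONLY, no `sorry`.   `pcx_start_el`, `pcx_start_iso` have VERBATIM the conclusions of `start_el`, `start_iso` (`Comp/Start.lean`); hypotheses: `PRate`, (X1) `PcxSlack`, (X2) `PcxForced` resp. (X3) `PcxUnforced`.
-/

set_option autoImplicit false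

namespace Claimed.Agent.R255

open scoped BigOperators
open Classical
open FLaw Pkt

/-- **P10.4 (1), first cut** -/
theorem pcx_start_el (γ β : ℝ) (h0 : 0 < γ) (h1 : γ < 1) (hβ : 0 ≤ β) (hrate : PRate γ β) (hX1 : PcxSlack γ β)
    (hX2 : PcxForced γ β) (ν κ t0 h e0 : ℝ) (hκ : 0 < κ) (ht0 : 0 < t0) (ht1 : t0 ≤ 1 / 2)
    (htν : t0 ≤ ν) (he0 : e0 < ν / 2) :
    ∀ acc : ℝ, 0 < acc → ∃ ϑ : ℝ, 0 < ϑ ∧ ∀ B : PBd, B.Good →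
      ∃ (B' : PBd) (Kc ε₀ : ℝ), B'.Good ∧ B'.M = B.M ∧ 0 < ε₀ ∧
        ∀ (E : PEnv) (T : PTest), E.ε < ε₀ → SatAt γ β B ϑ E T → T.t = 1 →
          K0geLe γ B.M E (E.u 0 - ν) (K0 γ B.M E - κ) →
          ∃ T' : PTest, T'.t = t0 ∧ RState γ β true B' Kc h e0 acc 0 E T' := by
  intro acc hacc
  obtain ⟨δ, hδ, HS⟩ := pcx_select_el γ β hrate hX1 hX2 ν κ t0 h e0 hκ ht0 htν he0 acc hacc
  obtain ⟨ϑ, hϑ, HR⟩ := pcx_back_ret γ β h0 h1 hβ hrate 1 t0 ht0 (by linarith) δ hδ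
  refine ⟨ϑ, hϑ, fun B hB => ?_⟩
  obtain ⟨B', ε₁, hB', hM, hε₁, HR'⟩ := HR B hB
  obtain ⟨ε₂, hε₂, HS'⟩ := HS B' 0 hB'
  refine ⟨B', 0, min ε₁ ε₂, hB', hM, lt_min hε₁ hε₂, ?_⟩
  intro E T hε hsat htt hgap
  obtain ⟨hE, hT, hdef⟩ := hsat
  rw [htt, mul_one, mul_one] at hdef
  obtain ⟨T'', ht'', hE', hT', hdef'⟩ := HR' E T (lt_of_lt_of_le hε (min_le_left _ _)) hE hT htt (by
    unfold pcxDef
    rw [htt, mul_one]
    exact hdef)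
  rw [← hM] at hdef' hgap
  exact HS' E T'' (lt_of_lt_of_le hε (min_le_right _ _)) hE' hT' ht'' hdef' hgap

/-- **P10.4 (2), first cut** -/
theorem pcx_start_iso (γ β : ℝ) (h0 : 0 < γ) (h1 : γ < 1) (hβ : 0 ≤ β) (hrate : PRate γ β) (hX1 : PcxSlack γ β)
    (hX3 : PcxUnforced γ β) (t0 h : ℝ) (ht0 : 0 < t0) (ht1 : t0 ≤ 1 / 2) :
    ∀ acc : ℝ, 0 < acc → ∃ ϑ : ℝ, 0 < ϑ ∧ ∀ B : PBd, B.Good →
      ∃ (B' : PBd) (Kc ε₀ : ℝ), B'.Good ∧ B'.M = B.M ∧ 0 < ε₀ ∧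
        ∀ (E : PEnv) (T : PTest), E.ε < ε₀ → SatAt γ β B ϑ E T → T.t = 1 →
          ∃ T' : PTest, T'.t = t0 ∧ RState γ β false B' Kc h 0 acc 0 E T' := by
  intro acc hacc
  obtain ⟨ϑ, hϑ, HR⟩ := pcx_back_iso γ β h0 h1 hβ hrate hX1 hX3 1 t0 ht0 (by linarith) acc hacc
  refine ⟨ϑ, hϑ, fun B hB => ?_⟩
  obtain ⟨B', ε₁, hB', hM, hε₁, HR'⟩ := HR B hB
  refine ⟨B', 0, ε₁, hB', hM, hε₁, ?_⟩
  intro E T hε hsat htt
  obtain ⟨hE, hT, hdef⟩ := hsat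
  rw [htt, mul_one, mul_one] at hdef
  obtain ⟨T', ht', hE', hT', hdef', hshape⟩ := HR' E T hε hE hT htt (by
    unfold pcxDef
    rw [htt, mul_one]
    exact hdef)
  rw [← hM] at hdef'
  refine ⟨T', ht', hE', hT', hdef', ⟨E.u t0, E.u t0, ?_, ?_, ?_, ?_⟩, Or.inl rfl⟩
  · intro o ho
    obtain ⟨e1, e2⟩ := hshape o ho
    rw [e1, e2, sub_self, abs_zero]
    exact ⟨hacc.le, hacc.le⟩
  · rw [ht']
    linarith
  · intro hf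
    exact absurd hf (by simp)
  · intro _ o ho
    rw [ht']
    exact hshape o ho

end Claimed.Agent.R255
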