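-- KEEP
import Claimed.Agent.R255.Rep.State
import Claimed.Agent.R255.Comp.Nrmz
import Claimed.Agent.R255.Comp.StartPf
import Claimed.Agent.R255.Comp.ExpPf
import Claimed.Agent.R255.Comp.Slack

/-!
# Row 255 (BR paper), Sec. 10: Proposition 10.4, THE START OF THE BACKWARD CHAINS      (architect helper242)

`start_el`, `start_iso` = "make the first cut from the duration-one extremizer to an early time `t₀`" (proof of P10.4, both alternatives), in the vocabulary of `Rep/State.lean`: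
the output is a state `RState` at time `t₀` with NO incoming credit (`k_f = 0`).   QUANTIFIERS: `∀ acc ∃ ϑ` (independent of the package) `∀ B ∃ B' ε₀ ∀ E T`.
-/

set_option autoImplicit false

namespace Claimed.Agent.R255

open scoped BigOperators
open Classical
open FLaw Pkt

/-- **P10.4 (1), first cut**: a saturating duration-one system with a forced root gap has, at the early time `t₀ ≤ ν`, a saturated test of exact common shape `(b,a)`,
`a ≥ u_{t₀} - acc`, `a - b ≥ e0` (any `e0 < ν/2`). -/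
theorem start_el (γ β : ℝ) (h0 : 0 < γ) (h1 : γ < 1) (hβ : γ / 2 < β) (hβ1 : β ≤ 1) (hrate : PRate γ β)
    (hcl : UnivBound γ γ) (ν κ t0 h e0 : ℝ) (hν : 0 < ν) (hκ : 0 < κ) (ht0 : 0 < t0) (ht1 : t0 ≤ 1 / 2)
    (htν : t0 ≤ ν) (he0 : e0 < ν / 2) :
    ∀ acc : ℝ, 0 < acc → ∃ ϑ : ℝ, 0 < ϑ ∧ ∀ B : PBd, B.Good →
      ∃ (B' : PBd) (Kc ε₀ : ℝ), B'.Good ∧ B'.M = B.M ∧ 0 < ε₀ ∧
        ∀ (E : PEnv) (T : PTest), E.ε < ε₀ → SatAt γ β B ϑ E T → T.t = 1 →
          K0geLe γ B.M E (E.u 0 - ν) (K0 γ B.M E - κ) →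
          ∃ T' : PTest, T'.t = t0 ∧ RState γ β true B' Kc h e0 acc 0 E T' :=
  pcx_start_el γ β h0 h1 (by linarith) hrate (fun κ₁ hκ₁ => pkt_slack_gap γ β h0 h1 hβ hrate hcl κ₁ hκ₁)
    (pcx_forced_x2 γ β h0 h1 (by linarith) hrate) ν κ t0 h e0 hκ ht0 ht1 htν he0

/-- **P10.4 (2), first cut**: if no forced family exists, a saturating duration-one system has, at the early time `t₀`, a saturated EXACT isotropic boundary test. -/
theorem start_iso (γ β : ℝ) (h0 : 0 < γ) (h1 : γ < 1) (hβ : γ / 2 < β) (hβ1 : β ≤ 1) (hrate : PRate γ β)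
    (hcl : UnivBound γ γ) (hNF : ∀ ν κ : ℝ, 0 < ν → 0 < κ → ¬ Forced γ β ν κ) (t0 h : ℝ) (ht0 : 0 < t0)
    (ht1 : t0 ≤ 1 / 2) :
    ∀ acc : ℝ, 0 < acc → ∃ ϑ : ℝ, 0 < ϑ ∧ ∀ B : PBd, B.Good →
      ∃ (B' : PBd) (Kc ε₀ : ℝ), B'.Good ∧ B'.M = B.M ∧ 0 < ε₀ ∧
        ∀ (E : PEnv) (T : PTest), E.ε < ε₀ → SatAt γ β B ϑ E T → T.t = 1 →
          ∃ T' : PTest, T'.t = t0 ∧ RState γ β false B' Kc h 0 acc 0 E T' :=
  pcx_start_iso γ β h0 h1 (by linarith) hrate (fun κ₁ hκ₁ => pkt_slack_gap γ β h0 h1 hβ hrate hcl κ₁ hκ₁)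
    (pcx_unforced_x3 γ β h0 h1 hNF) t0 h ht0 ht1

end Claimed.Agent.R255
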