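-- KEEP
import Claimed.Agent.R255.Comp.Start
import Claimed.Agent.R255.Rep.Step

/-!
# Row 255 (BR paper), Secs. 10.4 + 11.8: ASSEMBLY OF THE BACKWARD CHAINS      (architect helper242)

GLUE ONLY.  `pc_chain_el`, `pc_chain_iso` have VERBATIM the statements of the contracts `chain_el`, `chain_iso` of `Pkt/Top.lean`; they are proved from
* `start_el`, `start_iso`  (`Comp/Start.lean`, P10.4),
* `step_el`, `step_iso`    (`Rep/Step.lean`, Sec. 11),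
* the duration normalisation (`Comp/Nrmz.lean`).
-/

set_option autoImplicit false

namespace Claimed.Agent.R255

open scoped BigOperators
open Classical
open FLaw Pkt

/-- a state of accuracy `acc` is a state of every larger accuracy -/
theorem RState.mono {γ β : ℝ} {el : Bool} {B : PBd} {Kc h e0 acc acc' kf : ℝ} {E : PEnv} {T : PTest}
    (hacc : acc ≤ acc') (S : RState γ β el B Kc h e0 acc kf E T) : RState γ β el B Kc h e0 acc' kf E T := by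
  refine ⟨S.obE, S.obT, S.defi.trans hacc, ?_, ?_⟩
  · obtain ⟨b, a, h1, h2, h3, h4⟩ := S.shape
    exact ⟨b, a, fun o ho => ⟨(h1 o ho).1.trans hacc, (h1 o ho).2.trans hacc⟩, by linarith, h3, h4⟩
  · rcases S.credit with h | ⟨α, β', Pf, Wf, nf, hC, hI⟩
    · exact Or.inl h
    · refine Or.inr ⟨α, β', Pf, Wf, nf, rep_credit_mono hC ?_, hI⟩
      exact Real.rpow_le_rpow_of_exponent_ge S.obE.ε0 S.obE.ε1.le (by linarith)

/-- `n + 1` successive prepared cuts, elongated case -/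
theorem pc_steps_el (γ β : ℝ) (h0 : 0 < γ) (h1 : γ < 1) (hβ : γ / 2 < β) (hβ1 : β ≤ 1) (hrate : PRate γ β)
    (hcl : UnivBound γ γ) (ν κ h e0 : ℝ) (hκ : 0 < κ) (hh : 0 < h) (hecc : 20 * h < γ * e0)
    (he0 : e0 < ν / 2) (a : ℝ) (ha : 0 < a) (ha2 : h + a ≤ 2) (n : ℕ) :
    ∃ acc : ℝ, 0 < acc ∧ ∀ (B : PBd) (Kc : ℝ), B.Good → ∃ ε₀ : ℝ, 0 < ε₀ ∧
      ∀ (E : PEnv) (T : PTest) (kf : ℝ), E.ε < ε₀ → 0 ≤ kf → kf ≤ 2 →
        RState γ β true B Kc h e0 acc kf E T →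
        K0geLe γ B.M E (E.u 0 - ν) (K0 γ B.M E - κ) → (2 * (n : ℝ) + 3) * h ≤ T.t → T.t ≤ ν →
        ∃ k : ℝ, kf + ((n : ℝ) + 1) * ((4 * β - 2 * γ) * h - a) ≤ k ∧ k ≤ h + a := by
  induction n with
  | zero =>
    obtain ⟨acc, hacc, H⟩ := step_el γ β h0 h1 hβ hβ1 hrate hcl ν κ h e0 hκ hh hecc he0 a ha
    refine ⟨acc, hacc, fun B Kc hB => ?_⟩
    obtain ⟨B', Kc', ε₀, -, -, hε₀, H'⟩ := H B Kc hB
    refine ⟨ε₀, hε₀, fun E T kf he hk0 hk2 hS hG ht1 ht2 => ?_⟩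
    obtain ⟨T', k, -, -, hk, -, hk'⟩ := H' E T kf he hk0 hk2 hS hG (by simpa using ht1) ht2
    exact ⟨k, by simp only [Nat.cast_zero, zero_add, one_mul]; linarith, hk'⟩
  | succ n ih =>
    obtain ⟨accn, haccn, IH⟩ := ih
    obtain ⟨acc, hacc, H⟩ := step_el γ β h0 h1 hβ hβ1 hrate hcl ν κ h e0 hκ hh hecc he0 (min a accn)
      (lt_min ha haccn)
    refine ⟨acc, hacc, fun B Kc hB => ?_⟩
    obtain ⟨B', Kc', ε₁, hB', hM, hε₁, H'⟩ := H B Kc hB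
    obtain ⟨ε₂, hε₂, IH'⟩ := IH B' Kc' hB'
    refine ⟨min ε₁ ε₂, lt_min hε₁ hε₂, fun E T kf he hk0 hk2 hS hG ht1 ht2 => ?_⟩
    push_cast at ht1
    obtain ⟨T', k₁, hT', hS', hk, hk0', hk'⟩ := H' E T kf (lt_of_lt_of_le he (min_le_left _ _)) hk0 hk2 hS hG
      (by nlinarith) ht2
    have hmin : min a accn ≤ a := min_le_left _ _
    obtain ⟨k, hk1, hk2'⟩ := IH' E T' k₁ (lt_of_lt_of_le he (min_le_right _ _)) hk0' (by linarith)
      (hS'.mono (min_le_right _ _)) (by rw [hM]; exact hG) (by rw [hT']; nlinarith) (by rw [hT']; linarith)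
    refine ⟨k, ?_, hk2'⟩
    push_cast
    linarith

/-- `n + 1` successive prepared cuts, isotropic case -/
theorem pc_steps_iso (γ β : ℝ) (h0 : 0 < γ) (h1 : γ < 1) (hβ : γ / 2 < β) (hβ1 : β ≤ 1) (hrate : PRate γ β)
    (hcl : UnivBound γ γ) (hNF : ∀ ν κ : ℝ, 0 < ν → 0 < κ → ¬ Forced γ β ν κ) (h : ℝ) (hh : 0 < h)
    (a : ℝ) (ha : 0 < a) (ha2 : 2 * h + a ≤ 3) (n : ℕ) :
    ∃ acc : ℝ, 0 < acc ∧ ∀ (B : PBd) (Kc : ℝ), B.Good → ∃ ε₀ : ℝ, 0 < ε₀ ∧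
      ∀ (E : PEnv) (T : PTest) (kf : ℝ), E.ε < ε₀ → 0 ≤ kf → kf ≤ 3 →
        RState γ β false B Kc h 0 acc kf E T → (2 * (n : ℝ) + 3) * h ≤ T.t → h < E.u T.t →
        ∃ k : ℝ, kf + ((n : ℝ) + 1) * ((4 * β - 2 * γ) * h - a) ≤ k ∧ k ≤ 2 * h + a := by
  induction n with
  | zero =>
    obtain ⟨acc, hacc, H⟩ := step_iso γ β h0 h1 hβ hβ1 hrate hcl hNF h hh a ha
    refine ⟨acc, hacc, fun B Kc hB => ?_⟩
    obtain ⟨B', Kc', ε₀, -, -, hε₀, H'⟩ := H B Kc hB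
    refine ⟨ε₀, hε₀, fun E T kf he hk0 hk2 hS ht1 ht2 => ?_⟩
    obtain ⟨T', k, -, -, hk, -, hk'⟩ := H' E T kf he hk0 hk2 hS (by simpa using ht1) ht2
    exact ⟨k, by simp only [Nat.cast_zero, zero_add, one_mul]; linarith, hk'⟩
  | succ n ih =>
    obtain ⟨accn, haccn, IH⟩ := ih
    obtain ⟨acc, hacc, H⟩ := step_iso γ β h0 h1 hβ hβ1 hrate hcl hNF h hh (min a accn) (lt_min ha haccn)
    refine ⟨acc, hacc, fun B Kc hB => ?_⟩
    obtain ⟨B', Kc', ε₁, hB', hM, hε₁, H'⟩ := H B Kc hB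
    obtain ⟨ε₂, hε₂, IH'⟩ := IH B' Kc' hB'
    refine ⟨min ε₁ ε₂, lt_min hε₁ hε₂, fun E T kf he hk0 hk2 hS ht1 ht2 => ?_⟩
    push_cast at ht1
    obtain ⟨T', k₁, hT', hS', hk, hk0', hk'⟩ := H' E T kf (lt_of_lt_of_le he (min_le_left _ _)) hk0 hk2 hS
      (by nlinarith) ht2
    have hmin : min a accn ≤ a := min_le_left _ _
    have hu : h < E.u T'.t := by
      rw [hT']; unfold PEnv.u at ht2 ⊢; linarith
    obtain ⟨k, hk1, hk2'⟩ := IH' E T' k₁ (lt_of_lt_of_le he (min_le_right _ _)) hk0' (by linarith)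
      (hS'.mono (min_le_right _ _)) (by rw [hT']; nlinarith) hu
    refine ⟨k, ?_, hk2'⟩
    push_cast
    linarith

/-- an admissible test has `u_t ≥ 0` -/
theorem pc_u_nonneg {B : PBd} {E : PEnv} {T : PTest} (hT : T.Obeys B E) : 0 ≤ E.u T.t := by
  obtain ⟨o, ho⟩ : ∃ o, 0 < T.P.p o := by
    by_contra hcon
    push Not at hcon
    have hz : ∑ o, T.P.p o ≤ 0 := Finset.sum_nonpos fun o _ => hcon o
    rw [T.P.sum_one] at hz
    linarith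
  have hg := hT.geo o ho
  exact le_trans hg.1 (le_trans hg.2.1 hg.2.2.2.1)

/-- **forced alternative** (statement of `Pkt.chain_el`) -/
theorem pc_chain_el (γ β : ℝ) (h0 : 0 < γ) (h1 : γ < 1) (hβ : γ / 2 < β) (hβ1 : β ≤ 1) (hrate : PRate γ β)
    (hcl : UnivBound γ γ) (ν κ : ℝ) (hν : 0 < ν) (hκ : 0 < κ) (hF : Forced γ β ν κ) : False := by
  have hc0 : 0 < 4 * β - 2 * γ := by linarith
  obtain ⟨n, hn⟩ := exists_nat_gt (2 / (4 * β - 2 * γ))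
  rw [div_lt_iff₀ hc0] at hn
  have hn0 : (0 : ℝ) ≤ n := Nat.cast_nonneg n
  set t0 : ℝ := min ν (1 / 2) with ht0
  have ht0pos : 0 < t0 := lt_min hν (by norm_num)
  set e0 : ℝ := ν / 4 with he0
  set h : ℝ := min (t0 / (2 * (n : ℝ) + 3)) (γ * e0 / 40) with hh
  have hhpos : 0 < h := lt_min (by positivity) (by positivity)
  have hh1 : (2 * (n : ℝ) + 3) * h ≤ t0 := by
    have : h ≤ t0 / (2 * (n : ℝ) + 3) := min_le_left _ _
    rwa [le_div_iff₀ (by positivity), mul_comm] at this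
  have hh2 : h ≤ γ * e0 / 40 := min_le_right _ _
  have hge : 0 < γ * e0 := by positivity
  have hh3 : h ≤ 1 / 2 := by
    have : t0 ≤ 1 / 2 := min_le_right _ _
    nlinarith
  set a : ℝ := h / ((n : ℝ) + 3) with ha
  have hapos : 0 < a := by positivity
  have ha1 : ((n : ℝ) + 3) * a = h := by
    rw [ha]; field_simp
  have hah : a ≤ h := by nlinarith
  obtain ⟨acc, hacc, HS⟩ := pc_steps_el γ β h0 h1 hβ hβ1 hrate hcl ν κ h e0 hκ hhpos (by linarith)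
    (by rw [he0]; linarith) a hapos (by linarith) n
  obtain ⟨ϑ, hϑ, HST⟩ := start_el γ β h0 h1 hβ hβ1 hrate hcl ν κ t0 h e0 hν hκ ht0pos (min_le_right _ _)
    (min_le_left _ _) (by rw [he0]; linarith) acc hacc
  obtain ⟨B, hB, HF⟩ := hF ϑ hϑ
  obtain ⟨B', Kc, ε₁, hB', hM, hε₁, HST'⟩ := HST B.nrmz (nz_good B hB)
  obtain ⟨ε₂, hε₂, HS'⟩ := HS B' Kc hB'
  have hmin : 0 < min ε₁ ε₂ := lt_min hε₁ hε₂
  obtain ⟨E, T, hε, hSat, hG⟩ := HF ((min ε₁ ε₂) ^ (1 / B.tmin)) (Real.rpow_pos_of_pos hmin _)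
  have hlt := nz_eps_lt B hB E hSat.1 T.t (min ε₁ ε₂) hSat.2.1.t0 hmin hε
  have hgap := nz_gap γ B hB ν κ E T hSat.1 hSat.2.1 hG
  obtain ⟨T', hT', hR⟩ := HST' (E.nrmz T.t) (T.nrmz T.t) (lt_of_lt_of_le hlt (min_le_left _ _))
    (nz_satAt γ β B hB ϑ E T hSat) (nz_t B hB E T hSat.2.1) hgap
  obtain ⟨k, hk1, hk2⟩ := HS' (E.nrmz T.t) T' 0 (lt_of_lt_of_le hlt (min_le_right _ _)) le_rfl (by norm_num) hR
    (by rw [hM]; exact hgap) (by rw [hT']; exact hh1) (by rw [hT']; exact min_le_left _ _)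
  nlinarith

/-- **unforced alternative** (statement of `Pkt.chain_iso`) -/
theorem pc_chain_iso (γ β : ℝ) (h0 : 0 < γ) (h1 : γ < 1) (hβ : γ / 2 < β) (hβ1 : β ≤ 1) (hrate : PRate γ β)
    (hcl : UnivBound γ γ) (hsat : Saturated γ β)
    (hNF : ∀ ν κ : ℝ, 0 < ν → 0 < κ → ¬ Forced γ β ν κ) : False := by
  have hc0 : 0 < 4 * β - 2 * γ := by linarith
  obtain ⟨n, hn⟩ := exists_nat_gt (3 / (4 * β - 2 * γ))
  rw [div_lt_iff₀ hc0] at hn
  have hn0 : (0 : ℝ) ≤ n := Nat.cast_nonneg n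
  set t0 : ℝ := 1 / 4 with ht0
  set h : ℝ := t0 / (2 * (n : ℝ) + 3) with hh
  have hhpos : 0 < h := by positivity
  have hh1 : (2 * (n : ℝ) + 3) * h = t0 := by
    rw [hh]; field_simp
  have hh3 : h ≤ 1 / 12 := by
    have : 0 ≤ (n : ℝ) * h := by positivity
    rw [ht0] at hh1
    linarith
  set a : ℝ := h / ((n : ℝ) + 3) with ha
  have hapos : 0 < a := by positivity
  have ha1 : ((n : ℝ) + 3) * a = h := by
    rw [ha]; field_simp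
  have hah : a ≤ h := by nlinarith
  obtain ⟨acc, hacc, HS⟩ := pc_steps_iso γ β h0 h1 hβ hβ1 hrate hcl hNF h hhpos a hapos (by linarith) n
  obtain ⟨ϑ, hϑ, HST⟩ := start_iso γ β h0 h1 hβ hβ1 hrate hcl hNF t0 h (by norm_num) (by norm_num) acc hacc
  obtain ⟨B, hB, HF⟩ := hsat ϑ hϑ
  obtain ⟨B', Kc, ε₁, hB', hM, hε₁, HST'⟩ := HST B.nrmz (nz_good B hB)
  obtain ⟨ε₂, hε₂, HS'⟩ := HS B' Kc hB'
  have hmin : 0 < min ε₁ ε₂ := lt_min hε₁ hε₂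
  obtain ⟨E, T, hε, hSat⟩ := HF ((min ε₁ ε₂) ^ (1 / B.tmin)) (Real.rpow_pos_of_pos hmin _)
  have hlt := nz_eps_lt B hB E hSat.1 T.t (min ε₁ ε₂) hSat.2.1.t0 hmin hε
  have hSat' := nz_satAt γ β B hB ϑ E T hSat
  have ht1 := nz_t B hB E T hSat.2.1
  obtain ⟨T', hT', hR⟩ := HST' (E.nrmz T.t) (T.nrmz T.t) (lt_of_lt_of_le hlt (min_le_left _ _)) hSat' ht1
  have hu := pc_u_nonneg hSat'.2.1
  rw [ht1] at hu
  have hu' : h < (E.nrmz T.t).u T'.t := by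
    rw [hT']; unfold PEnv.u at hu ⊢; rw [ht0]; linarith
  obtain ⟨k, hk1, hk2⟩ := HS' (E.nrmz T.t) T' 0 (lt_of_lt_of_le hlt (min_le_right _ _)) le_rfl (by norm_num) hR
    (by rw [hT']; exact hh1.le) hu'
  nlinarith

end Claimed.Agent.R255
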